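import Claimed.Agent.R316.B5.Comp
import Claimed.Agent.R316.Pack014_2

/-!
# Row 316, B5 (first part): API of `PshOn` (real valued plurisubharmonic functions on open subsets of `ℂ^ι`)

Owner of the statements: helper84.  PAPER FREE.  `PshOn` is defined in `Core/Psh.lean` (usc + sub-mean value inequality on closed affine discs,
tested against continuous majorants on the circle).  Smooth case: `CW/LeviSub.lean` (`pshOn_of_levi`, `levi_posSemidef_of_pshOn`,
`levi_posSemidef_of_pshOn_touching`).  Mollifiers: `B6E/Moll.lean` (`wsMol k`, scale `1/(k+1)`, sorry free).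

Leaves:
* B5-PSH-A: CLOSED: `PshOn.mono`, `pshOn_const`, `PshOn.const_mul`, `PshOn.add`, `PshOn.max` are in `B5/Basic.lean` (leaf B5-A2); `pshOn_iSup`, `PshOn.submean` proved here.
* B5-PSH-B: DONE (helper4): `pshOn_of_support` (lower support functions ⟹ psh), from `b5_pshOn_of_visc`.
* B5-PSH-C: DONE (helper4): `levi_wsMol_posSemidef`, `wsMol_tendsto_of_continuousOn`, `wsMol_ge_of_ball`, `wsMol_le_of_ball` here; `levi_wsMol_ge` in `B5/PshC.lean` (import it).

Plan for `pshOn_of_support`.  Fix a closed disc `ζ ↦ z + ζ w ⊆ U` and a continuous majorant `φ` on the circle, `ε > 0`.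
Choose a real trigonometric polynomial `p` with `φ < p < φ + ε` (Stone-Weierstrass / Fejér, `span_fourier_closure_eq_top`); `p` is the boundary value of
`P = Re (complex polynomial)`, harmonic, `P 0 =` mean of `p`.  If `v(z) > P 0 + ε'`, the usc function `ζ ↦ v (z + ζ w) - P ζ + ε' |ζ|²` has its maximum
over the closed disc at an interior point `ζ₀`; the support function `s` at `z + ζ₀ w` in the direction `w` gives a `C²` function
`a ↦ s a - P (ζ₀ + a) + ε' |ζ₀ + a|²` with a local maximum at `0` and Laplacian `≥ 4 ε' > 0`: contradiction.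
-/

set_option autoImplicit false
open scoped ContDiff ComplexOrder Topology
open MeasureTheory Filter

namespace Claimed.Agent.R316

variable {ι : Type} [Fintype ι]

/-! ### B5-PSH-A: algebra -/

/- `PshOn.mono`, `pshOn_const`, `PshOn.const_mul`, `PshOn.add`, `PshOn.max` (same statements) now live in `B5/Basic.lean` (helper4, name clash removed 09:50Z). -/

/-- an upper semicontinuous supremum of psh functions is psh. -/
theorem pshOn_iSup {α : Type} {U : Set (CE ι)} {u : α → CE ι → ℝ} {v : CE ι → ℝ} (hu : ∀ a, PshOn U (u a))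
    (hv : UpperSemicontinuousOn v U) (hsup : ∀ z ∈ U, IsLUB (Set.range fun a => u a z) (v z)) : PshOn U v := by
  refine ⟨hv, fun z w hd φ hφ hle => ?_⟩
  have hz : z ∈ U := by simpa using hd 0 (by simp)
  refine (hsup z hz).2 ?_
  rintro _ ⟨a, rfl⟩
  refine (hu a).2 z w hd φ hφ fun θ => le_trans ?_ (hle θ)
  exact (hsup _ (hd _ (by rw [Complex.norm_exp_ofReal_mul_I]))).1 ⟨a, rfl⟩

/-- the sub-mean value inequality for a CONTINUOUS psh function. -/
theorem PshOn.submean {U : Set (CE ι)} {v : CE ι → ℝ} (h : PshOn U v) (hc : ContinuousOn v U) (z w : CE ι)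
    (hd : ∀ ζ : ℂ, ‖ζ‖ ≤ 1 → z + ζ • w ∈ U) :
    v z ≤ (2 * Real.pi)⁻¹ * ∫ θ in (0 : ℝ)..(2 * Real.pi), v (z + Complex.exp ((θ : ℂ) * Complex.I) • w) :=
  h.2 z w hd _ (hc.comp_continuous (by fun_prop) fun θ => hd _ (by rw [Complex.norm_exp_ofReal_mul_I]))
    fun _ => le_rfl

/-! ### B5-PSH-B: lower support functions -/


variable {ι : Type} [Fintype ι]

/-- a `C²` function of one complex variable with a local minimum at `0` has nonnegative Laplacian there. -/
theorem b5_laplacian_nonneg_of_isLocalMin {h : ℂ → ℝ} (hh : ContDiffAt ℝ 2 h 0)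
    (hmin : ∀ᶠ a in 𝓝 (0 : ℂ), h 0 ≤ h a) : 0 ≤ Laplacian.laplacian h 0 := by
  have hpr : ContDiff ℝ 2 (fun y : CE (Fin 1) => y 0) :=
    ((EuclideanSpace.proj (𝕜 := ℂ) (0 : Fin 1)).restrictScalars ℝ).contDiff
  have hf : ContDiffAt ℝ 2 (fun y : CE (Fin 1) => h (y 0)) 0 :=
    ContDiffAt.comp (0 : CE (Fin 1)) (g := h) (f := fun y : CE (Fin 1) => y 0) (by simpa using hh)
      hpr.contDiffAt
  have hle : ∀ᶠ w in 𝓝 (0 : CE (Fin 1)), h 0 ≤ h (w 0) := by
    have ht : Tendsto (fun y : CE (Fin 1) => y 0) (𝓝 0) (𝓝 (0 : ℂ)) := by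
      have := hpr.continuous.tendsto 0
      simpa using this
    exact ht.eventually hmin
  have h1 := levi_posSemidef_of_pshOn_touching isOpen_univ (pshOn_const Set.univ (h 0))
    (Set.mem_univ (0 : CE (Fin 1))) hf hle (by simp)
  have h2 := (levi_posSemidef_iff hf).1 h1 (fun j => (EuclideanSpace.single (0 : Fin 1) (1 : ℂ)) j)
  rw [qf_levi_eq_laplacian hf] at h2
  have e : (fun ζ : ℂ => h ((0 + ζ • EuclideanSpace.single (0 : Fin 1) (1 : ℂ) : CE (Fin 1)) 0)) = h := by
    funext ζ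
    simp
  rw [e] at h2
  linarith

/-- **support ⟹ psh.**  `v` usc on the open set `U`; at every point `z₀` and in every direction `V` there is a `C²` function `s` of one complex variable
with `s 0 = v z₀`, `s a ≤ v (z₀ + a V)` for small `a`, and `Δ s (0) ≥ 0`.  Then `v` is psh. -/
theorem pshOn_of_support {U : Set (CE ι)} (hU : IsOpen U) {v : CE ι → ℝ} (husc : UpperSemicontinuousOn v U)
    (h : ∀ z₀ ∈ U, ∀ V : CE ι, ∃ s : ℂ → ℝ, ContDiffAt ℝ 2 s 0 ∧ s 0 = v z₀ ∧
      (∀ᶠ a in 𝓝 (0 : ℂ), s a ≤ v (z₀ + a • V)) ∧ 0 ≤ Laplacian.laplacian s 0) :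
    PshOn U v := by
  classical
  refine b5_pshOn_of_visc hU husc fun z hz q hq hle heq => ?_
  have hq2 : ContDiffAt ℝ 2 q z := (hq.of_le (by norm_cast)).contDiffAt
  rw [levi_posSemidef_iff hq2]
  intro a
  obtain ⟨s, hs, hs0, hsle, hΔ⟩ := h z hz (WithLp.toLp 2 a)
  set A : CE ι := WithLp.toLp 2 a with hA
  have hAa : (fun j => A j) = a := rfl
  rw [← hAa, qf_levi_eq_laplacian hq2]
  have hline : ContDiff ℝ 2 (fun ζ : ℂ => z + ζ • A) :=
    contDiff_const.add (contDiff_id.smul contDiff_const)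
  have hg : ContDiffAt ℝ 2 (fun ζ : ℂ => q (z + ζ • A)) 0 := by
    have hf' : ContDiffAt ℝ 2 q (z + (0 : ℂ) • A) := by simpa using hq2
    exact hf'.comp (0 : ℂ) hline.contDiffAt
  have hmin : ∀ᶠ ζ in 𝓝 (0 : ℂ), ((fun ζ : ℂ => q (z + ζ • A)) - s) 0 ≤
      ((fun ζ : ℂ => q (z + ζ • A)) - s) ζ := by
    have ht : Tendsto (fun ζ : ℂ => z + ζ • A) (𝓝 0) (𝓝 z) := by
      have := hline.continuous.tendsto 0
      simpa using this
    filter_upwards [ht.eventually hle, hsle] with ζ h1 h2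
    simp only [Pi.sub_apply, zero_smul, add_zero, heq, hs0, sub_self]
    linarith
  have h3 : 0 ≤ Laplacian.laplacian ((fun ζ : ℂ => q (z + ζ • A)) - s) 0 :=
    b5_laplacian_nonneg_of_isLocalMin (hg.sub hs) hmin
  rw [hg.laplacian_sub hs] at h3
  linarith

/-! ### B5-PSH-C: mollification -/

/-- averages of translates of a psh function against a nonnegative bounded kernel with bounded support satisfy the sub-mean value inequality. -/
theorem b5_conv_le_cav {U : Set (CE ι)} {v : CE ι → ℝ} (hU : IsOpen U) (h : PshOn U v) {ρ : CE ι → ℝ}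
    (hρm : Measurable ρ) (hρ0 : ∀ t, 0 ≤ ρ t) (hρb : ∃ C : ℝ, ∀ t, ρ t ≤ C) {r : ℝ}
    (hρs : ∀ t, r < ‖t‖ → ρ t = 0) {z w' : CE ι} (hd : b5Disc (b5Shrink U r) z w')
    (hcont : Continuous fun θ : ℝ => ∫ t, ρ t * v (z + lsE θ • w' + t)) :
    ∫ t, ρ t * v (z + t) ≤
      (2 * Real.pi)⁻¹ * ∫ θ in (0 : ℝ)..(2 * Real.pi), ∫ t, ρ t * v (z + lsE θ • w' + t) := by
  have hpi : (0 : ℝ) < 2 * Real.pi := by positivity
  have hρb' : ∃ C : ℝ, ∀ t, |ρ t| ≤ C := by
    obtain ⟨C, hC⟩ := hρb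
    exact ⟨C, fun t => by rw [abs_of_nonneg (hρ0 t)]; exact hC t⟩
  have hρi : Integrable ρ := b5_integrable_of_bdd_support hρm hρb' hρs
  set c : ℝ := ∫ w : CE ι, ρ w with hc
  set V := U.indicator v with hV
  have hVm : Measurable V := b5_measurable_indicator hU h.1
  have hmem : ∀ (ζ : ℂ) (w : CE ι), ‖ζ‖ ≤ 1 → ‖w‖ ≤ r → z + ζ • w' + w ∈ U :=
    fun ζ w hζ hw => hd ζ hζ (by simpa [dist_eq_norm] using hw)
  obtain ⟨C, hC⟩ : ∃ C, ∀ (ζ : ℂ) (w : CE ι), ‖ζ‖ ≤ 1 → ‖w‖ ≤ r → v (z + ζ • w' + w) ≤ C := by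
    have hK : IsCompact ((fun p : ℂ × CE ι => z + p.1 • w' + p.2) ''
        (Metric.closedBall 0 1 ×ˢ Metric.closedBall 0 r)) :=
      ((isCompact_closedBall 0 1).prod (isCompact_closedBall 0 r)).image (by fun_prop)
    have hsub : ((fun p : ℂ × CE ι => z + p.1 • w' + p.2) ''
        (Metric.closedBall 0 1 ×ˢ Metric.closedBall 0 r)) ⊆ U := by
      rintro _ ⟨p, ⟨h1, h2⟩, rfl⟩
      exact hmem _ _ (by simpa using h1) (by simpa using h2)
    obtain ⟨C, hC⟩ := (h.1.mono hsub).bddAbove_of_isCompact hK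
    exact ⟨C, fun ζ w hζ hw => hC ⟨_, ⟨(ζ, w), ⟨by simpa using hζ, by simpa using hw⟩, rfl⟩, rfl⟩⟩
  let f : ℝ → CE ι → ℝ := fun θ w => ρ w * (C - V (z + lsE θ • w' + w))
  have hfe : ∀ θ w, f θ w = C * ρ w - ρ w * v (z + lsE θ • w' + w) := by
    intro θ w
    by_cases hw : ‖w‖ ≤ r
    · simp only [f, hV, Set.indicator_of_mem (hmem _ w (lsE_norm θ).le hw)]
      ring
    · simp [f, hρs w (not_le.1 hw)]
  have hf0 : ∀ θ w, 0 ≤ f θ w := by
    intro θ w
    by_cases hw : ‖w‖ ≤ r
    · rw [hfe, mul_comm C, ← mul_sub]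
      exact mul_nonneg (hρ0 w) (by linarith [hC _ w (lsE_norm θ).le hw])
    · simp [f, hρs w (not_le.1 hw)]
  have hfm : Measurable (fun p : ℝ × CE ι => f p.1 p.2) := by
    have hcc : Continuous fun p : ℝ × CE ι => z + lsE p.1 • w' + p.2 := by
      have := lsE_continuous
      fun_prop
    exact (hρm.comp measurable_snd).mul (measurable_const.sub (hVm.comp hcc.measurable))
  have hzθ : ∀ θ, z + lsE θ • w' ∈ b5Shrink U r := fun θ => hd.circle_mem θ
  have hI : ∀ y, y ∈ b5Shrink U r → Integrable (fun w : CE ι => C * ρ w - ρ w * v (y + w)) ∧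
      ∫ w : CE ι, (C * ρ w - ρ w * v (y + w)) = C * c - ∫ w, ρ w * v (y + w) := by
    intro y hy
    have i1 := h.integrable_weighted hU hy hρm hρb' hρs
    refine ⟨(hρi.const_mul C).sub i1, ?_⟩
    rw [integral_sub (hρi.const_mul C) i1, integral_const_mul]
  have hfi : ∀ θ, Integrable (f θ) := fun θ => by
    have := (hI _ (hzθ θ)).1
    exact this.congr (Eventually.of_forall fun w => (hfe θ w).symm)
  have hfint : ∀ θ, ∫ w, f θ w = C * c - ∫ w, ρ w * v (z + lsE θ • w' + w) := fun θ => by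
    rw [← (hI _ (hzθ θ)).2]
    exact integral_congr_ae (Eventually.of_forall fun w => hfe θ w)
  set g : CE ι → ℝ := fun w => C * ρ w - ρ w * v (z + w) with hg
  have hg0 : ∀ w, 0 ≤ g w := by
    intro w
    by_cases hw : ‖w‖ ≤ r
    · have := hC 0 w (by simp) hw
      simp only [zero_smul, add_zero] at this
      simp only [hg]
      rw [mul_comm C, ← mul_sub]
      exact mul_nonneg (hρ0 w) (by linarith)
    · simp [hg, hρs w (not_le.1 hw)]
  obtain ⟨hgi, hgint⟩ := hI z hd.center_mem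
  have hinner : ∀ w, ∫⁻ θ in Set.Ioc 0 (2 * Real.pi), ENNReal.ofReal (f θ w) ≤
      ENNReal.ofReal (2 * Real.pi * g w) := by
    intro w
    by_cases hw : ‖w‖ ≤ r
    · have hdw : b5Disc U (z + w) w' := fun ζ hζ => by
        have := hmem ζ w hζ hw
        rwa [add_right_comm] at this
      have i1 := h.circle_integrable hdw
      have e1 : ∀ θ, f θ w = ρ w * (C - v (z + w + lsE θ • w')) := fun θ => by
        rw [hfe, add_right_comm]
        ring
      have i2 : IntervalIntegrable (fun θ => f θ w) volume 0 (2 * Real.pi) := by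
        simp only [e1]
        exact (((intervalIntegrable_const).sub i1).const_mul _)
      rw [← ofReal_integral_eq_lintegral_ofReal i2.1 (Eventually.of_forall fun θ => hf0 θ w)]
      refine ENNReal.ofReal_le_ofReal ?_
      rw [← intervalIntegral.integral_of_le hpi.le]
      simp only [e1]
      rw [intervalIntegral.integral_const_mul, intervalIntegral.integral_sub intervalIntegrable_const i1,
        intervalIntegral.integral_const, sub_zero, smul_eq_mul]
      have h3 := h.le_cav hdw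
      rw [b5Cav, inv_mul_eq_div, le_div_iff₀ hpi] at h3
      have h4 : ρ w * (2 * Real.pi * C - ∫ θ in (0 : ℝ)..(2 * Real.pi), v (z + w + lsE θ • w')) ≤
          ρ w * (2 * Real.pi * C - v (z + w) * (2 * Real.pi)) :=
        mul_le_mul_of_nonneg_left (by linarith) (hρ0 w)
      simp only [hg]
      linarith
    · simp [f, hg, hρs w (not_le.1 hw)]
  have hθ0 : ∀ θ, 0 ≤ C * c - ∫ w, ρ w * v (z + lsE θ • w' + w) := fun θ => by
    rw [← hfint θ]
    exact integral_nonneg (hf0 θ)
  have hii : IntervalIntegrable (fun θ => C * c - ∫ w, ρ w * v (z + lsE θ • w' + w)) volume 0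
      (2 * Real.pi) := (continuous_const.sub hcont).intervalIntegrable _ _
  have key : ENNReal.ofReal (∫ θ in (0 : ℝ)..(2 * Real.pi), (C * c - ∫ w, ρ w * v (z + lsE θ • w' + w)))
      ≤ ENNReal.ofReal (2 * Real.pi * (C * c - ∫ w, ρ w * v (z + w))) := by
    calc ENNReal.ofReal (∫ θ in (0 : ℝ)..(2 * Real.pi), (C * c - ∫ w, ρ w * v (z + lsE θ • w' + w)))
        = ∫⁻ θ in Set.Ioc 0 (2 * Real.pi),
            ENNReal.ofReal (C * c - ∫ w, ρ w * v (z + lsE θ • w' + w)) := by
          rw [intervalIntegral.integral_of_le hpi.le]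
          exact ofReal_integral_eq_lintegral_ofReal hii.1 (Eventually.of_forall hθ0)
      _ = ∫⁻ θ in Set.Ioc 0 (2 * Real.pi), ∫⁻ w, ENNReal.ofReal (f θ w) := by
          refine lintegral_congr fun θ => ?_
          rw [← hfint θ]
          exact ofReal_integral_eq_lintegral_ofReal (hfi θ) (Eventually.of_forall (hf0 θ))
      _ = ∫⁻ w, ∫⁻ θ in Set.Ioc 0 (2 * Real.pi), ENNReal.ofReal (f θ w) :=
          lintegral_lintegral_swap hfm.ennreal_ofReal.aemeasurable
      _ ≤ ∫⁻ w, ENNReal.ofReal (2 * Real.pi * g w) := lintegral_mono hinner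
      _ = ENNReal.ofReal (∫ w, 2 * Real.pi * g w) :=
          (ofReal_integral_eq_lintegral_ofReal (hgi.const_mul _)
            (Eventually.of_forall fun w => mul_nonneg hpi.le (hg0 w))).symm
      _ = ENNReal.ofReal (2 * Real.pi * (C * c - ∫ w, ρ w * v (z + w))) := by
          rw [integral_const_mul, hgint]
  have hr0 : 0 ≤ 2 * Real.pi * (C * c - ∫ w, ρ w * v (z + w)) := by
    rw [← hgint]
    exact mul_nonneg hpi.le (integral_nonneg hg0)
  rw [ENNReal.ofReal_le_ofReal_iff hr0,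
    intervalIntegral.integral_sub intervalIntegrable_const (hcont.intervalIntegrable _ _),
    intervalIntegral.integral_const, sub_zero, smul_eq_mul] at key
  rw [inv_mul_eq_div, le_div_iff₀ hpi]
  linarith

theorem b5_wsMol_eq_add (k : ℕ) (v : CE ι → ℝ) (x : CE ι) :
    B6E.wsMol k v x = ∫ t, B6E.wsRho k t * v (x + t) := by
  rw [B6E.wsMol_eq', ← integral_neg_eq_self]
  refine integral_congr_ae (Eventually.of_forall fun t => ?_)
  simp only [B6E.wsRho_neg, smul_eq_mul, sub_neg_eq_add]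

theorem b5_wsRho_le (k : ℕ) : ∃ C : ℝ, ∀ t : CE ι, B6E.wsRho k t ≤ C := by
  obtain ⟨C, hC⟩ := (B6E.wsRho_hasCompactSupport (E := CE ι) k).exists_bound_of_continuous
    (B6E.wsRho_contDiff k).continuous
  exact ⟨C, fun t => (le_abs_self _).trans (hC t)⟩

/-- the mollification of a psh function is psh where it only sees the domain (no continuity needed). -/
theorem b5_pshOn_wsMol {O : Set (CE ι)} (hO : IsOpen O) {v : CE ι → ℝ} (hv : LocallyIntegrable v volume)
    (hp : PshOn O v) (k : ℕ) : PshOn (b5Shrink O (1 / ((k : ℝ) + 1))) (B6E.wsMol k v) := by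
  have hc : Continuous (B6E.wsMol k v) := (B6E.wsMol_contDiff k hv).continuous
  refine pshOnE_of_continuousOn_of_le_cav hc.continuousOn fun z w hd => ?_
  have hcc : Continuous fun θ : ℝ => z + lsE θ • w := by
    have := lsE_continuous
    fun_prop
  have h1 := b5_conv_le_cav hO hp (B6E.wsRho_contDiff (E := CE ι) k).continuous.measurable
    (B6E.wsRho_nonneg k) (b5_wsRho_le k) (fun t ht => B6E.wsRho_eq_zero ht.le) hd
    (by
      have h2 : Continuous fun θ : ℝ => B6E.wsMol k v (z + lsE θ • w) := hc.comp hcc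
      simpa only [b5_wsMol_eq_add] using h2)
  simpa only [← b5_wsMol_eq_add, b5Cav] using h1

variable [DecidableEq ι]

/-- the mollification of a continuous psh function is psh where it only sees the domain. -/
theorem levi_wsMol_posSemidef {O : Set (CE ι)} (hO : IsOpen O) {v : CE ι → ℝ} (hv : LocallyIntegrable v volume)
    (hc : ContinuousOn v O) (hp : PshOn O v) {k : ℕ} {z : CE ι}
    (hz : Metric.closedBall z (1 / ((k : ℝ) + 1)) ⊆ O) : (levi (B6E.wsMol k v) z).PosSemidef :=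
  levi_posSemidef_of_pshOn (isOpen_b5Shrink hO _)
    ((B6E.wsMol_contDiff k hv).of_le (by norm_cast)).contDiffOn (b5_pshOn_wsMol hO hv hp k) z hz

/- `levi_wsMol_ge` (same statement) now lives in `B5/PshC.lean` (it is a corollary of `levi_wsMol_ge_of_chVisc`, `Base/Rich/Moll.lean`, which imports this file). -/

theorem wsMol_tendsto_of_continuousOn {O : Set (CE ι)} (hO : IsOpen O) {v : CE ι → ℝ}
    (hv : LocallyIntegrable v volume) (hc : ContinuousOn v O) {z : CE ι} (hz : z ∈ O) :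
    Tendsto (fun k => B6E.wsMol k v z) atTop (𝓝 (v z)) := by
  rw [Metric.tendsto_atTop']
  intro ε hε
  obtain ⟨δ, hδ, hd⟩ := Metric.continuousAt_iff.1 (hc.continuousAt (hO.mem_nhds hz)) (ε / 2) (half_pos hε)
  have h1 : ∀ᶠ k : ℕ in atTop, 1 / ((k : ℝ) + 1) < δ :=
    (tendsto_one_div_add_atTop_nhds_zero_nat (𝕜 := ℝ)).eventually (gt_mem_nhds hδ)
  obtain ⟨N, hN⟩ := eventually_atTop.1 h1
  refine ⟨N, fun k hk => ?_⟩
  refine lt_of_le_of_lt (B6E.wsMol_dist_le k hv.aestronglyMeasurable fun y hy => ?_) (half_lt_self hε)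
  exact (hd (lt_trans (Metric.mem_ball.1 hy) (hN k hk.le))).le

theorem wsMol_ge_of_ball {v : CE ι → ℝ} (hv : LocallyIntegrable v volume) {k : ℕ} {z : CE ι} {c : ℝ}
    (h : ∀ y ∈ Metric.ball z (1 / ((k : ℝ) + 1)), c ≤ v y) : c ≤ B6E.wsMol k v z := by
  have h1 : ∫ y, B6E.wsRho k (z - y) * c ≤ ∫ y, B6E.wsRho k (z - y) • v y := by
    refine integral_mono ((B6E.wsRho_integrable_sub k z).mul_const c)
      (B6E.wsMol_integrable_swap k hv z) fun y => ?_
    by_cases hy : y ∈ Metric.ball z (1 / ((k : ℝ) + 1))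
    · exact mul_le_mul_of_nonneg_left (h y hy) (B6E.wsRho_nonneg k _)
    · have : B6E.wsRho k (z - y) = 0 := by
        apply B6E.wsRho_eq_zero
        rw [Metric.mem_ball, dist_comm, dist_eq_norm] at hy
        exact not_lt.1 hy
      simp [this]
  rw [integral_mul_const, B6E.wsRho_integral_sub, one_mul] at h1
  rw [B6E.wsMol_eq]
  exact h1

theorem wsMol_le_of_ball {v : CE ι → ℝ} (hv : LocallyIntegrable v volume) {k : ℕ} {z : CE ι} {c : ℝ}
    (h : ∀ y ∈ Metric.ball z (1 / ((k : ℝ) + 1)), v y ≤ c) : B6E.wsMol k v z ≤ c := by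
  have h1 : ∫ y, B6E.wsRho k (z - y) • v y ≤ ∫ y, B6E.wsRho k (z - y) * c := by
    refine integral_mono (B6E.wsMol_integrable_swap k hv z)
      ((B6E.wsRho_integrable_sub k z).mul_const c) fun y => ?_
    by_cases hy : y ∈ Metric.ball z (1 / ((k : ℝ) + 1))
    · exact mul_le_mul_of_nonneg_left (h y hy) (B6E.wsRho_nonneg k _)
    · have : B6E.wsRho k (z - y) = 0 := by
        apply B6E.wsRho_eq_zero
        rw [Metric.mem_ball, dist_comm, dist_eq_norm] at hy
        exact not_lt.1 hy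
      simp [this]
  rw [integral_mul_const, B6E.wsRho_integral_sub, one_mul] at h1
  rw [B6E.wsMol_eq]
  exact h1

end Claimed.Agent.R316
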