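import Claimed.Agent.R316.Pack016

/-!
# Row 316, package B5 (plurisubharmonic functions), file 1: line-wise theory

Owner / sub-captain: helper4.  PAPER FREE.  Everything in this file only uses the restriction of a function to complex lines, so it is
stated for an arbitrary complex normed space `E` (`E = CE ι`, `E = ℂ`, ...):

* `PshOnE U v` : the clauses of `PshOn` (`Core/Psh.lean`) for `v : E → ℝ`; `PshOn U v` IS `PshOnE U v` for `E = CE ι`
  (`pshOn_iff_pshOnE : … := Iff.rfl`), so every theorem below applies verbatim to `PshOn` (pass `h : PshOn U v` where `PshOnE U v` is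
  expected; the most used ones are restated for `PshOn` at the end of the file).  `E = ℂ` gives subharmonic functions of one variable.
* `b5Disc U z w` : the closed affine disc `{z + ζ w : |ζ| ≤ 1}` lies in `U`.
* `b5Cav v z w`  : the circle average `(2π)⁻¹ ∫_0^{2π} v (z + e^{iθ} w) dθ`  (`lsE θ = e^{iθ}` from `CW/LeviSub.lean`).

## Leaves (one leaf = one section; edit only the bodies of your section, helper lemmas directly above, prefix `b5`)

### B5-A1  (section `A1`, ~350 lines) usc functions as decreasing limits; the integral form of the sub-mean value inequality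
* `b5_exists_antitone_continuous`: `φ k x = ⨆ y, (g y - k * dist x y)` (sup-convolution).  It is `≤ C`, `≥ g x` (take `y = x`), `k`-Lipschitz
  (sup of `k`-Lipschitz functions, `LipschitzWith` via `ciSup_le`/`le_ciSup`), antitone in `k`.  Convergence: given `η > 0`, usc gives `δ` with `g y < g x + η` for
  `dist x y < δ`; for `dist x y ≥ δ`, `g y - k δ ≤ C - k δ < g x` for `k` large.
* `b5_dini`: the sets `{t ∈ S | g k t < φ t}` are relatively open in `S` (usc minus continuous), increasing, cover the compact `S`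
  (`IsCompact.elim_directed_cover` or by contradiction with `IsCompact.inter_iInter_nonempty`).
* `PshOnE.circle_integrable`, `PshOnE.le_cav`: `g θ = v (z + e^{iθ} w)` is usc on `ℝ` (`b5_usc_circle`), periodic, bounded above by `C` (compactness of `[0,2π]`,
  `UpperSemicontinuousOn.bddAbove_of_isCompact`‑type lemma in `Mathlib/Topology/Semicontinuity/Basic.lean`).  Take `φ k ↓ g`.  The definition gives `v z ≤ avg (φ k)` for all `k`.  Monotone convergence for
  `C - φ k ↑ C - g ≥ 0` (`lintegral_iSup`/`lintegral_tendsto_of_tendsto_of_monotone` with `ENNReal.ofReal`): `∫⁻ (C - g) ≤ 2π (C - v z) < ∞`; `g` is measurable (`UpperSemicontinuous.measurable`).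
  Then `integral_tendsto_of_tendsto_of_antitone`.
* `pshOnE_of_le_cav`: `intervalIntegral.integral_mono_on`.

### B5-A2  (section `A2`, ~450 lines) algebra, limits, affine maps
all by the integral form (`le_cav`, `circle_integrable`, `pshOnE_of_le_cav`) or directly from the definition.
* `pshOnE_of_upper_approx`: for `φ ≥ v` on the circle and `η > 0` use the hypothesis with `φ + η`: `v z ≤ u z ≤ avg φ + η`.
* `pshOnE_of_antitone_tendsto`: usc: `v y ≤ vs k y`; sub-mean: `b5_dini` on `S = [0, 2π]` + `pshOnE_of_upper_approx`‑style argument.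
* `pshOnE_of_tendstoLocallyUniformlyOn`: uniform on the compact closed disc (`tendstoLocallyUniformlyOn_iff_tendstoUniformlyOn_of_compact`).
* `PshOnE.comp_affine`: `a + L (z + ζ w) = (a + L z) + ζ L w`.
* `PshOnE.comp_convex`: `χ` convex and monotone on `ℝ` is continuous (`ConvexOn.continuousOn` on `univ`), Jensen `ConvexOn.map_average_le` / `map_integral_le` for the
  probability measure `(2π)⁻¹ dθ` on `[0,2π]`; the integrability of `χ ∘ g` : `χ ∘ g` is usc, bounded above, and bounded below by an affine function of `g`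
  (supporting line of `χ`), or avoid it: supporting line `χ t ≥ χ t₀ + a (t - t₀)`, `a ≥ 0`, at `t₀ = b5Cav v z w`, and use the majorant form:
  for `φ ≥ χ ∘ g` continuous: `avg φ ≥ avg (χ t₀ + a (g - t₀)) = χ t₀ ≥ χ (v z)`.

### B5-A3  (section `A3`, ~350 lines) polynomial (harmonic) majorants
`b5_exists_poly_majorant`.  Step 1: `g` usc on the unit circle `S¹ ⊆ ℂ`; sup-convolution on the metric space `S¹` (A1) gives continuous `Φ_k ↓ g` on `S¹`; by `b5_dini` on `[0,2π]`
some `Φ = Φ_k` has `Φ (e^{iθ}) < φ θ + η/2` on `[0,2π]`.  Step 2: Stone-Weierstrass / Fejér: a real continuous function on the circle is uniformly approximated by `Re P (e^{iθ})`, `P`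
a polynomial (Mathlib: `span_fourier_closure_eq_top` on `AddCircle (2π)`, or `ContinuousMap.starSubalgebra_topologicalClosure_eq_top_of_separatesPoints` on `Circle`/`sphere`;
`Σ_{|n| ≤ N} c_n e^{inθ}` real ⟹ `= Re (c_0 + 2 Σ_{n>0} c_n ζ^n)`); take `|Re P - (Φ + η/4)| ≤ η/4`.  Step 3: `avg Re P (e^{iθ}) = Re P 0` (`b5_cav_poly`, mean value property:
`∫ e^{inθ} = 0`, or `DiffContOnCl.circleAverage`).

### B5-A4  (section `A4`, ~450 lines) maximum principles, locality
* `b5_le_poly_of_loc`: `G ζ = v (z + ζ w) - Re P ζ + ε |ζ|²` is usc on the compact closed unit disc, so it has a maximum point `ζ₀`.  If `|ζ₀| < 1` take `s > 0` small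
  (`s ‖w‖ < r`, `|ζ₀| + s ≤ 1`) and use the sub-mean value inequality of `v` on the disc `(z + ζ₀ w, s w)`, the mean value property of `Re P`, and
  `avg |ζ₀ + s e^{iθ}|² = |ζ₀|² + s²`: `G ζ₀ ≤ avg G - ε s² ≤ G ζ₀ - ε s²`, absurd.  So `G ≤ ε` ; let `ε → 0`.
* `pshOnE_of_loc`: A3 + `b5_le_poly_of_loc` at `ζ = 0`.
* `b5_le_of_frontier`: the same trick with `v + ε |ℓ y|²`, `ℓ : E →L[ℂ] ℂ` with `ℓ e ≠ 0` (`exists_dual_vector`), discs in the direction `s • e`
  (`avg |ℓ y₀ + s e^{iθ} ℓ e|² = |ℓ y₀|² + s² |ℓ e|²` by `b5_cav_normSq`); `|ℓ y|²` is bounded on the compact `K`; a maximum point of the usc function `v + ε |ℓ|²` on `K`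
  cannot lie in `interior K`, and `K ⊆ interior K ∪ frontier K` (`K` closed).
* `PshOnE.eqOn_of_isMaxOn`: `S = {y ∈ U | v y = v z}` is relatively closed (usc) and open: for `y₀ ∈ S`, `ball y₀ r ⊆ U`, `y ∈ ball y₀ r`, `w = y - y₀`:
  `M = v y₀ ≤ avg v (y₀ + e^{iθ} w) ≤ M`, so the open set `{θ | v (y₀ + e^{iθ} w) < M}` is null, hence empty; `θ = 0`.  Then `IsPreconnected.subset_of_closure_inter_subset` or the clopen argument in the subtype.
-/

set_option autoImplicit false
open scoped ContDiff ComplexOrder Topology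
open MeasureTheory Filter

namespace Claimed.Agent.R316

variable {E E' : Type} [NormedAddCommGroup E] [NormedSpace ℂ E] [NormedAddCommGroup E'] [NormedSpace ℂ E']

/-- real valued plurisubharmonic function on a subset of a complex normed space (same clauses as `PshOn`). -/
def PshOnE (U : Set E) (v : E → ℝ) : Prop :=
  UpperSemicontinuousOn v U ∧
  ∀ z w : E, (∀ ζ : ℂ, ‖ζ‖ ≤ 1 → z + ζ • w ∈ U) →
    ∀ φ : ℝ → ℝ, Continuous φ →
      (∀ θ : ℝ, v (z + Complex.exp ((θ : ℂ) * Complex.I) • w) ≤ φ θ) →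
      v z ≤ (2 * Real.pi)⁻¹ * ∫ θ in (0 : ℝ)..(2 * Real.pi), φ θ

theorem pshOn_iff_pshOnE {ι : Type} [Fintype ι] {U : Set (CE ι)} {v : CE ι → ℝ} :
    PshOn U v ↔ PshOnE U v := Iff.rfl

/-- the closed affine disc with centre `z` and direction `w` lies in `U`. -/
def b5Disc (U : Set E) (z w : E) : Prop := ∀ ζ : ℂ, ‖ζ‖ ≤ 1 → z + ζ • w ∈ U

/-- circle average. -/
noncomputable def b5Cav (v : E → ℝ) (z w : E) : ℝ :=
  (2 * Real.pi)⁻¹ * ∫ θ in (0 : ℝ)..(2 * Real.pi), v (z + lsE θ • w)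

theorem pshOnE_def {U : Set E} {v : E → ℝ} : PshOnE U v ↔ UpperSemicontinuousOn v U ∧
    ∀ z w : E, b5Disc U z w → ∀ φ : ℝ → ℝ, Continuous φ → (∀ θ : ℝ, v (z + lsE θ • w) ≤ φ θ) →
      v z ≤ (2 * Real.pi)⁻¹ * ∫ θ in (0 : ℝ)..(2 * Real.pi), φ θ := Iff.rfl

variable {U W : Set E} {v v₁ v₂ : E → ℝ} {z w : E}

/-! ### A1 -/
section A1


variable {E E' : Type} [NormedAddCommGroup E] [NormedSpace ℂ E] [NormedAddCommGroup E'] [NormedSpace ℂ E']
variable {U W : Set E} {v v₁ v₂ : E → ℝ} {z w : E}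

/-- a usc function bounded above on a metric space is the limit of a decreasing sequence of continuous functions. -/
theorem b5_exists_antitone_continuous {X : Type} [PseudoMetricSpace X] {g : X → ℝ} {C : ℝ}
    (hg : UpperSemicontinuous g) (hC : ∀ x, g x ≤ C) :
    ∃ φ : ℕ → X → ℝ, (∀ k, Continuous (φ k)) ∧ (∀ x, Antitone fun k => φ k x) ∧
      (∀ k x, g x ≤ φ k x) ∧ (∀ k x, φ k x ≤ C) ∧ ∀ x, Tendsto (fun k => φ k x) atTop (𝓝 (g x)) := by
  have hbdd : ∀ (k : ℕ) (x : X), BddAbove (Set.range fun y => g y - k * dist x y) := by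
    intro k x
    refine ⟨C, ?_⟩
    rintro _ ⟨y, rfl⟩
    have : 0 ≤ (k : ℝ) * dist x y := by positivity
    simp only
    linarith [hC y]
  have hge : ∀ (k : ℕ) (x : X), g x ≤ ⨆ y, (g y - k * dist x y) := by
    intro k x
    have := le_ciSup (hbdd k x) x
    simpa using this
  refine ⟨fun k x => ⨆ y, (g y - k * dist x y), fun k => ?_, fun x k l hkl => ?_, hge,
    fun k x => ?_, fun x => ?_⟩
  · refine (LipschitzWith.of_le_add_mul (k : NNReal) fun x x' => ?_).continuous
    have : Nonempty X := ⟨x⟩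
    refine ciSup_le fun y => ?_
    have h1 := le_ciSup (hbdd k x') y
    have h2 : dist x' y ≤ dist x x' + dist x y := by
      rw [dist_comm x x']; exact dist_triangle _ _ _
    have h3 : (k : ℝ) * dist x' y ≤ k * (dist x x' + dist x y) :=
      mul_le_mul_of_nonneg_left h2 (by positivity)
    simp only [NNReal.coe_natCast] at h1 ⊢
    nlinarith
  · have : Nonempty X := ⟨x⟩
    refine ciSup_le fun y => ?_
    refine le_trans ?_ (le_ciSup (hbdd k x) y)
    have h3 : (k : ℝ) * dist x y ≤ l * dist x y :=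
      mul_le_mul_of_nonneg_right (by exact_mod_cast hkl) dist_nonneg
    linarith
  · have : Nonempty X := ⟨x⟩
    refine ciSup_le fun y => ?_
    have : 0 ≤ (k : ℝ) * dist x y := by positivity
    linarith [hC y]
  · have : Nonempty X := ⟨x⟩
    refine tendsto_order.2 ⟨fun a ha => Eventually.of_forall fun k => lt_of_lt_of_le ha (hge k x),
      fun a ha => ?_⟩
    obtain ⟨b, hb1, hb2⟩ := exists_between ha
    obtain ⟨δ, hδ, hδb⟩ := Metric.eventually_nhds_iff.1 (hg x b hb1)
    obtain ⟨K, hK⟩ := exists_nat_ge ((C - g x) / δ)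
    filter_upwards [eventually_ge_atTop K] with k hk
    refine lt_of_le_of_lt (ciSup_le fun y => ?_) hb2
    by_cases hy : dist y x < δ
    · have : 0 ≤ (k : ℝ) * dist x y := by positivity
      linarith [(hδb hy).le]
    · have h1 : δ ≤ dist x y := by rw [dist_comm]; exact not_lt.1 hy
      have h2 : (C - g x) / δ ≤ k := hK.trans (by exact_mod_cast hk)
      have h3 : C - g x ≤ k * δ := by rwa [div_le_iff₀ hδ] at h2
      have h4 : (k : ℝ) * δ ≤ k * dist x y := mul_le_mul_of_nonneg_left h1 (by positivity)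
      linarith [hC y]

/-- Dini's lemma for semicontinuous functions. -/
theorem b5_dini {T : Type} [TopologicalSpace T] {S : Set T} (hS : IsCompact S) {g : ℕ → T → ℝ}
    {φ : T → ℝ} (hg : ∀ k, UpperSemicontinuousOn (g k) S) (hφ : ContinuousOn φ S)
    (hanti : ∀ t ∈ S, Antitone fun k => g k t) (hlt : ∀ t ∈ S, ∃ k, g k t < φ t) :
    ∃ k, ∀ t ∈ S, g k t < φ t := by
  have key : ∃ k, ∀ t ∈ S ∩ S, g k t < φ t := by
    refine hS.induction_on (p := fun A => ∃ k, ∀ t ∈ A ∩ S, g k t < φ t) ⟨0, by simp⟩ ?_ ?_ ?_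
    · rintro A B hAB ⟨k, hk⟩
      exact ⟨k, fun t ht => hk t ⟨hAB ht.1, ht.2⟩⟩
    · rintro A B ⟨k, hk⟩ ⟨l, hl⟩
      refine ⟨max k l, ?_⟩
      rintro t ⟨ht | ht, htS⟩
      · exact lt_of_le_of_lt (hanti t htS (le_max_left k l)) (hk t ⟨ht, htS⟩)
      · exact lt_of_le_of_lt (hanti t htS (le_max_right k l)) (hl t ⟨ht, htS⟩)
    · intro t ht
      obtain ⟨k, hk⟩ := hlt t ht
      obtain ⟨c, hc1, hc2⟩ := exists_between hk
      have h1 : ∀ᶠ t' in 𝓝[S] t, g k t' < c := hg k t ht c hc1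
      have h2 : ∀ᶠ t' in 𝓝[S] t, c < φ t' := (hφ t ht).eventually (lt_mem_nhds hc2)
      exact ⟨{t' | g k t' < φ t'}, by filter_upwards [h1, h2] with t' a b using a.trans b,
        k, fun t' ht' => ht'.1⟩
  simpa using key

theorem b5Disc.mono (hd : b5Disc U z w) (hUW : U ⊆ W) : b5Disc W z w := fun ζ hζ => hUW (hd ζ hζ)

theorem b5Disc.center_mem (hd : b5Disc U z w) : z ∈ U := by
  simpa using hd 0 (by simp)

theorem b5Disc.circle_mem (hd : b5Disc U z w) (θ : ℝ) : z + lsE θ • w ∈ U :=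
  hd _ (lsE_norm θ).le

/-- the closed disc is compact. -/
theorem b5_isCompact_disc (z w : E) : IsCompact ((fun ζ : ℂ => z + ζ • w) '' Metric.closedBall 0 1) :=
  (isCompact_closedBall 0 1).image (by fun_prop)

theorem b5_usc_circle (h : UpperSemicontinuousOn v U) (hd : b5Disc U z w) :
    UpperSemicontinuous fun θ : ℝ => v (z + lsE θ • w) := by
  have hc : Continuous fun θ : ℝ => z + lsE θ • w := by
    have := lsE_continuous
    fun_prop
  have := h.comp (t := Set.univ) hc.continuousOn fun θ _ => hd.circle_mem θ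
  exact upperSemicontinuousOn_univ_iff.1 this

theorem b5_circle_periodic (v : E → ℝ) (z w : E) :
    Function.Periodic (fun θ : ℝ => v (z + lsE θ • w)) (2 * Real.pi) := by
  intro θ
  have : lsE (θ + 2 * Real.pi) = lsE θ := by
    simp only [lsE]
    push_cast
    rw [add_mul, Complex.exp_add, Complex.exp_two_pi_mul_I, mul_one]
  simp only [this]

theorem b5_circle_aux (h : PshOnE U v) (hd : b5Disc U z w) :
    IntervalIntegrable (fun θ : ℝ => v (z + lsE θ • w)) volume 0 (2 * Real.pi) ∧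
      v z ≤ b5Cav v z w := by
  have hpi : (0 : ℝ) < 2 * Real.pi := by positivity
  set g : ℝ → ℝ := fun θ => v (z + lsE θ • w) with hgdef
  have hgu : UpperSemicontinuous g := b5_usc_circle h.1 hd
  obtain ⟨C, hC⟩ : ∃ C, ∀ θ, g θ ≤ C := by
    have hsub : (fun ζ : ℂ => z + ζ • w) '' Metric.closedBall 0 1 ⊆ U := by
      rintro _ ⟨ζ, hζ, rfl⟩
      exact hd ζ (by simpa using hζ)
    obtain ⟨C, hC⟩ := (h.1.mono hsub).bddAbove_of_isCompact (b5_isCompact_disc z w)
    refine ⟨C, fun θ => hC ⟨_, ⟨lsE θ, by simp [lsE_norm], rfl⟩, rfl⟩⟩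
  obtain ⟨φ, hφc, hanti, hge, hle, hlim⟩ := b5_exists_antitone_continuous hgu hC
  have hk : ∀ k, v z ≤ (2 * Real.pi)⁻¹ * ∫ θ in (0 : ℝ)..(2 * Real.pi), φ k θ :=
    fun k => h.2 z w hd (φ k) (hφc k) (hge k)
  set μ : Measure ℝ := volume.restrict (Set.Ioc 0 (2 * Real.pi)) with hμ
  have hμfin : IsFiniteMeasure μ := by rw [hμ]; infer_instance
  have hμuniv : μ.real Set.univ = 2 * Real.pi := by
    simp [hμ, Measure.real, Real.pi_pos.le]
  have hφi : ∀ k, Integrable (φ k) μ := fun k => ((hφc k).intervalIntegrable 0 (2 * Real.pi)).1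
  have hk' : ∀ k, 2 * Real.pi * v z ≤ ∫ θ, φ k θ ∂μ := by
    intro k
    have := hk k
    rw [intervalIntegral.integral_of_le hpi.le, inv_mul_eq_div, le_div_iff₀ hpi] at this
    linarith
  have hgi : Integrable g μ := by
    refine integrable_of_tendsto (G := φ) (Eventually.of_forall hlim)
      (fun k => (hφi k).aestronglyMeasurable) ?_
    have hb : ∀ k, ∫⁻ x, ‖φ k x‖ₑ ∂μ ≤ ENNReal.ofReal (2 * |C| * (2 * Real.pi) - 2 * Real.pi * v z) := by
      intro k
      rw [← ofReal_integral_norm_eq_lintegral_enorm (hφi k)]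
      refine ENNReal.ofReal_le_ofReal ?_
      have h1 : ∫ x, ‖φ k x‖ ∂μ ≤ ∫ x, (2 * |C| - φ k x) ∂μ := by
        refine integral_mono (hφi k).norm ((integrable_const _).sub (hφi k)) fun x => ?_
        have h2 := hle k x
        have h3 := le_abs_self C
        simp only [Real.norm_eq_abs]
        rcases abs_cases (φ k x) with ⟨h4, _⟩ | ⟨h4, _⟩ <;> rw [h4] <;> linarith [abs_nonneg C]
      rw [integral_sub (integrable_const _) (hφi k), integral_const, hμuniv, smul_eq_mul] at h1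
      linarith [hk' k]
    refine ne_of_lt (lt_of_le_of_lt (liminf_le_liminf (Eventually.of_forall hb)) ?_)
    rw [liminf_const]
    exact ENNReal.ofReal_lt_top
  have hT : Tendsto (fun k => ∫ θ, φ k θ ∂μ) atTop (𝓝 (∫ θ, g θ ∂μ)) :=
    integral_tendsto_of_tendsto_of_antitone hφi hgi (Eventually.of_forall hanti)
      (Eventually.of_forall hlim)
  have hfin : 2 * Real.pi * v z ≤ ∫ θ, g θ ∂μ := ge_of_tendsto' hT hk'
  refine ⟨(intervalIntegrable_iff_integrableOn_Ioc_of_le hpi.le).2 hgi, ?_⟩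
  rw [b5Cav, intervalIntegral.integral_of_le hpi.le, inv_mul_eq_div, le_div_iff₀ hpi]
  linarith

/-- a psh function is integrable on circles. -/
theorem PshOnE.circle_integrable (h : PshOnE U v) (hd : b5Disc U z w) :
    IntervalIntegrable (fun θ : ℝ => v (z + lsE θ • w)) volume 0 (2 * Real.pi) :=
  (b5_circle_aux h hd).1

/-- **integral form of the sub-mean value inequality.** -/
theorem PshOnE.le_cav (h : PshOnE U v) (hd : b5Disc U z w) : v z ≤ b5Cav v z w :=
  (b5_circle_aux h hd).2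

theorem pshOnE_of_le_cav (husc : UpperSemicontinuousOn v U)
    (h : ∀ z w, b5Disc U z w →
      IntervalIntegrable (fun θ : ℝ => v (z + lsE θ • w)) volume 0 (2 * Real.pi) ∧ v z ≤ b5Cav v z w) :
    PshOnE U v := by
  refine ⟨husc, fun z w hd φ hφ hle => ?_⟩
  obtain ⟨hi, hz⟩ := h z w hd
  refine hz.trans ?_
  have hpi : (0 : ℝ) < 2 * Real.pi := by positivity
  rw [b5Cav]
  refine mul_le_mul_of_nonneg_left ?_ (by positivity)
  exact intervalIntegral.integral_mono_on hpi.le hi (hφ.intervalIntegrable _ _) fun θ _ => hle θ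

/-- continuous functions: only the inequality has to be checked. -/
theorem pshOnE_of_continuousOn_of_le_cav (hc : ContinuousOn v U)
    (h : ∀ z w, b5Disc U z w → v z ≤ b5Cav v z w) : PshOnE U v := by
  refine pshOnE_of_le_cav hc.upperSemicontinuousOn fun z w hd => ⟨?_, h z w hd⟩
  have hcc : Continuous fun θ : ℝ => z + lsE θ • w := by
    have := lsE_continuous
    fun_prop
  exact (hc.comp_continuous hcc fun θ => hd.circle_mem θ).intervalIntegrable _ _

end A1

/-! ### A2 -/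
section A2

theorem PshOnE.usc (h : PshOnE U v) : UpperSemicontinuousOn v U := h.1

theorem PshOnE.mono (h : PshOnE U v) (hWU : W ⊆ U) : PshOnE W v :=
  ⟨h.1.mono hWU, fun z w hd => h.2 z w fun ζ hζ => hWU (hd ζ hζ)⟩


variable {E E' : Type} [NormedAddCommGroup E] [NormedSpace ℂ E] [NormedAddCommGroup E'] [NormedSpace ℂ E']
variable {U W : Set E} {v v₁ v₂ : E → ℝ} {z w : E}

theorem PshOnE.congr (h : PshOnE U v₁) (heq : Set.EqOn v₁ v₂ U) : PshOnE U v₂ := by
  refine ⟨fun x hx c hc => ?_, fun z w hd φ hφ hle => ?_⟩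
  · have h1 : ∀ᶠ y in 𝓝[U] x, v₁ y < c := h.1 x hx c (by
      change v₁ x < c
      rw [heq hx]; exact hc)
    filter_upwards [h1, self_mem_nhdsWithin] with y hy hyU
    rw [← heq hyU]; exact hy
  · have hd' : b5Disc U z w := hd
    rw [← heq hd'.center_mem]
    exact h.2 z w hd φ hφ fun θ => by
      have : v₂ (z + lsE θ • w) ≤ φ θ := hle θ
      rwa [← heq (hd'.circle_mem θ)] at this

theorem b5Cav_const (c : ℝ) (z w : E) : b5Cav (fun _ => c) z w = c := by
  have hpi : (2 * Real.pi) ≠ 0 := by positivity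
  simp only [b5Cav, intervalIntegral.integral_const, sub_zero, smul_eq_mul]
  field_simp

theorem pshOnE_const (U : Set E) (c : ℝ) : PshOnE U fun _ => c :=
  pshOnE_of_continuousOn_of_le_cav continuousOn_const fun z w _ => (b5Cav_const c z w).ge

theorem PshOnE.add (h₁ : PshOnE U v₁) (h₂ : PshOnE U v₂) : PshOnE U fun y => v₁ y + v₂ y := by
  refine pshOnE_of_le_cav (h₁.1.add h₂.1) fun z w hd => ?_
  have i1 := h₁.circle_integrable hd
  have i2 := h₂.circle_integrable hd
  refine ⟨i1.add i2, ?_⟩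
  have e : b5Cav (fun y => v₁ y + v₂ y) z w = b5Cav v₁ z w + b5Cav v₂ z w := by
    simp only [b5Cav]
    rw [intervalIntegral.integral_add i1 i2, mul_add]
  rw [e]
  exact add_le_add (h₁.le_cav hd) (h₂.le_cav hd)

theorem PshOnE.add_const (h : PshOnE U v) (c : ℝ) : PshOnE U fun y => v y + c :=
  h.add (pshOnE_const U c)

theorem PshOnE.const_mul (h : PshOnE U v) {c : ℝ} (hc : 0 ≤ c) : PshOnE U fun y => c * v y := by
  have hcont : Continuous fun t : ℝ => c * t := by fun_prop
  have hmono : Monotone fun t : ℝ => c * t := fun a b hab => mul_le_mul_of_nonneg_left hab hc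
  refine pshOnE_of_le_cav (hcont.comp_upperSemicontinuousOn h.1 hmono) fun z w hd => ?_
  have i1 := h.circle_integrable hd
  refine ⟨i1.const_mul c, ?_⟩
  have e : b5Cav (fun y => c * v y) z w = c * b5Cav v z w := by
    simp only [b5Cav]
    rw [intervalIntegral.integral_const_mul]
    ring
  rw [e]
  exact mul_le_mul_of_nonneg_left (h.le_cav hd) hc

theorem PshOnE.max (h₁ : PshOnE U v₁) (h₂ : PshOnE U v₂) : PshOnE U fun y => max (v₁ y) (v₂ y) := by
  refine ⟨h₁.1.sup h₂.1, fun z w hd φ hφ hle => ?_⟩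
  exact max_le (h₁.2 z w hd φ hφ fun θ => (le_max_left _ _).trans (hle θ))
    (h₂.2 z w hd φ hφ fun θ => (le_max_right _ _).trans (hle θ))

theorem PshOnE.sum {α : Type} (s : Finset α) {vs : α → E → ℝ} (h : ∀ a ∈ s, PshOnE U (vs a)) :
    PshOnE U fun y => ∑ a ∈ s, vs a y := by
  classical
  induction s using Finset.induction_on with
  | empty => simpa using pshOnE_const U 0
  | insert a s ha ih =>
    have h1 := (h a (Finset.mem_insert_self a s)).add
      (ih fun b hb => h b (Finset.mem_insert_of_mem hb))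
    refine h1.congr fun y _ => ?_
    simp [Finset.sum_insert ha]

theorem b5_avg_add_const {φ : ℝ → ℝ} (hφ : Continuous φ) (η : ℝ) :
    (2 * Real.pi)⁻¹ * ∫ θ in (0 : ℝ)..(2 * Real.pi), (φ θ + η) =
      (2 * Real.pi)⁻¹ * (∫ θ in (0 : ℝ)..(2 * Real.pi), φ θ) + η := by
  have hpi : (2 * Real.pi) ≠ 0 := by positivity
  rw [intervalIntegral.integral_add (hφ.intervalIntegrable _ _) (by simp),
    intervalIntegral.integral_const, sub_zero, smul_eq_mul, mul_add]
  field_simp

/-- **the limit lemma**: `v` usc; for every disc and every continuous `φ > v` on its circle there is a psh function `u` near the disc with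
`v ≤ u` at the centre and `u ≤ φ` on the circle. -/
theorem pshOnE_of_upper_approx (husc : UpperSemicontinuousOn v U)
    (h : ∀ z w, b5Disc U z w → ∀ φ : ℝ → ℝ, Continuous φ → (∀ θ : ℝ, v (z + lsE θ • w) < φ θ) →
      ∃ (u : E → ℝ) (W : Set E), b5Disc W z w ∧ PshOnE W u ∧ v z ≤ u z ∧
        ∀ θ ∈ Set.Icc (0 : ℝ) (2 * Real.pi), u (z + lsE θ • w) ≤ φ θ) : PshOnE U v := by
  refine ⟨husc, fun z w hd φ hφ hle => ?_⟩
  have hpi : (0 : ℝ) < 2 * Real.pi := by positivity
  refine le_of_forall_pos_le_add fun η hη => ?_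
  have hφη : Continuous fun θ => φ θ + η := by fun_prop
  obtain ⟨u, W, hdW, hu, hzu, hcirc⟩ := h z w hd (fun θ => φ θ + η) hφη
    fun θ => lt_of_le_of_lt (hle θ) (by linarith)
  rw [← b5_avg_add_const hφ η]
  refine hzu.trans ((hu.le_cav hdW).trans ?_)
  rw [b5Cav]
  refine mul_le_mul_of_nonneg_left ?_ (by positivity)
  exact intervalIntegral.integral_mono_on hpi.le (hu.circle_integrable hdW)
    (hφη.intervalIntegrable _ _) hcirc

/-- decreasing limits. -/
theorem pshOnE_of_antitone_tendsto {vs : ℕ → E → ℝ} (h : ∀ k, PshOnE U (vs k))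
    (hanti : ∀ y ∈ U, Antitone fun k => vs k y)
    (hlim : ∀ y ∈ U, Tendsto (fun k => vs k y) atTop (𝓝 (v y))) : PshOnE U v := by
  have hle : ∀ y ∈ U, ∀ k, v y ≤ vs k y := fun y hy k => (hanti y hy).le_of_tendsto (hlim y hy) k
  refine pshOnE_of_upper_approx (fun x hx c hc => ?_) fun z w hd φ hφ hlt => ?_
  · obtain ⟨k, hk⟩ := ((hlim x hx).eventually (gt_mem_nhds hc)).exists
    filter_upwards [(h k).1 x hx c hk, self_mem_nhdsWithin] with y hy hyU
    exact lt_of_le_of_lt (hle y hyU k) hy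
  · obtain ⟨k, hk⟩ := b5_dini (S := Set.Icc (0 : ℝ) (2 * Real.pi)) isCompact_Icc
      (g := fun k θ => vs k (z + lsE θ • w)) (φ := φ)
      (fun k => (b5_usc_circle (h k).1 hd).upperSemicontinuousOn _) hφ.continuousOn
      (fun θ _ => hanti _ (hd.circle_mem θ))
      (fun θ _ => ((hlim _ (hd.circle_mem θ)).eventually (gt_mem_nhds (hlt θ))).exists)
    exact ⟨vs k, U, hd, h k, hle z hd.center_mem k, fun θ hθ => (hk θ hθ).le⟩

/-- locally uniform limits. -/
theorem pshOnE_of_tendstoLocallyUniformlyOn {α : Type} {l : Filter α} [l.NeBot] {vs : α → E → ℝ}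
    (h : ∀ᶠ k in l, PshOnE U (vs k)) (hlim : TendstoLocallyUniformlyOn vs v l U) : PshOnE U v := by
  refine ⟨fun x hx c hc => ?_, fun z w hd φ hφ hle => ?_⟩
  · have hη : 0 < (c - v x) / 3 := by
      have : v x < c := hc
      linarith
    obtain ⟨t, ht, htl⟩ := Metric.tendstoLocallyUniformlyOn_iff.1 hlim _ hη x hx
    obtain ⟨k, hk, hpk⟩ := (htl.and h).exists
    have hxt : x ∈ t := mem_of_mem_nhdsWithin hx ht
    have h1 := hk x hxt
    rw [Real.dist_eq, abs_lt] at h1
    have h2 : vs k x < v x + 2 * ((c - v x) / 3) := by linarith [h1.1]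
    filter_upwards [hpk.1 x hx _ h2, ht] with y hy hyt
    have h3 := hk y hyt
    rw [Real.dist_eq, abs_lt] at h3
    linarith [h3.2]
  · have hd' : b5Disc U z w := hd
    refine le_of_forall_pos_le_add fun η hη => ?_
    have hsub : (fun ζ : ℂ => z + ζ • w) '' Metric.closedBall 0 1 ⊆ U := by
      rintro _ ⟨ζ, hζ, rfl⟩
      exact hd ζ (by simpa using hζ)
    have hu := (tendstoLocallyUniformlyOn_iff_tendstoUniformlyOn_of_compact
      (b5_isCompact_disc z w)).1 (hlim.mono hsub)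
    obtain ⟨k, hk, hpk⟩ := ((Metric.tendstoUniformlyOn_iff.1 hu (η / 2) (by linarith)).and h).exists
    have hmem : ∀ ζ : ℂ, ‖ζ‖ ≤ 1 → |v (z + ζ • w) - vs k (z + ζ • w)| < η / 2 := fun ζ hζ => by
      have := hk (z + ζ • w) ⟨ζ, by simpa using hζ, rfl⟩
      rwa [Real.dist_eq] at this
    have h0 := hmem 0 (by simp)
    simp only [zero_smul, add_zero] at h0
    have hφη : Continuous fun θ => φ θ + η / 2 := by fun_prop
    have h1 := hpk.2 z w hd (fun θ => φ θ + η / 2) hφη fun θ => by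
      have h2 := hmem (lsE θ) (lsE_norm θ).le
      have h3 := hle θ
      rw [abs_lt] at h2
      change vs k (z + lsE θ • w) ≤ φ θ + η / 2
      change v (z + lsE θ • w) ≤ φ θ at h3
      linarith [h2.1]
    rw [b5_avg_add_const hφ] at h1
    rw [abs_lt] at h0
    linarith [h0.2]

/-- affine maps. -/
theorem PshOnE.comp_affine (h : PshOnE U v) (L : E' →L[ℂ] E) (a : E) :
    PshOnE {y | a + L y ∈ U} fun y => v (a + L y) := by
  refine ⟨?_, fun z w hd φ hφ hle => ?_⟩
  · have hc : Continuous fun y : E' => a + L y := by fun_prop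
    exact h.1.comp hc.continuousOn fun y hy => hy
  · refine h.2 (a + L z) (L w) (fun ζ hζ => ?_) φ hφ fun θ => ?_
    · have := hd ζ hζ
      simpa [map_add, map_smul, add_assoc] using this
    · have := hle θ
      simpa [map_add, map_smul, add_assoc] using this

/-- translations. -/
theorem PshOnE.comp_add (h : PshOnE U v) (a : E) : PshOnE {y | a + y ∈ U} fun y => v (a + y) :=
  h.comp_affine (ContinuousLinearMap.id ℂ E) a

/-- convex nondecreasing functions. -/
theorem PshOnE.comp_convex (h : PshOnE U v) {χ : ℝ → ℝ} (hχ : ConvexOn ℝ Set.univ χ) (hmono : Monotone χ) :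
    PshOnE U fun y => χ (v y) := by
  have hcont : Continuous χ := by
    rw [← continuousOn_univ]
    exact hχ.continuousOn isOpen_univ
  refine ⟨hcont.comp_upperSemicontinuousOn h.1 hmono, fun z w hd φ hφ hle => ?_⟩
  have hpi : (0 : ℝ) < 2 * Real.pi := by positivity
  have hd' : b5Disc U z w := hd
  refine (hmono (h.le_cav hd')).trans (le_of_forall_lt_imp_le_of_dense fun a ha => ?_)
  obtain ⟨c, c', hcc, hca⟩ := hχ.exists_affine_le_of_lt_real (Set.mem_univ _) ha isClosed_univ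
    (hcont.lowerSemicontinuous.lowerSemicontinuousOn _)
  have i1 := h.circle_integrable hd'
  have e : (2 * Real.pi)⁻¹ * ∫ θ in (0 : ℝ)..(2 * Real.pi), (c * v (z + lsE θ • w) + c') = a := by
    rw [intervalIntegral.integral_add (i1.const_mul c) (by simp),
      intervalIntegral.integral_const_mul, intervalIntegral.integral_const, sub_zero, smul_eq_mul,
      ← hca, b5Cav]
    field_simp
  rw [← e]
  refine mul_le_mul_of_nonneg_left ?_ (by positivity)
  exact intervalIntegral.integral_mono_on hpi.le ((i1.const_mul c).add (by simp))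
    (hφ.intervalIntegrable _ _) fun θ _ => (hcc _ (Set.mem_univ _)).trans (hle θ)

end A2

/-! ### A3 -/
section A3

/-- mean value property of (real parts of) polynomials. -/
theorem b5_cav_poly (P : Polynomial ℂ) (c s : ℂ) :
    (2 * Real.pi)⁻¹ * ∫ θ in (0 : ℝ)..(2 * Real.pi), (P.eval (c + lsE θ * s)).re = (P.eval c).re := by
  have hd : Differentiable ℂ fun ζ : ℂ => P.eval (c + ζ * s) :=
    P.differentiable.comp ((differentiable_const c).add (differentiable_id.mul_const s))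
  have h1 := (hd.diffContOnCl (s := Metric.ball (0 : ℂ) |1|)).circleAverage
  rw [Real.circleAverage_def] at h1
  have hc : Continuous fun θ : ℝ => P.eval (c + circleMap 0 1 θ * s) :=
    hd.continuous.comp (continuous_circleMap 0 1)
  have h2 := congrArg Complex.re h1
  rw [Complex.real_smul, Complex.re_ofReal_mul] at h2
  have h3 := Complex.reCLM.intervalIntegral_comp_comm (hc.intervalIntegrable (μ := volume) 0 (2 * Real.pi))
  simp only [Complex.reCLM_apply] at h3
  rw [← h3] at h2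
  simp only [zero_mul, add_zero] at h2
  rw [← h2]
  congr 1
  refine intervalIntegral.integral_congr fun θ _ => ?_
  simp [circleMap, lsE]

/-- `avg |c + s e^{iθ}|² = |c|² + |s|²`, in any complex normed space with an inner product norm we only need `ℂ`. -/
theorem b5_cav_normSq (c s : ℂ) :
    (2 * Real.pi)⁻¹ * ∫ θ in (0 : ℝ)..(2 * Real.pi), ‖c + lsE θ * s‖ ^ 2 = ‖c‖ ^ 2 + ‖s‖ ^ 2 := by
  have hpi : (0 : ℝ) < 2 * Real.pi := by positivity
  have h1 := b5_cav_poly (Polynomial.C (s * (starRingEnd ℂ) c) * Polynomial.X) 0 1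
  simp only [Polynomial.eval_mul, Polynomial.eval_C, Polynomial.eval_X, zero_add, mul_one, mul_zero,
    Complex.zero_re] at h1
  have e : ∀ θ : ℝ, ‖c + lsE θ * s‖ ^ 2 = (‖c‖ ^ 2 + ‖s‖ ^ 2) + 2 * (s * (starRingEnd ℂ) c * lsE θ).re := by
    intro θ
    rw [Complex.sq_norm, Complex.normSq_add, Complex.sq_norm, Complex.sq_norm, Complex.normSq_mul,
      ← Complex.sq_norm (lsE θ), lsE_norm]
    have e2 : (c * (starRingEnd ℂ) (lsE θ * s)).re = (s * (starRingEnd ℂ) c * lsE θ).re := by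
      rw [← Complex.conj_re (c * (starRingEnd ℂ) (lsE θ * s))]
      simp only [map_mul, Complex.conj_conj]
      congr 1
      ring
    rw [e2]
    ring
  simp_rw [e]
  have hc : Continuous fun θ : ℝ => (s * (starRingEnd ℂ) c * lsE θ).re :=
    Complex.continuous_re.comp (continuous_const.mul lsE_continuous)
  rw [intervalIntegral.integral_add (by simp) ((hc.const_mul 2).intervalIntegrable _ _),
    intervalIntegral.integral_const, intervalIntegral.integral_const_mul, mul_add, smul_eq_mul, sub_zero,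
    ← mul_assoc, inv_mul_cancel₀ hpi.ne', one_mul]
  have : (2 * Real.pi)⁻¹ * (2 * ∫ θ in (0 : ℝ)..(2 * Real.pi), (s * (starRingEnd ℂ) c * lsE θ).re)
      = 2 * ((2 * Real.pi)⁻¹ * ∫ θ in (0 : ℝ)..(2 * Real.pi), (s * (starRingEnd ℂ) c * lsE θ).re) := by ring
  rw [this, h1]
  ring

/-- trigonometric polynomials are of the form `H₁ (e^{iθ}) + conj (H₂ (e^{iθ}))`. -/
theorem b5_span_fourier_form (p : C(AddCircle (2 * Real.pi), ℂ))
    (hp : p ∈ Submodule.span ℂ (Set.range (@fourier (2 * Real.pi)))) :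
    ∃ H₁ H₂ : Polynomial ℂ, ∀ θ : ℝ, p (θ : AddCircle (2 * Real.pi))
      = H₁.eval (lsE θ) + (starRingEnd ℂ) (H₂.eval (lsE θ)) := by
  have hpi : (2 * Real.pi : ℂ) ≠ 0 := by
    have := Real.pi_pos.ne'
    norm_num
  have hnat : ∀ (k : ℕ) (θ : ℝ), fourier (k : ℤ) (θ : AddCircle (2 * Real.pi)) = lsE θ ^ k := by
    intro k θ
    rw [fourier_coe_apply, lsE, ← Complex.exp_nat_mul]
    congr 1
    push_cast
    field_simp
  induction hp using Submodule.span_induction with
  | mem x hx =>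
    obtain ⟨n, rfl⟩ := hx
    obtain ⟨k, rfl | rfl⟩ := n.eq_nat_or_neg
    · exact ⟨Polynomial.X ^ k, 0, fun θ => by simp [hnat]⟩
    · refine ⟨0, Polynomial.X ^ k, fun θ => ?_⟩
      rw [fourier_neg, hnat]
      simp
  | zero => exact ⟨0, 0, fun θ => by simp⟩
  | add x y _ _ hx hy =>
    obtain ⟨A₁, A₂, hA⟩ := hx
    obtain ⟨B₁, B₂, hB⟩ := hy
    refine ⟨A₁ + B₁, A₂ + B₂, fun θ => ?_⟩
    rw [ContinuousMap.add_apply, hA, hB]
    simp only [Polynomial.eval_add, map_add]
    ring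
  | smul a x _ hx =>
    obtain ⟨A₁, A₂, hA⟩ := hx
    refine ⟨Polynomial.C a * A₁, Polynomial.C ((starRingEnd ℂ) a) * A₂, fun θ => ?_⟩
    rw [ContinuousMap.smul_apply, hA]
    simp only [Polynomial.eval_mul, Polynomial.eval_C, map_mul, Complex.conj_conj, smul_eq_mul]
    ring

/-- Fejér / Stone-Weierstrass: a continuous periodic function is approximated from above by `Re H (e^{iθ})`, `H` a polynomial (Step 2 of the recipe;
`span_fourier_closure_eq_top` on `AddCircle (2π)`: `p = ∑_{n ∈ s} c_n fourier n` with `‖p - (u + ε/2)‖ < ε/2`; `Re (c e^{-inθ}) = Re (conj c e^{inθ})`, so `Re p θ = Re H (e^{iθ})` with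
`H = ∑_{n ∈ s, n ≥ 0} c_n X^n + ∑_{n ∈ s, n < 0} conj c_n X^{-n}`). -/
theorem b5_exists_poly_approx {u : ℝ → ℝ} (hu : Continuous u) (hper : ∀ θ, u (θ + 2 * Real.pi) = u θ)
    {ε : ℝ} (hε : 0 < ε) : ∃ H : Polynomial ℂ, ∀ θ : ℝ,
      u θ ≤ (H.eval (lsE θ)).re ∧ (H.eval (lsE θ)).re ≤ u θ + ε := by
  have : Fact (0 < 2 * Real.pi) := ⟨by positivity⟩
  have hP : Function.Periodic u (2 * Real.pi) := hper
  have hUc : Continuous (hP.lift : AddCircle (2 * Real.pi) → ℝ) := by
    refine (QuotientAddGroup.isOpenQuotientMap_mk.isQuotientMap.continuous_iff).2 ?_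
    exact hu
  set F : C(AddCircle (2 * Real.pi), ℂ) :=
    ⟨fun x => ((hP.lift x + ε / 2 : ℝ) : ℂ), Complex.continuous_ofReal.comp (hUc.add continuous_const)⟩ with hF
  have hmem : F ∈ (Submodule.span ℂ (Set.range (@fourier (2 * Real.pi)))).topologicalClosure := by
    rw [span_fourier_closure_eq_top]
    trivial
  rw [← SetLike.mem_coe, Submodule.topologicalClosure_coe, Metric.mem_closure_iff] at hmem
  obtain ⟨p, hp, hdist⟩ := hmem (ε / 2) (by positivity)
  obtain ⟨H₁, H₂, hH⟩ := b5_span_fourier_form p hp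
  refine ⟨H₁ + H₂, fun θ => ?_⟩
  have h1 : ‖F (θ : AddCircle (2 * Real.pi)) - p (θ : AddCircle (2 * Real.pi))‖ < ε / 2 := by
    refine lt_of_le_of_lt ?_ hdist
    rw [dist_eq_norm]
    exact (F - p).norm_coe_le_norm _
  have h2 : (p (θ : AddCircle (2 * Real.pi))).re = ((H₁ + H₂).eval (lsE θ)).re := by
    rw [hH]
    simp
  have h3 : (F (θ : AddCircle (2 * Real.pi))).re = u θ + ε / 2 := by
    simp [hF]
  have h4 := (Complex.abs_re_le_norm _).trans_lt h1
  rw [Complex.sub_re, h2, h3, abs_lt] at h4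
  constructor <;> linarith [h4.1, h4.2]

theorem b5_lsE_periodic (θ : ℝ) : lsE (θ + 2 * Real.pi) = lsE θ := by
  simp only [lsE]
  push_cast
  rw [add_mul, Complex.exp_add, Complex.exp_two_pi_mul_I, mul_one]

/-- **harmonic polynomial majorants.** -/
theorem b5_exists_poly_majorant {g : ℂ → ℝ} (hg : UpperSemicontinuousOn g (Metric.sphere 0 1))
    {φ : ℝ → ℝ} (hφ : Continuous φ) (hle : ∀ θ : ℝ, g (lsE θ) ≤ φ θ) {η : ℝ} (hη : 0 < η) :
    ∃ P : Polynomial ℂ, (∀ θ : ℝ, g (lsE θ) ≤ (P.eval (lsE θ)).re) ∧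
      (P.eval 0).re ≤ (2 * Real.pi)⁻¹ * (∫ θ in (0 : ℝ)..(2 * Real.pi), φ θ) + η := by
  have hpi : (0 : ℝ) < 2 * Real.pi := by positivity
  have hg' : UpperSemicontinuous ((Metric.sphere (0 : ℂ) 1).domRestrict g) :=
    upperSemicontinuousOn_iff_restrict.2 hg
  obtain ⟨C, hC⟩ := hg.bddAbove_of_isCompact (isCompact_sphere 0 1)
  have hC' : ∀ x : Metric.sphere (0 : ℂ) 1, (Metric.sphere (0 : ℂ) 1).domRestrict g x ≤ C :=
    fun x => hC ⟨x, x.2, rfl⟩
  obtain ⟨Φ, hΦc, hanti, hge, -, hlim⟩ := b5_exists_antitone_continuous hg' hC'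
  set e : ℝ → Metric.sphere (0 : ℂ) 1 := fun θ => ⟨lsE θ, by simp [lsE_norm]⟩ with he'
  have he : Continuous e := lsE_continuous.subtype_mk _
  obtain ⟨k, hk⟩ := b5_dini (isCompact_Icc (a := (0 : ℝ)) (b := 2 * Real.pi)) (g := fun k θ => Φ k (e θ))
    (φ := fun θ => φ θ + η / 2)
    (fun k => ((hΦc k).comp he).continuousOn.upperSemicontinuousOn) (hφ.add continuous_const).continuousOn
    (fun t _ => hanti (e t)) (fun t _ => by
      have h1 : (Metric.sphere (0 : ℂ) 1).domRestrict g (e t) < φ t + η / 2 := by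
        have : (Metric.sphere (0 : ℂ) 1).domRestrict g (e t) = g (lsE t) := rfl
        rw [this]
        linarith [hle t]
      exact ((hlim (e t)).eventually (gt_mem_nhds h1)).exists)
  set u : ℝ → ℝ := fun θ => Φ k (e θ) with hu
  have huc : Continuous u := (hΦc k).comp he
  have hper : ∀ θ, u (θ + 2 * Real.pi) = u θ := by
    intro θ
    simp only [hu, he', b5_lsE_periodic]
  obtain ⟨H, hH⟩ := b5_exists_poly_approx huc hper (ε := η / 2) (by positivity)
  refine ⟨H, fun θ => (hge k (e θ)).trans (hH θ).1, ?_⟩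
  have h1 := b5_cav_poly H 0 1
  simp only [zero_add, mul_one] at h1
  rw [← h1]
  have hHc : Continuous fun θ : ℝ => (H.eval (lsE θ)).re :=
    Complex.continuous_re.comp (H.continuous.comp lsE_continuous)
  have h2 : ∫ θ in (0 : ℝ)..(2 * Real.pi), (H.eval (lsE θ)).re ≤ ∫ θ in (0 : ℝ)..(2 * Real.pi), (φ θ + η) :=
    intervalIntegral.integral_mono_on hpi.le (hHc.intervalIntegrable _ _)
      ((hφ.add continuous_const).intervalIntegrable _ _)
      (fun θ hθ => by
        have a1 := (hH θ).2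
        have a2 : u θ < φ θ + η / 2 := hk θ hθ
        linarith)
  rw [intervalIntegral.integral_add (hφ.intervalIntegrable _ _) (by simp), intervalIntegral.integral_const,
    sub_zero, smul_eq_mul] at h2
  calc (2 * Real.pi)⁻¹ * ∫ θ in (0 : ℝ)..(2 * Real.pi), (H.eval (lsE θ)).re
      ≤ (2 * Real.pi)⁻¹ * ((∫ θ in (0 : ℝ)..(2 * Real.pi), φ θ) + 2 * Real.pi * η) :=
        mul_le_mul_of_nonneg_left h2 (by positivity)
    _ = _ := by
        rw [mul_add, ← mul_assoc, inv_mul_cancel₀ hpi.ne', one_mul]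

end A3

/-! ### A4 -/
section A4

theorem b5_usc_of_loc (hloc : ∀ y ∈ U, ∃ r : ℝ, 0 < r ∧ PshOnE (Metric.ball y r) v) :
    UpperSemicontinuousOn v U := by
  intro y hy
  obtain ⟨r, hr, h⟩ := hloc y hy
  have h1 : UpperSemicontinuousWithinAt v (Metric.ball y r) y := h.1 y (Metric.mem_ball_self hr)
  have h2 : UpperSemicontinuousAt v y := by
    intro c hc
    have := h1 c hc
    rwa [Metric.isOpen_ball.nhdsWithin_eq (Metric.mem_ball_self hr)] at this
  exact h2.upperSemicontinuousWithinAt U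

theorem b5_avg_lin {f g : ℝ → ℝ} (hf : Continuous f) (hg : Continuous g) (a b : ℝ) :
    (2 * Real.pi)⁻¹ * ∫ θ in (0 : ℝ)..(2 * Real.pi), (a + f θ - b * g θ)
      = a + (2 * Real.pi)⁻¹ * (∫ θ in (0 : ℝ)..(2 * Real.pi), f θ)
        - b * ((2 * Real.pi)⁻¹ * ∫ θ in (0 : ℝ)..(2 * Real.pi), g θ) := by
  have hpi : (0 : ℝ) < 2 * Real.pi := by positivity
  have i1 : IntervalIntegrable (fun θ => a + f θ) volume 0 (2 * Real.pi) :=
    (continuous_const.add hf).intervalIntegrable _ _
  have i2 : IntervalIntegrable (fun θ => b * g θ) volume 0 (2 * Real.pi) :=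
    (hg.const_mul b).intervalIntegrable _ _
  rw [intervalIntegral.integral_sub i1 i2,
    intervalIntegral.integral_add (by simp) (hf.intervalIntegrable _ _),
    intervalIntegral.integral_const, intervalIntegral.integral_const_mul, sub_zero, smul_eq_mul]
  field_simp

theorem b5_exists_lsE {ζ : ℂ} (h : ‖ζ‖ = 1) : ∃ θ : ℝ, lsE θ = ζ := by
  refine ⟨Complex.arg ζ, ?_⟩
  have := Complex.norm_mul_exp_arg_mul_I ζ
  rw [h] at this
  unfold lsE
  simpa using this

theorem b5_psh_of_le_poly (husc : UpperSemicontinuousOn v U)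
    (h : ∀ z w, b5Disc U z w → ∀ P : Polynomial ℂ,
      (∀ θ : ℝ, v (z + lsE θ • w) ≤ (P.eval (lsE θ)).re) → v z ≤ (P.eval 0).re) : PshOnE U v := by
  refine pshOnE_def.2 ⟨husc, fun z w hd φ hφ hle => ?_⟩
  refine le_of_forall_pos_le_add fun η hη => ?_
  have hg : UpperSemicontinuousOn (fun ζ : ℂ => v (z + ζ • w)) (Metric.sphere 0 1) :=
    husc.comp (g := fun ξ : ℂ => z + ξ • w) (by fun_prop : Continuous fun ξ : ℂ => z + ξ • w).continuousOn
      (fun ξ hξ => hd ξ (by rw [mem_sphere_zero_iff_norm] at hξ; rw [hξ]))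
  obtain ⟨P, hP1, hP2⟩ := b5_exists_poly_majorant hg hφ hle hη
  exact (h z w hd P hP1).trans hP2

/-- **comparison with harmonic polynomials on a disc**, for locally psh functions. -/
theorem b5_le_poly_of_loc (hloc : ∀ y ∈ U, ∃ r : ℝ, 0 < r ∧ PshOnE (Metric.ball y r) v)
    (hd : b5Disc U z w) (P : Polynomial ℂ)
    (hP : ∀ θ : ℝ, v (z + lsE θ • w) ≤ (P.eval (lsE θ)).re) :
    ∀ ζ : ℂ, ‖ζ‖ ≤ 1 → v (z + ζ • w) ≤ (P.eval ζ).re := by
  intro ζ hζ
  have husc := b5_usc_of_loc hloc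
  refine le_of_forall_pos_le_add fun ε hε => ?_
  set G : ℂ → ℝ := fun ξ => v (z + ξ • w) + (-(P.eval ξ).re + ε * ‖ξ‖ ^ 2) with hG
  have hGusc : UpperSemicontinuousOn G (Metric.closedBall 0 1) := by
    have h1 : UpperSemicontinuousOn (fun ξ : ℂ => v (z + ξ • w)) (Metric.closedBall 0 1) :=
      husc.comp (g := fun ξ : ℂ => z + ξ • w) (by fun_prop : Continuous fun ξ : ℂ => z + ξ • w).continuousOn
        (fun ξ hξ => hd ξ (by simpa using hξ))
    have h2 : Continuous (fun ξ : ℂ => -(P.eval ξ).re + ε * ‖ξ‖ ^ 2) :=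
      (Complex.continuous_re.comp P.continuous).neg.add (continuous_const.mul (continuous_norm.pow 2))
    exact h1.add h2.continuousOn.upperSemicontinuousOn
  obtain ⟨ζ₀, hζ₀, hmax⟩ := hGusc.exists_isMaxOn ⟨0, by simp⟩ (isCompact_closedBall 0 1)
  have hζ₀' : ‖ζ₀‖ ≤ 1 := by simpa using hζ₀
  have hmax' : ∀ ξ : ℂ, ‖ξ‖ ≤ 1 → G ξ ≤ G ζ₀ := fun ξ hξ => hmax (by simpa using hξ)
  have hb : G ζ₀ ≤ ε := by
    by_cases h1 : ‖ζ₀‖ < 1
    · exfalso
      obtain ⟨r, hr, hpsh⟩ := hloc (z + ζ₀ • w) (hd ζ₀ hζ₀')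
      obtain ⟨s, hs0, hs1, hs2⟩ : ∃ s : ℝ, 0 < s ∧ s * ‖w‖ < r ∧ ‖ζ₀‖ + s ≤ 1 := by
        have hw : 0 < ‖w‖ + 1 := by positivity
        refine ⟨min (r / (‖w‖ + 1)) (1 - ‖ζ₀‖), lt_min (by positivity) (by linarith), ?_, ?_⟩
        · calc min (r / (‖w‖ + 1)) (1 - ‖ζ₀‖) * ‖w‖ ≤ r / (‖w‖ + 1) * ‖w‖ := by
                gcongr
                exact min_le_left _ _
            _ < r / (‖w‖ + 1) * (‖w‖ + 1) := by
                gcongr
                linarith
            _ = r := by field_simp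
        · linarith [min_le_right (r / (‖w‖ + 1)) (1 - ‖ζ₀‖)]
      have hsn : ‖(s : ℂ)‖ = s := by rw [Complex.norm_real, Real.norm_of_nonneg hs0.le]
      have hdisc : b5Disc (Metric.ball (z + ζ₀ • w) r) (z + ζ₀ • w) ((s : ℂ) • w) := by
        intro ξ hξ
        rw [mem_ball_iff_norm, add_sub_cancel_left, norm_smul, norm_smul, hsn]
        calc ‖ξ‖ * (s * ‖w‖) ≤ 1 * (s * ‖w‖) := by gcongr
          _ < r := by linarith
      set φ : ℝ → ℝ := fun θ => G ζ₀ + (P.eval (ζ₀ + lsE θ * s)).re - ε * ‖ζ₀ + lsE θ * s‖ ^ 2 with hφ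
      have hc0 : Continuous fun θ : ℝ => ζ₀ + lsE θ * (s : ℂ) :=
        continuous_const.add (lsE_continuous.mul continuous_const)
      have hc1 : Continuous fun θ : ℝ => (P.eval (ζ₀ + lsE θ * s)).re :=
        Complex.continuous_re.comp (P.continuous.comp hc0)
      have hc2 : Continuous fun θ : ℝ => ‖ζ₀ + lsE θ * s‖ ^ 2 := hc0.norm.pow 2
      have hφc : Continuous φ := (continuous_const.add hc1).sub (continuous_const.mul hc2)
      have hle : ∀ θ : ℝ, v (z + ζ₀ • w + lsE θ • ((s : ℂ) • w)) ≤ φ θ := by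
        intro θ
        have e : z + ζ₀ • w + lsE θ • ((s : ℂ) • w) = z + (ζ₀ + lsE θ * s) • w := by
          rw [add_smul, mul_smul, add_assoc]
        have hn : ‖ζ₀ + lsE θ * s‖ ≤ 1 := by
          refine (norm_add_le _ _).trans ?_
          rw [norm_mul, lsE_norm, hsn]
          linarith
        have := hmax' _ hn
        rw [e]
        simp only [hG, hφ] at this ⊢
        linarith
      have h3 := (pshOnE_def.1 hpsh).2 _ _ hdisc φ hφc hle
      rw [hφ, b5_avg_lin hc1 hc2, b5_cav_poly, b5_cav_normSq, hsn] at h3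
      simp only [hG] at h3
      nlinarith [mul_pos hε (pow_pos hs0 2)]
    · have h2 : ‖ζ₀‖ = 1 := le_antisymm hζ₀' (not_lt.1 h1)
      obtain ⟨θ₀, hθ₀⟩ := b5_exists_lsE h2
      have := hP θ₀
      rw [hθ₀] at this
      simp only [hG]
      rw [h2]
      linarith
  have h5 := hmax' ζ hζ
  simp only [hG] at h5 hb
  have : 0 ≤ ε * ‖ζ‖ ^ 2 := by positivity
  linarith

/-- **plurisubharmonicity is a local property.** -/
theorem pshOnE_of_loc (hloc : ∀ y ∈ U, ∃ r : ℝ, 0 < r ∧ PshOnE (Metric.ball y r) v) : PshOnE U v := by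
  refine b5_psh_of_le_poly (b5_usc_of_loc hloc) fun z w hd P hP => ?_
  have := b5_le_poly_of_loc hloc hd P hP 0 (by simp)
  simpa using this

theorem pshOnE_of_forall_nhds (hloc : ∀ y ∈ U, ∃ N ∈ 𝓝 y, PshOnE N v) : PshOnE U v := by
  refine pshOnE_of_loc fun y hy => ?_
  obtain ⟨N, hN, h⟩ := hloc y hy
  obtain ⟨r, hr, hsub⟩ := Metric.mem_nhds_iff.1 hN
  exact ⟨r, hr, h.mono hsub⟩

theorem PshOnE.le_poly (h : PshOnE U v) (hU : IsOpen U) (hd : b5Disc U z w) (P : Polynomial ℂ)
    (hP : ∀ θ : ℝ, v (z + lsE θ • w) ≤ (P.eval (lsE θ)).re) :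
    ∀ ζ : ℂ, ‖ζ‖ ≤ 1 → v (z + ζ • w) ≤ (P.eval ζ).re := by
  refine b5_le_poly_of_loc (fun y hy => ?_) hd P hP
  obtain ⟨r, hr, hsub⟩ := Metric.isOpen_iff.1 hU y hy
  exact ⟨r, hr, h.mono hsub⟩

/-- converse: comparison with harmonic polynomials characterises psh functions. -/
theorem pshOnE_of_le_poly (husc : UpperSemicontinuousOn v U)
    (h : ∀ z w, b5Disc U z w → ∀ P : Polynomial ℂ,
      (∀ θ : ℝ, v (z + lsE θ • w) ≤ (P.eval (lsE θ)).re) → v z ≤ (P.eval 0).re) : PshOnE U v := by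
  exact b5_psh_of_le_poly husc h

/-- **weak maximum principle** on compact sets. -/
theorem b5_le_of_frontier (hE : ∃ e : E, e ≠ 0) {K : Set E} (hK : IsCompact K)
    (husc : UpperSemicontinuousOn v K)
    (hloc : ∀ y ∈ interior K, ∃ r : ℝ, 0 < r ∧ PshOnE (Metric.ball y r) v) {M : ℝ}
    (hM : ∀ y ∈ frontier K, v y ≤ M) : ∀ y ∈ K, v y ≤ M := by
  obtain ⟨e, he⟩ := hE
  have hen : 0 < ‖e‖ := norm_pos_iff.2 he
  obtain ⟨ℓ, -, hℓ⟩ := exists_dual_vector ℂ e hen.ne'
  have hℓe : ‖ℓ e‖ = ‖e‖ := by rw [hℓ]; simp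
  have hℓc : Continuous fun y : E => ‖ℓ y‖ ^ 2 := ℓ.continuous.norm.pow 2
  obtain ⟨B, hB⟩ := hK.exists_bound_of_continuousOn hℓc.continuousOn
  intro y hy
  have hB' : ∀ y ∈ K, ‖ℓ y‖ ^ 2 ≤ B := fun y hy => (le_abs_self _).trans (hB y hy)
  have hB0 : 0 ≤ B := (sq_nonneg _).trans (hB' y hy)
  refine le_of_forall_pos_le_add fun η hη => ?_
  set ε : ℝ := η / (B + 1) with hε'
  have hε : 0 < ε := by positivity
  set V : E → ℝ := fun y => v y + ε * ‖ℓ y‖ ^ 2 with hV'
  have hV : UpperSemicontinuousOn V K :=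
    husc.add (continuous_const.mul hℓc).continuousOn.upperSemicontinuousOn
  obtain ⟨y₀, hy₀, hmax⟩ := hV.exists_isMaxOn ⟨y, hy⟩ hK
  have hfr : y₀ ∈ frontier K := by
    by_contra hcon
    have hint : y₀ ∈ interior K := by
      by_contra h2
      exact hcon ⟨subset_closure hy₀, h2⟩
    obtain ⟨r, hr, hpsh⟩ := hloc y₀ hint
    obtain ⟨r', hr', hsub⟩ := Metric.isOpen_iff.1 isOpen_interior y₀ hint
    set s : ℝ := min r r' / (2 * ‖e‖) with hs'
    have hs0 : 0 < s := div_pos (lt_min hr hr') (by positivity)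
    have hse : s * ‖e‖ < min r r' := by
      have : s * ‖e‖ = min r r' / 2 := by rw [hs']; field_simp
      rw [this]
      linarith [lt_min hr hr']
    have hsn : ‖(s : ℂ)‖ = s := by rw [Complex.norm_real, Real.norm_of_nonneg hs0.le]
    have hnorm : ∀ ξ : ℂ, ‖ξ‖ ≤ 1 → ‖ξ • ((s : ℂ) • e)‖ < min r r' := by
      intro ξ hξ
      rw [norm_smul, norm_smul, hsn]
      calc ‖ξ‖ * (s * ‖e‖) ≤ 1 * (s * ‖e‖) := by gcongr
        _ < min r r' := by linarith
    have hdisc : b5Disc (Metric.ball y₀ r) y₀ ((s : ℂ) • e) := by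
      intro ξ hξ
      rw [mem_ball_iff_norm, add_sub_cancel_left]
      exact (hnorm ξ hξ).trans_le (min_le_left _ _)
    set φ : ℝ → ℝ := fun θ => V y₀ + 0 - ε * ‖ℓ y₀ + lsE θ * ((s : ℂ) * ℓ e)‖ ^ 2 with hφ
    have hc2 : Continuous fun θ : ℝ => ‖ℓ y₀ + lsE θ * ((s : ℂ) * ℓ e)‖ ^ 2 :=
      (continuous_const.add (lsE_continuous.mul continuous_const)).norm.pow 2
    have hφc : Continuous φ := (continuous_const.add continuous_const).sub (continuous_const.mul hc2)
    have hle : ∀ θ : ℝ, v (y₀ + lsE θ • ((s : ℂ) • e)) ≤ φ θ := by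
      intro θ
      have hmem : y₀ + lsE θ • ((s : ℂ) • e) ∈ K := by
        refine interior_subset (hsub ?_)
        rw [mem_ball_iff_norm, add_sub_cancel_left]
        exact (hnorm _ (lsE_norm θ).le).trans_le (min_le_right _ _)
      have h1 : V (y₀ + lsE θ • ((s : ℂ) • e)) ≤ V y₀ := hmax hmem
      have e1 : ℓ (y₀ + lsE θ • ((s : ℂ) • e)) = ℓ y₀ + lsE θ * ((s : ℂ) * ℓ e) := by
        simp only [map_add, map_smul, smul_eq_mul]
      simp only [hV', e1] at h1
      simp only [hφ, hV']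
      linarith
    have h3 := (pshOnE_def.1 hpsh).2 _ _ hdisc φ hφc hle
    rw [hφ, b5_avg_lin (f := fun _ => (0 : ℝ)) continuous_const hc2, b5_cav_normSq, norm_mul, hsn, hℓe] at h3
    simp only [intervalIntegral.integral_zero, mul_zero, add_zero, hV'] at h3
    have : 0 < ε * (s * ‖e‖) ^ 2 := by positivity
    nlinarith
  have h1 : V y ≤ V y₀ := hmax hy
  have h2 : ε * B ≤ η := by
    rw [hε', div_mul_eq_mul_div, div_le_iff₀ (by positivity)]
    nlinarith
  have h3 := hM y₀ hfr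
  have h4 : ε * ‖ℓ y₀‖ ^ 2 ≤ ε * B := mul_le_mul_of_nonneg_left (hB' y₀ hy₀) hε.le
  have h5 : 0 ≤ ε * ‖ℓ y‖ ^ 2 := by positivity
  simp only [hV'] at h1
  linarith

/-- **strong maximum principle.** -/
theorem PshOnE.eqOn_of_isMaxOn (h : PshOnE U v) (hU : IsOpen U) (hc : IsPreconnected U) (hz : z ∈ U)
    (hmax : IsMaxOn v U z) : ∀ y ∈ U, v y = v z := by
  have hpi : (0 : ℝ) < 2 * Real.pi := by positivity
  set M : ℝ := v z with hM
  have hle : ∀ y ∈ U, v y ≤ M := fun y hy => hmax hy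
  set A : Set E := {y | y ∈ U ∧ v y = M} with hA
  set B : Set E := {y | y ∈ U ∧ v y < M} with hB
  have hBo : IsOpen B := by
    rw [isOpen_iff_mem_nhds]
    rintro y ⟨hy, hlt⟩
    have h1 := h.1 y hy M hlt
    rw [hU.nhdsWithin_eq hy] at h1
    filter_upwards [h1, hU.mem_nhds hy] with x hx hxU using ⟨hxU, hx⟩
  have hAo : IsOpen A := by
    rw [Metric.isOpen_iff]
    rintro y₀ ⟨hy₀, hy₀M⟩
    obtain ⟨r, hr, hsub⟩ := Metric.isOpen_iff.1 hU y₀ hy₀
    refine ⟨r, hr, fun y hy => ⟨hsub hy, ?_⟩⟩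
    by_contra hne
    have hlt : v y < M := lt_of_le_of_ne (hle y (hsub hy)) hne
    set w : E := y - y₀ with hw
    have hwr : ‖w‖ < r := by rwa [mem_ball_iff_norm] at hy
    have hd : b5Disc U y₀ w := by
      intro ζ hζ
      refine hsub ?_
      rw [mem_ball_iff_norm, add_sub_cancel_left, norm_smul]
      calc ‖ζ‖ * ‖w‖ ≤ 1 * ‖w‖ := by gcongr
        _ < r := by linarith
    have hgu := b5_usc_circle h.1 hd
    have hg0 : v (y₀ + lsE 0 • w) < M := by
      rw [lsE_zero, one_smul, hw, add_sub_cancel]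
      exact hlt
    obtain ⟨c, hc1, hc2⟩ := exists_between hg0
    obtain ⟨δ, hδ, hδc⟩ := Metric.eventually_nhds_iff.1 (hgu 0 c hc1)
    set φ : ℝ → ℝ := fun θ => M - (M - c) * Max.max 0 (1 - |θ| / δ) with hφ
    have hφc : Continuous φ :=
      continuous_const.sub (continuous_const.mul
        (continuous_const.max (continuous_const.sub (continuous_abs.div_const δ))))
    have hmx : ∀ θ : ℝ, 0 ≤ Max.max 0 (1 - |θ| / δ) ∧ Max.max 0 (1 - |θ| / δ) ≤ 1 := fun θ =>
      ⟨le_max_left _ _, max_le zero_le_one (by have := div_nonneg (abs_nonneg θ) hδ.le; linarith)⟩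
    have hφle : ∀ θ : ℝ, v (y₀ + lsE θ • w) ≤ φ θ := by
      intro θ
      by_cases hθ : |θ| < δ
      · have h1 : v (y₀ + lsE θ • w) < c := hδc (by rwa [Real.dist_eq, sub_zero])
        have h2 := (hmx θ).2
        simp only [hφ]
        nlinarith
      · have h0 : Max.max 0 (1 - |θ| / δ) = 0 :=
          max_eq_left (by rw [sub_nonpos, one_le_div hδ]; exact not_lt.1 hθ)
        simp only [hφ, h0, mul_zero, sub_zero]
        exact hle _ (hd.circle_mem θ)
    have h3 := (pshOnE_def.1 h).2 y₀ w hd φ hφc hφle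
    have h4 : ∫ θ in (0 : ℝ)..(2 * Real.pi), φ θ < ∫ _θ in (0 : ℝ)..(2 * Real.pi), M := by
      refine intervalIntegral.integral_lt_integral_of_continuousOn_of_le_of_exists_lt hpi hφc.continuousOn
        continuousOn_const (fun θ _ => ?_) ⟨0, ⟨le_rfl, hpi.le⟩, ?_⟩
      · simp only [hφ]
        nlinarith [(hmx θ).1]
      · simp only [hφ, abs_zero, zero_div, sub_zero]
        rw [max_eq_right zero_le_one]
        linarith
    rw [intervalIntegral.integral_const, sub_zero, smul_eq_mul] at h4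
    rw [hy₀M, inv_mul_eq_div, le_div_iff₀ hpi] at h3
    linarith
  have hdisj : Disjoint A B := by
    rw [Set.disjoint_left]
    rintro y ⟨-, h1⟩ ⟨-, h2⟩
    exact absurd h1 h2.ne
  have hcov : U ⊆ A ∪ B := fun y hy =>
    (hle y hy).eq_or_lt.imp (fun h => ⟨hy, h⟩) (fun h => ⟨hy, h⟩)
  have := hc.subset_left_of_subset_union hAo hBo hdisj hcov ⟨z, hz, hz, rfl⟩
  exact fun y hy => (this hy).2

end A4

/-! ### Restatements for `PshOn` (proved) -/
section Restate

variable {ι κ : Type} [Fintype ι] [Fintype κ] {U W : Set (CE ι)} {v v₁ v₂ : CE ι → ℝ} {z w : CE ι}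

theorem PshOn.toE (h : PshOn U v) : PshOnE U v := h
theorem PshOnE.toPshOn (h : PshOnE U v) : PshOn U v := h
theorem PshOn.usc (h : PshOn U v) : UpperSemicontinuousOn v U := h.1
theorem PshOn.mono (h : PshOn U v) (hWU : W ⊆ U) : PshOn W v := PshOnE.mono h hWU
theorem PshOn.congr (h : PshOn U v₁) (heq : Set.EqOn v₁ v₂ U) : PshOn U v₂ := PshOnE.congr h heq
theorem pshOn_const (U : Set (CE ι)) (c : ℝ) : PshOn U fun _ => c := pshOnE_const U c
theorem PshOn.add (h₁ : PshOn U v₁) (h₂ : PshOn U v₂) : PshOn U fun y => v₁ y + v₂ y := PshOnE.add h₁ h₂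
theorem PshOn.add_const (h : PshOn U v) (c : ℝ) : PshOn U fun y => v y + c := PshOnE.add_const h c
theorem PshOn.const_mul (h : PshOn U v) {c : ℝ} (hc : 0 ≤ c) : PshOn U fun y => c * v y :=
  PshOnE.const_mul h hc
theorem PshOn.max (h₁ : PshOn U v₁) (h₂ : PshOn U v₂) : PshOn U fun y => max (v₁ y) (v₂ y) :=
  PshOnE.max h₁ h₂
theorem PshOn.le_cav (h : PshOn U v) (hd : b5Disc U z w) : v z ≤ b5Cav v z w := PshOnE.le_cav h hd
theorem PshOn.circle_integrable (h : PshOn U v) (hd : b5Disc U z w) :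
    IntervalIntegrable (fun θ : ℝ => v (z + lsE θ • w)) volume 0 (2 * Real.pi) :=
  PshOnE.circle_integrable h hd
theorem pshOn_of_forall_nhds (hloc : ∀ y ∈ U, ∃ N ∈ 𝓝 y, PshOn N v) : PshOn U v :=
  pshOnE_of_forall_nhds hloc
theorem PshOn.eqOn_of_isMaxOn (h : PshOn U v) (hU : IsOpen U) (hc : IsPreconnected U) (hz : z ∈ U)
    (hmax : IsMaxOn v U z) : ∀ y ∈ U, v y = v z := PshOnE.eqOn_of_isMaxOn h hU hc hz hmax

end Restate

end Claimed.Agent.R316
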