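import Claimed.Agent.R316.B5.Moll

/-!
# Row 316, package B5 (plurisubharmonic functions), file 3: holomorphic invariance, `log ‖f‖`, viscosity sub-solutions, Levi lower bounds

Owner / sub-captain: helper4.  PAPER FREE.

## Leaves

### B5-C1 (section `C1`, ~400 lines) composition with holomorphic maps
* `b5_pshOnE_comp_curve_of_levi` (smooth case, curves).  Let `τ : CE (Fin 1) → CE ι`, `τ y = γ (y 0)`: holomorphic on the open set `{y | y 0 ∈ Ω}`; `levi_comp_hol_posSemidef` + `pshOn_of_levi` (CW) give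
  `PshOn {y | y 0 ∈ Ω} (u ∘ τ)`; then `PshOnE.comp_affine` with `L : ℂ →L[ℂ] CE (Fin 1)`, `L ζ = ζ • EuclideanSpace.single 0 1`, `a = 0`, and `PshOnE.congr`.  (`u ∘ τ` is `C²` because `τ` is smooth: `hol_contDiffOn_real`.)
* `PshOn.comp_curve`: `pshOnE_of_upper_approx` (Basic.lean).  usc: `v` usc on `U`, `γ` continuous on `Ω`, maps `Ω` to `U`.  Given a disc `(c,s)` in `Ω` and continuous `φ > v ∘ γ` on its circle:
  `K = γ '' disc` is compact in `U`; `b5_exists_subset_shrink` and `b5Moll_lt_of_usc` (with `S = [0,2π]`, `t ↦ γ (c + e^{it} s)`) give `ε` with `K ⊆ b5Shrink U ε` and `b5Moll ε v (γ(c + e^{it}s)) < φ t`.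
  Take `u = b5Moll ε v ∘ γ`, `W = Ω ∩ γ⁻¹ (b5Shrink U ε)` (open); `u` is `PshOnE` on `W` by the smooth case (`contDiffOn_b5Moll`, `PshOn.levi_b5Moll`), `v (γ c) ≤ u c` by `PshOn.le_b5Moll`.
* `PshOn.comp_holE`: for a disc `(z,w)` in `W` apply `comp_curve` to `γ ζ = f (z + ζ w)` on `Ω = {ζ | z + ζ w ∈ W}` and use its inequality for the disc `(0, 1)` of `ℂ`.

### B5-C2 (section `C2`, ~450 lines) pluriharmonic functions, `log max(‖f‖, δ)`
* `pshOnE_re_of_differentiableOn`: continuous; equality in the mean value property: for a disc `(z,w)`: `ζ ↦ g (z + ζ w)` is holomorphic near the closed unit disc, `DiffContOnCl.circleAverage` (Mathlib `Analysis/Complex/MeanValue.lean`)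
  (translate `Real.circleAverage`/`circleMap 0 1 θ = e^{iθ}` into `b5Cav`), then take real parts (`integral_re` / `Complex.reCLM.intervalIntegral_comp_comm`).
* `b5_pshOnE_log_max_norm_scalar` (`g : ℂ → ℂ` holomorphic on open `Ω`): LOCALITY (`pshOnE_of_forall_nhds`).  Near a point with `‖g‖ < δ` the function is the constant `log δ`.  Near a point `c` with `g c ≠ 0`: on a small ball `B` `g ≠ 0` and
  `log ‖g‖ = Re (L)` for a holomorphic branch `L` of `log g` on `B` (e.g. `L ζ = Complex.log (g ζ / g c) + Complex.log (g c)` where `‖g ζ / g c - 1‖ < 1`, slit plane), so `log ‖g‖` is `PshOnE B` by the previous item, and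
  `log (max ‖g‖ δ) = max (log ‖g‖) (log δ)` there (`PshOnE.max`, `pshOnE_const`, `PshOnE.congr`).   (Alternative: Mathlib's `AnalyticAt.harmonicAt_log_norm` + `HarmonicOnNhd.circleAverage_eq`.)
* `pshOnE_log_max_norm`: continuous.  Disc `(z,w)`: if `‖f z‖ ≤ δ` trivial (`log δ ≤` integrand).  Otherwise `exists_dual_vector ℂ (f z)` gives `ℓ`, `‖ℓ‖ = 1`, `ℓ (f z) = ‖f z‖`; `g ζ = ℓ (f (z + ζ w))`; scalar case on the disc `(0,1)`; `‖g‖ ≤ ‖f‖`; monotonicity of `log (max · δ)`.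

### B5-C3 (section `C3`, ~500 lines) viscosity sub-solutions are psh
`b5_pshOn_of_visc`.  Use `pshOnE_of_le_poly`.  Disc `(z,w)` in `U`, polynomial `P` with `f (z + e^{iθ} w) ≤ Re P (e^{iθ})`.  If `w = 0`: average (`b5_cav_poly`).  Let `w ≠ 0` and suppose `a := f z - Re P 0 > 0`.
`π y = ⟪w, y - z⟫ / ‖w‖²` (ℂ-linear in `y - z`, `π (z + ζ w) = ζ`), `p y = (y - z) - π y • w`,  `H y = Re P (π y) + (a/2) (1 - |π y|²) + a/4`,  `q_N y = H y + N ‖p y‖²` (smooth on `CE ι`).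
`T_s = {y | |π y| ≤ 1 ∧ ‖p y‖ ≤ s}` is compact and `⊆ U` for small `s` (it lies in the `s`-thickening of the compact disc).  `f - H` is usc on `T_s`, `< 0` on the circle `{|π| = 1, p = 0}` (there `f - H ≤ -a/4`), `≥ a/4` at `z`.
(1) there is `s' ≤ s` with `f - H < 0` on `{|π| = 1, ‖p‖ ≤ s'}` (compactness + usc);  (2) `B := sup_{T_s} (f - H) < ∞`; choose `N s'² > B`.  Then `f - q_N < 0` on `{|π| = 1} ∪ {‖p‖ = s}` (within `T_s`), while `(f - q_N) z ≥ a/4 > 0`.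
So a maximum point `y₀` of the usc function `f - q_N` on `T_s` lies in the open set `{|π| < 1, ‖p‖ < s}`; `q := q_N + (f - q_N) y₀` is a smooth upper test function at `y₀`; the hypothesis gives `0 ≤ qf (levi q y₀) w`.
But `ζ ↦ q (y₀ + ζ w) = Re P (π y₀ + ζ) - (a/2) |π y₀ + ζ|² + const` has Laplacian `-2a` at `0` and `qf (levi q y₀) w = (1/4) Δ` (`qf_levi_eq_laplacian`, CW/Levi.lean); or compute `levi` by `levi_add`, `levi_normSq_hol` (`|π|²`, `‖p‖² = Σ_j |p_j|²`, `levi (Re hol) = 0`).  Contradiction.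

### B5-C4: DROPPED (duplicate of `levi_wsMol_ge_of_chVisc`, `Base/Rich/Moll.lean`).
-/

set_option autoImplicit false
open scoped ContDiff ComplexOrder Topology
open MeasureTheory Filter

namespace Claimed.Agent.R316

variable {ι κ : Type} [Fintype ι] [Fintype κ] {U : Set (CE ι)} {v : CE ι → ℝ}
variable {E' F : Type} [NormedAddCommGroup E'] [NormedSpace ℂ E'] [NormedAddCommGroup F] [NormedSpace ℂ F]

/-! ### C1 -/
section C1

/-- smooth case, holomorphic curves. -/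
theorem b5_pshOnE_comp_curve_of_levi [DecidableEq ι] (hU : IsOpen U) {u : CE ι → ℝ} (hu : ContDiffOn ℝ 2 u U)
    (hl : ∀ y ∈ U, (levi u y).PosSemidef) {γ : ℂ → CE ι} {Ω : Set ℂ} (hΩ : IsOpen Ω)
    (hγ : DifferentiableOn ℂ γ Ω) (hm : Set.MapsTo γ Ω U) : PshOnE Ω fun ζ => u (γ ζ) := by
  set V : Set (CE (Fin 1)) := {y | y 0 ∈ Ω} with hV
  have hVo : IsOpen V := hΩ.preimage (by fun_prop)
  set τ : CE (Fin 1) → CE ι := fun y => γ (y 0) with hτ
  have hτd : DifferentiableOn ℂ τ V := by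
    intro y hy
    have h1 := hγ (y 0) hy
    have h2 : DifferentiableWithinAt ℂ (fun y : CE (Fin 1) => y 0) V y :=
      (EuclideanSpace.proj (𝕜 := ℂ) (0 : Fin 1)).differentiableAt.differentiableWithinAt
    exact DifferentiableWithinAt.comp y h1 h2 (fun y hy => hy)
  have hC : ContDiffOn ℝ 2 (fun y => u (τ y)) V :=
    hu.comp ((hol_contDiffOn_real hVo hτd).of_le (by norm_cast)) (fun y hy => hm hy)
  have hL : ∀ y ∈ V, (levi (fun w => u (τ w)) y).PosSemidef := fun y hy =>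
    levi_comp_hol_posSemidef τ u (hol_eventually_of_differentiableOn hVo hτd hy)
      (hu.contDiffAt (hU.mem_nhds (hm hy))) (hl _ (hm hy))
  have hp : PshOn V (fun y => u (τ y)) := pshOn_of_levi hVo hC hL
  have h3 := hp.toE.comp_affine
    (ContinuousLinearMap.toSpanSingleton ℂ (EuclideanSpace.single 0 1 : CE (Fin 1))) 0
  have e1 : ∀ ζ : ℂ, ((0 : CE (Fin 1)) +
      (ContinuousLinearMap.toSpanSingleton ℂ (EuclideanSpace.single 0 1 : CE (Fin 1))) ζ) 0 = ζ := by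
    intro ζ
    simp [ContinuousLinearMap.toSpanSingleton_apply]
  have e2 : {y : ℂ | (0 : CE (Fin 1)) +
      (ContinuousLinearMap.toSpanSingleton ℂ (EuclideanSpace.single 0 1 : CE (Fin 1))) y ∈ V} = Ω := by
    ext ζ
    simp only [hV, Set.mem_ofPred_eq, e1]
  rw [e2] at h3
  refine h3.congr fun ζ _ => ?_
  simp only [hτ, e1]

/-- a psh function is subharmonic along holomorphic curves. -/
theorem PshOn.comp_curve (hU : IsOpen U) (h : PshOn U v) {γ : ℂ → CE ι} {Ω : Set ℂ} (hΩ : IsOpen Ω)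
    (hγ : DifferentiableOn ℂ γ Ω) (hm : Set.MapsTo γ Ω U) : PshOnE Ω fun ζ => v (γ ζ) := by
  classical
  have husc : UpperSemicontinuousOn (fun ζ => v (γ ζ)) Ω := h.usc.comp hγ.continuousOn hm
  refine pshOnE_of_upper_approx husc ?_
  intro c s hd φ hφ hlt
  have hDsub : ((fun ζ : ℂ => c + ζ • s) '' Metric.closedBall 0 1) ⊆ Ω := by
    rintro _ ⟨ζ, hζ, rfl⟩
    exact hd ζ (by simpa using hζ)
  have hKc : IsCompact (γ '' ((fun ζ : ℂ => c + ζ • s) '' Metric.closedBall 0 1)) :=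
    (b5_isCompact_disc c s).image_of_continuousOn (hγ.continuousOn.mono hDsub)
  have hKU : γ '' ((fun ζ : ℂ => c + ζ • s) '' Metric.closedBall 0 1) ⊆ U := by
    rintro _ ⟨ζ, hζ, rfl⟩
    exact hm (hDsub hζ)
  have hli := h.locallyIntegrableOn hU
  obtain ⟨ε₁, hε₁, hsh⟩ := b5_exists_subset_shrink hU hKc hKU
  have hcc : Continuous fun t : ℝ => c + lsE t • s :=
    continuous_const.add (lsE_continuous.smul continuous_const)
  have hcm : ∀ t : ℝ, c + lsE t • s ∈ Ω := fun t => hd.circle_mem t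
  obtain ⟨ε₂, hε₂, hmo⟩ := b5Moll_lt_of_usc (S := Set.Icc (0 : ℝ) (2 * Real.pi)) isCompact_Icc hU h.usc
    hli (γ := fun t => γ (c + lsE t • s))
    (hγ.continuousOn.comp hcc.continuousOn fun t _ => hcm t) (fun t _ => hm (hcm t))
    hφ.continuousOn (fun t _ => hlt t)
  have hε : 0 < min ε₁ ε₂ / 2 := by positivity
  have hε1 : min ε₁ ε₂ / 2 < ε₁ := by
    have := min_le_left ε₁ ε₂
    linarith
  have hε2 : min ε₁ ε₂ / 2 < ε₂ := by
    have := min_le_right ε₁ ε₂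
    linarith
  have hmem : ∀ ζ : ℂ, ‖ζ‖ ≤ 1 → γ (c + ζ • s) ∈ b5Shrink U (min ε₁ ε₂ / 2) := fun ζ hζ =>
    hsh _ hε1 ⟨_, ⟨ζ, by simpa using hζ, rfl⟩, rfl⟩
  refine ⟨fun ζ => b5Moll (min ε₁ ε₂ / 2) v (γ ζ), Ω ∩ γ ⁻¹' (b5Shrink U (min ε₁ ε₂ / 2)),
    fun ζ hζ => ⟨hd ζ hζ, hmem ζ hζ⟩, ?_, ?_, fun θ hθ => (hmo _ hε hε2 θ hθ).2.le⟩
  · exact b5_pshOnE_comp_curve_of_levi (isOpen_b5Shrink hU _)
      ((contDiffOn_b5Moll hU hli hε).of_le (by norm_cast)) (h.levi_b5Moll hU hε)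
      (hγ.continuousOn.isOpen_inter_preimage hΩ (isOpen_b5Shrink hU _))
      (hγ.mono Set.inter_subset_left) (fun ζ hζ => hζ.2)
  · have := hmem 0 (by simp)
    rw [zero_smul, add_zero] at this
    exact h.le_b5Moll hU hε this

/-- **holomorphic invariance.** -/
theorem PshOn.comp_holE (hU : IsOpen U) (h : PshOn U v) {f : E' → CE ι} {W : Set E'} (hW : IsOpen W)
    (hf : DifferentiableOn ℂ f W) (hm : Set.MapsTo f W U) : PshOnE W fun y => v (f y) := by
  have husc : UpperSemicontinuousOn (fun y => v (f y)) W := h.usc.comp hf.continuousOn hm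
  refine ⟨husc, ?_⟩
  intro z w hd φ hφ hle
  have hc : Continuous fun ζ : ℂ => z + ζ • w := continuous_const.add (continuous_id.smul continuous_const)
  have hΩ : IsOpen {ζ : ℂ | z + ζ • w ∈ W} := hW.preimage hc
  have hγ : DifferentiableOn ℂ (fun ζ : ℂ => f (z + ζ • w)) {ζ : ℂ | z + ζ • w ∈ W} := by
    intro ζ hζ
    have h1 := hf (z + ζ • w) hζ
    have h2 : DifferentiableWithinAt ℂ (fun ζ : ℂ => z + ζ • w) {ζ : ℂ | z + ζ • w ∈ W} ζ := by
      fun_prop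
    exact DifferentiableWithinAt.comp ζ h1 h2 (fun y hy => hy)
  have h3 := PshOn.comp_curve hU h hΩ hγ (fun ζ hζ => hm hζ)
  have h4 := h3.2 0 1 (fun ζ hζ => by simpa using hd ζ hζ) φ hφ (fun θ => by simpa using hle θ)
  simpa using h4

theorem PshOn.comp_hol (hU : IsOpen U) (h : PshOn U v) {f : CE κ → CE ι} {W : Set (CE κ)} (hW : IsOpen W)
    (hf : DifferentiableOn ℂ f W) (hm : Set.MapsTo f W U) : PshOn W fun y => v (f y) :=
  PshOn.comp_holE hU h hW hf hm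

end C1

/-! ### C2 -/
section C2

theorem b5_differentiableOn_line {G : Type} [NormedAddCommGroup G] [NormedSpace ℂ G] {f : E' → G}
    {W : Set E'} (hf : DifferentiableOn ℂ f W) (z w : E') :
    DifferentiableOn ℂ (fun ζ : ℂ => f (z + ζ • w)) {ζ : ℂ | z + ζ • w ∈ W} := by
  intro ζ hζ
  have h1 := hf (z + ζ • w) hζ
  have h2 : DifferentiableWithinAt ℂ (fun ζ : ℂ => z + ζ • w) {ζ : ℂ | z + ζ • w ∈ W} ζ := by
    fun_prop
  exact DifferentiableWithinAt.comp ζ h1 h2 (fun y hy => hy)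

/-- real parts of holomorphic functions. -/
theorem pshOnE_re_of_differentiableOn {g : E' → ℂ} {W : Set E'} (hW : IsOpen W)
    (hg : DifferentiableOn ℂ g W) : PshOnE W fun y => (g y).re := by
  refine pshOnE_of_continuousOn_of_le_cav (Complex.continuous_re.comp_continuousOn hg.continuousOn) ?_
  intro z w hd
  have hG := b5_differentiableOn_line hg z w
  have hsub : Metric.closedBall (0 : ℂ) |1| ⊆ {ζ : ℂ | z + ζ • w ∈ W} :=
    fun ζ hζ => hd ζ (by simpa using hζ)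
  have h1 := (hG.diffContOnCl_ball hsub).circleAverage
  rw [Real.circleAverage_def] at h1
  have hc : Continuous fun θ : ℝ => g (z + circleMap 0 1 θ • w) :=
    hG.continuousOn.comp_continuous (continuous_circleMap 0 1) fun θ => hsub (by simp [circleMap])
  have h2 := congrArg Complex.re h1
  rw [Complex.real_smul, Complex.re_ofReal_mul] at h2
  have h3 := Complex.reCLM.intervalIntegral_comp_comm (hc.intervalIntegrable (μ := volume) 0 (2 * Real.pi))
  simp only [Complex.reCLM_apply] at h3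
  rw [← h3] at h2
  simp only [zero_smul, add_zero] at h2
  rw [← h2]
  apply le_of_eq
  unfold b5Cav
  congr 1
  refine intervalIntegral.integral_congr fun θ _ => ?_
  simp [circleMap, lsE]

theorem b5_pshOnE_log_max_norm_scalar {g : ℂ → ℂ} {Ω : Set ℂ} (hΩ : IsOpen Ω)
    (hg : DifferentiableOn ℂ g Ω) {δ : ℝ} (hδ : 0 < δ) : PshOnE Ω fun ζ => Real.log (max ‖g ζ‖ δ) := by
  refine pshOnE_of_forall_nhds fun c hc => ?_
  have hgc : ContinuousAt g c := hg.continuousOn.continuousAt (hΩ.mem_nhds hc)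
  by_cases h0 : g c = 0
  · have h1 : ∀ᶠ ζ in 𝓝 c, ‖g ζ‖ < δ :=
      hgc.norm.eventually_lt_const (by show ‖g c‖ < δ; rw [h0]; simpa using hδ)
    refine ⟨{ζ | ‖g ζ‖ < δ}, h1, ?_⟩
    refine (pshOnE_const _ (Real.log δ)).congr fun ζ hζ => ?_
    have hζ' : ‖g ζ‖ < δ := hζ
    rw [max_eq_right hζ'.le]
  · have hBo : IsOpen {x : ℂ | ‖x / g c - 1‖ < 1} := isOpen_lt (by fun_prop) continuous_const
    have hNo : IsOpen (Ω ∩ g ⁻¹' {x : ℂ | ‖x / g c - 1‖ < 1}) :=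
      hg.continuousOn.isOpen_inter_preimage hΩ hBo
    have hcN : c ∈ Ω ∩ g ⁻¹' {x : ℂ | ‖x / g c - 1‖ < 1} := by
      refine ⟨hc, ?_⟩
      show ‖g c / g c - 1‖ < 1
      rw [div_self h0]
      simp
    refine ⟨_, hNo.mem_nhds hcN, ?_⟩
    have hsl : ∀ ζ ∈ Ω ∩ g ⁻¹' {x : ℂ | ‖x / g c - 1‖ < 1}, g ζ / g c ∈ Complex.slitPlane := by
      intro ζ hζ
      have h1 : ‖g ζ / g c - 1‖ < 1 := hζ.2
      have := Complex.mem_slitPlane_of_norm_lt_one h1
      rwa [add_sub_cancel] at this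
    have hL : DifferentiableOn ℂ (fun ζ => Complex.log (g ζ / g c))
        (Ω ∩ g ⁻¹' {x : ℂ | ‖x / g c - 1‖ < 1}) := by
      intro ζ hζ
      have h1 : DifferentiableWithinAt ℂ (fun ζ => g ζ / g c)
          (Ω ∩ g ⁻¹' {x : ℂ | ‖x / g c - 1‖ < 1}) ζ :=
        ((hg ζ hζ.1).mono Set.inter_subset_left).div_const _
      exact h1.clog (hsl ζ hζ)
    have h2 := ((pshOnE_re_of_differentiableOn hNo hL).add_const (Real.log ‖g c‖)).max
      (pshOnE_const _ (Real.log δ))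
    refine h2.congr fun ζ hζ => ?_
    have hne : g ζ ≠ 0 := by
      intro h
      have := Complex.slitPlane_ne_zero (hsl ζ hζ)
      rw [h, zero_div] at this
      exact this rfl
    have hp : 0 < ‖g ζ‖ := norm_pos_iff.2 hne
    have hpc : 0 < ‖g c‖ := norm_pos_iff.2 h0
    show Max.max ((Complex.log (g ζ / g c)).re + Real.log ‖g c‖) (Real.log δ) = Real.log (Max.max ‖g ζ‖ δ)
    rw [Complex.log_re, norm_div, Real.log_div hp.ne' hpc.ne', sub_add_cancel]
    exact (Real.strictMonoOn_log.monotoneOn.map_max hp hδ).symm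

/-- **`max (log ‖f‖) (log δ)` is psh** (written without the junk value `Real.log 0 = 0`). -/
theorem pshOnE_log_max_norm {f : E' → F} {W : Set E'} (hW : IsOpen W) (hf : DifferentiableOn ℂ f W)
    {δ : ℝ} (hδ : 0 < δ) : PshOnE W fun y => Real.log (max ‖f y‖ δ) := by
  have hcont : ContinuousOn (fun y => Real.log (max ‖f y‖ δ)) W :=
    ContinuousOn.log (ContinuousOn.sup hf.continuousOn.norm continuousOn_const)
      (fun y _ => (lt_max_of_lt_right hδ).ne')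
  refine pshOnE_of_continuousOn_of_le_cav hcont ?_
  intro z w hd
  obtain ⟨ℓ, hℓ1, hℓ2⟩ := exists_dual_vector'' ℂ (f z)
  have hc : Continuous fun ζ : ℂ => z + ζ • w := continuous_const.add (continuous_id.smul continuous_const)
  have hΩ : IsOpen {ζ : ℂ | z + ζ • w ∈ W} := hW.preimage hc
  have hG : DifferentiableOn ℂ (fun ζ : ℂ => ℓ (f (z + ζ • w))) {ζ : ℂ | z + ζ • w ∈ W} :=
    ℓ.differentiable.comp_differentiableOn (b5_differentiableOn_line hf z w)
  have h3 := b5_pshOnE_log_max_norm_scalar hΩ hG hδ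
  have hd' : b5Disc {ζ : ℂ | z + ζ • w ∈ W} 0 1 := fun ζ hζ => by simpa using hd ζ hζ
  have h4 := h3.le_cav hd'
  have h5 := h3.circle_integrable hd'
  have e1 : ‖ℓ (f z)‖ = ‖f z‖ := by rw [hℓ2]; simp
  simp only [zero_smul, add_zero, e1] at h4
  refine h4.trans ?_
  unfold b5Cav
  refine mul_le_mul_of_nonneg_left ?_ (by positivity)
  have hcc : Continuous fun t : ℝ => z + lsE t • w :=
    continuous_const.add (lsE_continuous.smul continuous_const)
  have h6 : Continuous fun θ : ℝ => Real.log (max ‖f (z + lsE θ • w)‖ δ) :=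
    hcont.comp_continuous hcc fun θ => hd.circle_mem θ
  refine intervalIntegral.integral_mono_on (by positivity) h5 (h6.intervalIntegrable _ _) fun θ _ => ?_
  simp only [zero_add, smul_eq_mul, mul_one]
  refine Real.log_le_log (lt_max_of_lt_right hδ) (max_le_max_right _ ?_)
  calc ‖ℓ (f (z + lsE θ • w))‖ ≤ ‖ℓ‖ * ‖f (z + lsE θ • w)‖ := ℓ.le_opNorm _
    _ ≤ 1 * ‖f (z + lsE θ • w)‖ := mul_le_mul_of_nonneg_right hℓ1 (norm_nonneg _)
    _ = _ := one_mul _

/-- `‖f‖` is psh. -/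
theorem pshOnE_norm {f : E' → F} {W : Set E'} (hW : IsOpen W) (hf : DifferentiableOn ℂ f W) :
    PshOnE W fun y => ‖f y‖ := by
  refine pshOnE_of_continuousOn_of_le_cav hf.continuousOn.norm ?_
  intro z w hd
  obtain ⟨ℓ, hℓ1, hℓ2⟩ := exists_dual_vector'' ℂ (f z)
  have h3 := pshOnE_re_of_differentiableOn hW (ℓ.differentiable.comp_differentiableOn hf)
  have h4 := h3.le_cav hd
  have h5 := h3.circle_integrable hd
  have e1 : (ℓ (f z)).re = ‖f z‖ := by rw [hℓ2]; simp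
  simp only [Function.comp, e1] at h4
  refine h4.trans ?_
  unfold b5Cav
  refine mul_le_mul_of_nonneg_left ?_ (by positivity)
  have hcc : Continuous fun t : ℝ => z + lsE t • w :=
    continuous_const.add (lsE_continuous.smul continuous_const)
  have h6 : Continuous fun θ : ℝ => ‖f (z + lsE θ • w)‖ :=
    hf.continuousOn.norm.comp_continuous hcc fun θ => hd.circle_mem θ
  refine intervalIntegral.integral_mono_on (by positivity) h5 (h6.intervalIntegrable _ _) fun θ _ => ?_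
  calc (ℓ (f (z + lsE θ • w))).re ≤ ‖ℓ (f (z + lsE θ • w))‖ := Complex.re_le_norm _
    _ ≤ ‖ℓ‖ * ‖f (z + lsE θ • w)‖ := ℓ.le_opNorm _
    _ ≤ 1 * ‖f (z + lsE θ • w)‖ := mul_le_mul_of_nonneg_right hℓ1 (norm_nonneg _)
    _ = _ := one_mul _

end C2

/-! ### C3 -/
section C3

variable [DecidableEq ι]

theorem b5c3_sum_dz {F : CE ι → ℂ} {z : CE ι} (h : DifferentiableAt ℂ F z) (v : CE ι) :
    ∑ k, dz k F z * v k = fderiv ℂ F z v := by
  have hv : v = ∑ k, v k • (eb k : CE ι) := by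
    ext j
    simp [eb_apply]
  conv_rhs => rw [hv]
  rw [map_sum]
  refine Finset.sum_congr rfl fun k _ => ?_
  rw [map_smul, dz_of_differentiableAt h, smul_eq_mul, mul_comm]

theorem b5c3_qf_levi_normSq {F : CE ι → ℂ} {z : CE ι} (hF : ∀ᶠ w in 𝓝 z, DifferentiableAt ℂ F w)
    (v : CE ι) : qf (levi (fun w => ‖F w‖ ^ 2) z) v = ‖fderiv ℂ F z v‖ ^ 2 := by
  have h : levi (fun w => ‖F w‖ ^ 2) z = Matrix.of fun j k => (starRingEnd ℂ) (dz j F z) * dz k F z := by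
    ext j k
    exact levi_normSq_hol F hF
  rw [h, qf_grad10_outer, b5c3_sum_dz hF.self_of_nhds]

omit [DecidableEq ι] in
theorem b5c3_fderiv_affine (Λ : CE ι →L[ℂ] ℂ) (c : ℂ) (y : CE ι) :
    fderiv ℂ (fun x => Λ x - c) y = Λ := (Λ.hasFDerivAt.sub_const c).fderiv

omit [DecidableEq ι] in
theorem b5c3_differentiable_affine (Λ : CE ι →L[ℂ] ℂ) (c : ℂ) :
    Differentiable ℂ (fun x => Λ x - c) := fun _ => (Λ.hasFDerivAt.sub_const c).differentiableAt

omit [DecidableEq ι] in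
theorem b5c3_contDiff_of_differentiable {F : CE ι → ℂ} (hF : Differentiable ℂ F) : ContDiff ℝ ∞ F :=
  contDiff_iff_contDiffAt.2 fun _ => hol_contDiffAt_real (Eventually.of_forall hF)

/-- the test function of the maximum principle. -/
theorem b5c3_test (ℓ : CE ι →L[ℂ] ℂ) (Lp : CE ι →L[ℂ] CE ι) {w : CE ι} (z : CE ι) (hℓ : ℓ w = 1)
    (hL : Lp w = 0) (P : Polynomial ℂ) (m N c : ℝ) :
    ContDiff ℝ ∞ (fun y : CE ι => ((P.eval (ℓ y - ℓ z)).re + (-m) * ‖ℓ y - ℓ z‖ ^ 2 +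
      N * ∑ j, ‖(Lp y) j - (Lp z) j‖ ^ 2) + c) ∧
    ∀ y₀ : CE ι, qf (levi (fun y : CE ι => ((P.eval (ℓ y - ℓ z)).re + (-m) * ‖ℓ y - ℓ z‖ ^ 2 +
      N * ∑ j, ‖(Lp y) j - (Lp z) j‖ ^ 2) + c) y₀) w = -m := by
  have hF1 : Differentiable ℂ (fun y : CE ι => ℓ y - ℓ z) := b5c3_differentiable_affine ℓ _
  have hF0 : Differentiable ℂ (fun y : CE ι => P.eval (ℓ y - ℓ z)) := P.differentiable.comp hF1
  have hFj : ∀ j, Differentiable ℂ (fun y : CE ι => (Lp y) j - (Lp z) j) := fun j =>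
    b5c3_differentiable_affine ((EuclideanSpace.proj j : CE ι →L[ℂ] ℂ).comp Lp) _
  have c0 : ContDiff ℝ ∞ (fun y : CE ι => (P.eval (ℓ y - ℓ z)).re) :=
    Complex.reCLM.contDiff.comp (b5c3_contDiff_of_differentiable hF0)
  have c1 : ContDiff ℝ ∞ (fun y : CE ι => ‖ℓ y - ℓ z‖ ^ 2) :=
    (b5c3_contDiff_of_differentiable hF1).norm_sq ℂ
  have cj : ∀ j, ContDiff ℝ ∞ (fun y : CE ι => ‖(Lp y) j - (Lp z) j‖ ^ 2) := fun j =>
    (b5c3_contDiff_of_differentiable (hFj j)).norm_sq ℂ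
  have c2 : ContDiff ℝ ∞ (fun y : CE ι => ∑ j, ‖(Lp y) j - (Lp z) j‖ ^ 2) :=
    ContDiff.sum fun j _ => cj j
  refine ⟨((c0.add (contDiff_const.mul c1)).add (contDiff_const.mul c2)).add contDiff_const, ?_⟩
  intro y₀
  have h2 : ∀ {φ : CE ι → ℝ}, ContDiff ℝ ∞ φ → ContDiffAt ℝ 2 φ y₀ := fun hφ =>
    (hφ.of_le lv_two_le_infty).contDiffAt
  rw [levi_add_const, levi_add (h2 (c0.add (contDiff_const.mul c1))) (h2 (contDiff_const.mul c2)),
    levi_add (h2 c0) (h2 (contDiff_const.mul c1)), levi_const_mul _ (h2 c1),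
    levi_const_mul _ (h2 c2), levi_re_hol _ (Eventually.of_forall hF0),
    levi_sum Finset.univ (fun j y => ‖(Lp y) j - (Lp z) j‖ ^ 2) fun j _ => h2 (cj j),
    lv_qf_add, lv_qf_add, lv_qf_zero, lv_qf_smul, lv_qf_smul, lv_qf_sum,
    b5c3_qf_levi_normSq (Eventually.of_forall hF1), b5c3_fderiv_affine, hℓ]
  have h0 : ∀ j ∈ Finset.univ, qf (levi (fun y : CE ι => ‖(Lp y) j - (Lp z) j‖ ^ 2) y₀) w = 0 := by
    intro j _
    rw [b5c3_qf_levi_normSq (Eventually.of_forall (hFj j))]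
    have : fderiv ℂ (fun y : CE ι => (Lp y) j - (Lp z) j) y₀ =
        (EuclideanSpace.proj j : CE ι →L[ℂ] ℂ).comp Lp :=
      b5c3_fderiv_affine ((EuclideanSpace.proj j : CE ι →L[ℂ] ℂ).comp Lp) _ y₀
    rw [this]
    simp [hL]
  rw [Finset.sum_eq_zero h0]
  simp

/-- **viscosity sub-solutions are plurisubharmonic** (`f` only usc). -/
theorem b5_pshOn_of_visc (hU : IsOpen U) {f : CE ι → ℝ} (hf : UpperSemicontinuousOn f U)
    (h : ∀ z ∈ U, ∀ q : CE ι → ℝ, ContDiff ℝ ∞ q → (∀ᶠ y in 𝓝 z, f y ≤ q y) → q z = f z →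
      (levi q z).PosSemidef) : PshOn U f := by
  refine pshOnE_of_le_poly hf fun z w hd P hP => ?_
  rcases eq_or_ne w 0 with rfl | hw
  · -- degenerate disc: average
    have h1 := b5_cav_poly P 0 1
    simp only [zero_add, mul_one] at h1
    rw [← h1]
    have h2 : ∀ θ : ℝ, f z ≤ (P.eval (lsE θ)).re := fun θ => by simpa using hP θ
    have hc : Continuous fun θ : ℝ => (P.eval (lsE θ)).re :=
      Complex.continuous_re.comp (P.continuous.comp lsE_continuous)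
    have hpi : 0 < 2 * Real.pi := by positivity
    have h3 : ∫ _θ in (0 : ℝ)..(2 * Real.pi), f z ≤
        ∫ θ in (0 : ℝ)..(2 * Real.pi), (P.eval (lsE θ)).re :=
      intervalIntegral.integral_mono_on hpi.le intervalIntegrable_const
        (hc.intervalIntegrable _ _) fun θ _ => h2 θ
    rw [intervalIntegral.integral_const, sub_zero, smul_eq_mul] at h3
    calc f z = (2 * Real.pi)⁻¹ * (2 * Real.pi * f z) := by field_simp
      _ ≤ _ := by gcongr
  by_contra hcon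
  rw [not_le] at hcon
  obtain ⟨a, hadef⟩ : ∃ a : ℝ, a = f z - (P.eval 0).re := ⟨_, rfl⟩
  have ha : 0 < a := by rw [hadef]; linarith
  have hwn : 0 < ‖w‖ := norm_pos_iff.2 hw
  -- the projections
  obtain ⟨ℓ, hℓdef⟩ : ∃ ℓ : CE ι →L[ℂ] ℂ, ℓ = (((‖w‖ ^ 2 : ℝ) : ℂ)⁻¹) • innerSL ℂ w := ⟨_, rfl⟩
  have hℓw : ℓ w = 1 := by
    rw [hℓdef]
    simp only [_root_.smul_apply, innerSL_apply_apply, inner_self_eq_norm_sq_to_K,
      smul_eq_mul]
    push_cast
    have : ((‖w‖ : ℝ) : ℂ) ≠ 0 := by exact_mod_cast hwn.ne'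
    field_simp
    rfl
  obtain ⟨Lp, hLpdef⟩ : ∃ Lp : CE ι →L[ℂ] CE ι,
      Lp = ContinuousLinearMap.id ℂ (CE ι) - ℓ.smulRight w := ⟨_, rfl⟩
  have hLp : ∀ y, Lp y = y - ℓ y • w := fun y => by rw [hLpdef]; simp
  have hLpw : Lp w = 0 := by rw [hLp, hℓw, one_smul, sub_self]
  have hdec : ∀ y, y - (z + (ℓ y - ℓ z) • w) = Lp y - Lp z := fun y => by
    rw [hLp, hLp, sub_smul]; abel
  have hsum : ∀ y, ∑ j, ‖(Lp y) j - (Lp z) j‖ ^ 2 = ‖Lp y - Lp z‖ ^ 2 := fun y => by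
    rw [EuclideanSpace.norm_sq_eq]; rfl
  have hline : ∀ ζ : ℂ, ℓ (z + ζ • w) - ℓ z = ζ := fun ζ => by
    rw [map_add, map_smul, hℓw]; simp
  have hlineL : ∀ ζ : ℂ, Lp (z + ζ • w) - Lp z = 0 := fun ζ => by
    rw [map_add, map_smul, hLpw]; simp
  have hpic : Continuous fun y : CE ι => ℓ y - ℓ z := ℓ.continuous.sub continuous_const
  have hppc : Continuous fun y : CE ι => Lp y - Lp z := Lp.continuous.sub continuous_const
  -- the comparison function
  obtain ⟨H, hHdef⟩ : ∃ H : CE ι → ℝ, H = fun y =>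
      (P.eval (ℓ y - ℓ z)).re + a / 2 * (1 - ‖ℓ y - ℓ z‖ ^ 2) + a / 4 := ⟨_, rfl⟩
  have hHc : Continuous H := by
    rw [hHdef]
    exact ((Complex.continuous_re.comp (P.continuous.comp hpic)).add
      (continuous_const.mul (continuous_const.sub (hpic.norm.pow 2)))).add continuous_const
  obtain ⟨G, hGdef⟩ : ∃ G : CE ι → ℝ, G = fun y => f y + -H y := ⟨_, rfl⟩
  have hGusc : UpperSemicontinuousOn G U := by
    rw [hGdef]
    exact hf.add hHc.neg.continuousOn.upperSemicontinuousOn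
  have hVo : IsOpen {y | y ∈ U ∧ G y < 0} := by
    rw [isOpen_iff_mem_nhds]
    rintro y ⟨hyU, hy⟩
    have h1 := hGusc y hyU 0 hy
    rw [hU.nhdsWithin_eq hyU] at h1
    filter_upwards [h1, hU.mem_nhds hyU] with y' h2 h3 using ⟨h3, h2⟩
  have hlc : Continuous fun ζ : ℂ => z + ζ • w := by fun_prop
  obtain ⟨s₁, hs₁, hs₁U⟩ := ((isCompact_closedBall (0 : ℂ) 1).image hlc).exists_cthickening_subset_open
    hU (by rintro _ ⟨ζ, hζ, rfl⟩; exact hd ζ (by simpa using hζ))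
  obtain ⟨s₂, hs₂, hs₂V⟩ := ((isCompact_sphere (0 : ℂ) 1).image hlc).exists_cthickening_subset_open
    hVo (by
      rintro _ ⟨ζ, hζ, rfl⟩
      have hζ1 : ‖ζ‖ = 1 := by simpa using hζ
      refine ⟨hd ζ hζ1.le, ?_⟩
      obtain ⟨θ, rfl⟩ : ∃ θ : ℝ, lsE θ = ζ := by
        refine ⟨Complex.arg ζ, ?_⟩
        have := Complex.norm_mul_exp_arg_mul_I ζ
        rw [hζ1] at this
        simpa [lsE] using this
      have h1 := hP θ
      rw [hGdef, hHdef]
      simp only [hline, hζ1]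
      linarith)
  obtain ⟨s, hsdef⟩ : ∃ s : ℝ, s = min s₁ s₂ := ⟨_, rfl⟩
  have hs : 0 < s := by rw [hsdef]; exact lt_min hs₁ hs₂
  obtain ⟨T, hTdef⟩ : ∃ T : Set (CE ι), T = {y | ‖ℓ y - ℓ z‖ ≤ 1 ∧ ‖Lp y - Lp z‖ ≤ s} := ⟨_, rfl⟩
  have hTmem : ∀ y, y ∈ T ↔ ‖ℓ y - ℓ z‖ ≤ 1 ∧ ‖Lp y - Lp z‖ ≤ s := fun y => by rw [hTdef]; rfl
  have hdist : ∀ y, dist y (z + (ℓ y - ℓ z) • w) = ‖Lp y - Lp z‖ := fun y => by
    rw [dist_eq_norm, hdec]
  have hTU : T ⊆ U := by
    intro y hy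
    rw [hTmem] at hy
    refine hs₁U (Metric.mem_cthickening_of_dist_le y (z + (ℓ y - ℓ z) • w) s₁ _
      ⟨ℓ y - ℓ z, by simpa using hy.1, rfl⟩ ?_)
    rw [hdist]
    exact hy.2.trans (by rw [hsdef]; exact min_le_left _ _)
  have hTlat : ∀ y ∈ T, ‖ℓ y - ℓ z‖ = 1 → G y < 0 := by
    intro y hy h1
    rw [hTmem] at hy
    refine (hs₂V (Metric.mem_cthickening_of_dist_le y (z + (ℓ y - ℓ z) • w) s₂ _
      ⟨ℓ y - ℓ z, by simpa using h1, rfl⟩ ?_)).2
    rw [hdist]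
    exact hy.2.trans (by rw [hsdef]; exact min_le_right _ _)
  have hTc : IsCompact T := by
    refine (isCompact_closedBall z (‖w‖ + s)).of_isClosed_subset ?_ ?_
    · rw [hTdef]
      exact (isClosed_le hpic.norm continuous_const).inter (isClosed_le hppc.norm continuous_const)
    · intro y hy
      rw [hTmem] at hy
      rw [Metric.mem_closedBall, dist_eq_norm]
      have e : y - z = (ℓ y - ℓ z) • w + (Lp y - Lp z) := by rw [← hdec]; abel
      rw [e]
      refine (norm_add_le _ _).trans (add_le_add ?_ hy.2)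
      rw [norm_smul]
      nlinarith [hy.1, norm_nonneg w]
  have hzT : z ∈ T := by rw [hTmem]; simp [hs.le]
  obtain ⟨B, hB⟩ := (hGusc.mono hTU).bddAbove_of_isCompact hTc
  have hB' : ∀ y ∈ T, G y ≤ B := fun y hy => hB ⟨y, hy, rfl⟩
  obtain ⟨N, hNdef⟩ : ∃ N : ℝ, N = (|B| + 1) / s ^ 2 := ⟨_, rfl⟩
  have hN : 0 < N := by rw [hNdef]; positivity
  have hNs : N * s ^ 2 = |B| + 1 := by rw [hNdef]; field_simp
  obtain ⟨F, hFdef⟩ : ∃ F : CE ι → ℝ, F = fun y => G y + -(N * ‖Lp y - Lp z‖ ^ 2) := ⟨_, rfl⟩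
  have hFusc : UpperSemicontinuousOn F T := by
    rw [hFdef]
    exact (hGusc.mono hTU).add
      (continuous_const.mul (hppc.norm.pow 2)).neg.continuousOn.upperSemicontinuousOn
  obtain ⟨y₀, hy₀T, hmax⟩ := hFusc.exists_isMaxOn ⟨z, hzT⟩ hTc
  have hFz : F z = a / 4 := by
    rw [hFdef, hGdef, hHdef, hadef]
    simp
    ring
  have hFy₀ : 0 < F y₀ := by
    have := hmax hzT
    simp only [Set.mem_ofPred_eq] at this
    linarith
  have hFG : ∀ y, F y = G y - N * ‖Lp y - Lp z‖ ^ 2 := fun y => by rw [hFdef]; ring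
  have hy₀ := (hTmem y₀).1 hy₀T
  have h1 : ‖ℓ y₀ - ℓ z‖ < 1 := by
    refine lt_of_le_of_ne hy₀.1 fun he => ?_
    have := hTlat y₀ hy₀T he
    rw [hFG] at hFy₀
    nlinarith [sq_nonneg ‖Lp y₀ - Lp z‖]
  have h2 : ‖Lp y₀ - Lp z‖ < s := by
    refine lt_of_le_of_ne hy₀.2 fun he => ?_
    rw [hFG, he, hNs] at hFy₀
    linarith [hB' y₀ hy₀T, le_abs_self B]
  have hnhds : ∀ᶠ y in 𝓝 y₀, y ∈ T := by
    have ho : IsOpen {y : CE ι | ‖ℓ y - ℓ z‖ < 1 ∧ ‖Lp y - Lp z‖ < s} :=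
      (isOpen_lt hpic.norm continuous_const).inter (isOpen_lt hppc.norm continuous_const)
    filter_upwards [ho.mem_nhds ⟨h1, h2⟩] with y hy
    exact (hTmem y).2 ⟨hy.1.le, hy.2.le⟩
  obtain ⟨hq, hlevi⟩ := b5c3_test ℓ Lp z hℓw hLpw P (a / 2) N (a / 2 + a / 4 + F y₀)
  have hqF : ∀ y, ((P.eval (ℓ y - ℓ z)).re + (-(a / 2)) * ‖ℓ y - ℓ z‖ ^ 2 +
      N * ∑ j, ‖(Lp y) j - (Lp z) j‖ ^ 2) + (a / 2 + a / 4 + F y₀) = f y - F y + F y₀ := by
    intro y
    rw [hsum, hFdef, hGdef, hHdef]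
    ring
  have hpsd := h y₀ (hTU hy₀T) _ hq (by
    filter_upwards [hnhds] with y hy
    rw [hqF]
    have := hmax hy
    simp only [Set.mem_ofPred_eq] at this
    linarith) (by rw [hqF]; ring)
  have h0 := (levi_posSemidef_iff ((hq.of_le lv_two_le_infty).contDiffAt)).1 hpsd w
  rw [hlevi y₀] at h0
  linarith

end C3

/- section C4 (Levi bounds of `b5Moll`) was DROPPED: use `levi_wsMol_ge_of_chVisc` (`Base/Rich/Moll.lean`) and `levi_wsMol_ge` (`B5/PshC.lean`). -/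

end Claimed.Agent.R316
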