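import Claimed.Agent.R316.B5.Moll

/-!
# Row 316, package B5 (plurisubharmonic functions), file 4: usc regularisation, `(limsup v_j)^*`, Hartogs' lemma

Owner / sub-captain: helper4.  PAPER FREE.  This file REPLACES the `L¹_loc` compactness of psh functions (paper: Lemma `lem:psh-compactness-bridge`) in the proof of the common contraction
exponent (Prop. 7.7): for a uniformly bounded sequence `v_j` of psh functions, `(limsup_j v_j)^*` is psh, and if `limsup_j v_j ≤ c` pointwise then `v_j ≤ c + η` eventually, uniformly on compact sets.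
All families are UNIFORMLY BOUNDED (`a ≤ v_j ≤ b`): the consumers truncate (`max v (-A)`), so no `-∞`, no integrability problem, `limsup` in `ℝ` has no junk value.

* `b5Reg S u x = limsup u (𝓝[S] x)`: the upper semicontinuous regularisation of `u` relative to `S` (`S = U` open in a chart, `S = 𝓜.carrier` on the manifold).

## Leaves

### B5-D1 (section `D1`, ~300 lines) API of `b5Reg`
`Filter.limsup` in the conditionally complete lattice `ℝ`: every lemma needs `IsBoundedUnder (· ≤ ·)` (from `u ≤ b` on `S`, `self_mem_nhdsWithin`) and `IsCoboundedUnder (· ≤ ·)` (from `a ≤ u` and `(𝓝[S] x).NeBot`, `x ∈ S`: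
`mem_closure_iff_nhdsWithin_neBot`, `IsBoundedUnder.isCoboundedUnder_flip`/`isCoboundedUnder_le_of_le`).  Tools: `Filter.limsup_le_of_le`, `Filter.le_limsup_of_frequently_le`, `Filter.eventually_lt_of_limsup_lt`, `Filter.frequently_lt_of_lt_limsup`, `Filter.limsup_comp`/`Filter.map`.
usc: if `b5Reg S u x < c` pick `c'` between; `u < c'` on `O ∩ S`, `O` open `∋ x`; for `y ∈ O ∩ S`, `b5Reg S u y ≤ c' < c`.
Sequence: `(𝓝[S] x)` is countably generated; for each `k` the set `{y | b5Reg - 1/k < u y}` is frequent and `{u y < b5Reg + 1/k}` eventual (`Filter.exists_seq_forall_of_frequently` or by hand with a countable basis).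

### B5-D2 (section `D2`, ~450 lines) `(limsup v_j)^*` is psh
Plan (no Fatou lemma, only dominated convergence for bounded functions on `[0, 2π]`).  `u y = limsup_j vs j y ∈ [a,b]` on `U`.
Step 1 (`b5_limsup_le_cav`): disc `(z,w)` in `U`.  `s_k θ = ⨆ j, vs (j + k) (z + e^{iθ} w)` (measurable: countable sup of usc functions; values in `[a,b]` for `k ≥ k₀`), antitone in `k`, `→ u (z + e^{iθ} w)` (`limsup = ⨅ ⨆`: `Filter.limsup_eq_iInf_iSup_of_nat'`‑type lemma needs care in `ℝ`; or `tendsto_of_monotone`+ characterisation).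
For `j ≥ k ≥ k₀`: `vs j z ≤ b5Cav (vs j) z w ≤ avg s_k`; so `u z ≤ avg s_k → avg u` by `intervalIntegral.tendsto_integral_filter_of_dominated_convergence`.
Step 2: `u* = b5Reg U u` is usc on `U`, `a ≤ u* ≤ b`, `u ≤ u*`.  Disc `(z,w)` in `U`.  Take `z_k → z`, `z_k ∈ U`, `u z_k → u* z` (D1).  The compact disc has a `δ`-neighbourhood in `U`, so `(z_k, w)` is a disc in `U` for large `k`.
`u z_k ≤ avg_θ u (z_k + e^{iθ} w) ≤ avg_θ u* (z_k + e^{iθ} w) =: avg g_k`; by usc `limsup_k g_k θ ≤ g θ := u* (z + e^{iθ} w)`; with `t_m = ⨆ k, g_{k+m}` (bounded, measurable, antitone, limit `≤ g`) dominated convergence gives `u* z ≤ avg g`.  Conclude with `pshOnE_of_le_cav`.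

### B5-D3 (section `D3`, ~450 lines) Hartogs' lemma
Fix `y₀ ∈ K`, `r > 0` with `closedBall y₀ (2 r) ⊆ U`.  (i) `limsup_j ∫_{closedBall y₀ r} vs j ≤ c · vol` (tails `⨆ j, vs (j+k)` + dominated convergence on the ball; measurability: `b5_measurable_indicator`): so for `j ≥ j₀`: `∫_{closedBall y₀ r} vs j ≤ (c + η/2) vol (closedBall y₀ r)`.
(ii) for `0 < δ ≤ r`, `y ∈ ball y₀ δ`: `vs j y - b ≤ ⨍_{closedBall y (r+δ)} (vs j - b) ≤ vol(closedBall y (r+δ))⁻¹ ∫_{closedBall y₀ r} (vs j - b)` (`PshOn.le_average_closedBall`; integrand `≤ 0`; `closedBall y₀ r ⊆ closedBall y (r+δ) ⊆ U`), i.e. `vs j y ≤ b + λ (c + η/2 - b)`, `λ = (r/(r+δ))^{2n}`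
(`Measure.addHaar_closedBall`, `finrank`).  (iii) `λ → 1` as `δ → 0`: choose `δ` with `(1 - λ)(b - c) ≤ η/2`.  (iv) finite subcover of `K`.
-/

set_option autoImplicit false
open scoped ContDiff ComplexOrder Topology
open MeasureTheory Filter

namespace Claimed.Agent.R316

/-- upper semicontinuous regularisation of `u` relative to `S`. -/
noncomputable def b5Reg {X : Type} [TopologicalSpace X] (S : Set X) (u : X → ℝ) (x : X) : ℝ :=
  Filter.limsup u (𝓝[S] x)

/-! ### D1 -/
section D1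

variable {X : Type} [TopologicalSpace X] {S : Set X} {u : X → ℝ} {a b c : ℝ} {x : X}


variable {X : Type} [TopologicalSpace X] {S : Set X} {u : X → ℝ} {a b c : ℝ} {x : X}

theorem b5_isBoundedUnder (hb : ∀ y ∈ S, u y ≤ b) : (𝓝[S] x).IsBoundedUnder (· ≤ ·) u :=
  isBoundedUnder_of_eventually_le (a := b) (by
    filter_upwards [self_mem_nhdsWithin] with y hy using hb y hy)

theorem b5_isCoboundedUnder (ha : ∀ y ∈ S, a ≤ u y) (hx : x ∈ S) :
    (𝓝[S] x).IsCoboundedUnder (· ≤ ·) u := by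
  have : (𝓝[S] x).NeBot := mem_closure_iff_nhdsWithin_neBot.1 (subset_closure hx)
  exact (isBoundedUnder_of_eventually_ge (a := a) (by
    filter_upwards [self_mem_nhdsWithin] with y hy using ha y hy)).isCoboundedUnder_le

theorem le_b5Reg (hb : ∀ y ∈ S, u y ≤ b) (hx : x ∈ S) : u x ≤ b5Reg S u x :=
  le_limsup_of_le (b5_isBoundedUnder hb) fun _ hc => hc.self_of_nhdsWithin hx

theorem b5Reg_le_of_eventually (ha : ∀ y ∈ S, a ≤ u y) (hx : x ∈ S) (h : ∀ᶠ y in 𝓝[S] x, u y ≤ c) :
    b5Reg S u x ≤ c :=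
  limsup_le_of_le (b5_isCoboundedUnder ha hx) h

theorem b5Reg_le (ha : ∀ y ∈ S, a ≤ u y) (hb : ∀ y ∈ S, u y ≤ b) (hx : x ∈ S) : b5Reg S u x ≤ b :=
  b5Reg_le_of_eventually ha hx (by filter_upwards [self_mem_nhdsWithin] with y hy using hb y hy)

theorem le_b5Reg_of_le (ha : ∀ y ∈ S, a ≤ u y) (hb : ∀ y ∈ S, u y ≤ b) (hx : x ∈ S) : a ≤ b5Reg S u x :=
  (ha x hx).trans (le_b5Reg hb hx)

theorem eventually_lt_of_b5Reg_lt (hb : ∀ y ∈ S, u y ≤ b) (h : b5Reg S u x < c) :
    ∀ᶠ y in 𝓝[S] x, u y < c :=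
  eventually_lt_of_limsup_lt h (b5_isBoundedUnder hb)

theorem upperSemicontinuousOn_b5Reg (ha : ∀ y ∈ S, a ≤ u y) (hb : ∀ y ∈ S, u y ≤ b) :
    UpperSemicontinuousOn (b5Reg S u) S := by
  intro x _ c hc
  obtain ⟨c', h1, h2⟩ := exists_between (show b5Reg S u x < c from hc)
  have h3 := eventually_eventually_nhdsWithin.2 (eventually_lt_of_b5Reg_lt hb h1)
  filter_upwards [h3, self_mem_nhdsWithin] with y hy hyS
  exact lt_of_le_of_lt (b5Reg_le_of_eventually ha hyS (hy.mono fun _ h => h.le)) h2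

/-- minimality. -/
theorem b5Reg_le_of_usc (ha : ∀ y ∈ S, a ≤ u y) {g : X → ℝ} (hg : UpperSemicontinuousOn g S)
    (hle : ∀ y ∈ S, u y ≤ g y) (hx : x ∈ S) : b5Reg S u x ≤ g x := by
  refine le_of_forall_gt_imp_ge_of_dense fun c hc => ?_
  refine b5Reg_le_of_eventually ha hx ?_
  filter_upwards [hg x hx c hc, self_mem_nhdsWithin] with y hy hyS
  exact (hle y hyS).trans hy.le

theorem b5Reg_congr {u' : X → ℝ} (h : ∀ y ∈ S, u y = u' y) : b5Reg S u x = b5Reg S u' x :=
  limsup_congr (by filter_upwards [self_mem_nhdsWithin] with y hy using h y hy)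

/-- localisation. -/
theorem b5Reg_inter_of_mem_nhds {O : Set X} (hO : O ∈ 𝓝 x) : b5Reg (S ∩ O) u x = b5Reg S u x := by
  rw [b5Reg, b5Reg, nhdsWithin_inter_of_mem' (mem_nhdsWithin_of_mem_nhds hO)]

/-- transport by a map with `map Φ (𝓝[T] z) = 𝓝[S] (Φ z)`. -/
theorem b5Reg_comp {Z : Type} [TopologicalSpace Z] {T : Set Z} {Φ : Z → X} {z : Z}
    (h : Filter.map Φ (𝓝[T] z) = 𝓝[S] (Φ z)) : b5Reg S u (Φ z) = b5Reg T (u ∘ Φ) z := by
  rw [b5Reg, b5Reg, ← h, limsup_comp]

theorem exists_seq_tendsto_b5Reg [FirstCountableTopology X] (ha : ∀ y ∈ S, a ≤ u y)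
    (hb : ∀ y ∈ S, u y ≤ b) (hx : x ∈ S) :
    ∃ y : ℕ → X, (∀ k, y k ∈ S) ∧ Tendsto y atTop (𝓝 x) ∧
      Tendsto (fun k => u (y k)) atTop (𝓝 (b5Reg S u x)) := by
  set L := b5Reg S u x with hL
  have hne : (𝓝[S] x ⊓ comap u (𝓝 L)).NeBot := by
    rw [inf_neBot_iff]
    intro A hA B hB
    obtain ⟨B', hB', hBB'⟩ := mem_comap.1 hB
    obtain ⟨η, hη, hηB⟩ := Metric.mem_nhds_iff.1 hB'
    have h1 : ∃ᶠ y in 𝓝[S] x, L - η < u y :=
      frequently_lt_of_lt_limsup (b5_isCoboundedUnder ha hx) (by rw [← b5Reg, ← hL]; linarith)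
    have h2 : ∀ᶠ y in 𝓝[S] x, u y < L + η := eventually_lt_of_b5Reg_lt hb (by linarith)
    obtain ⟨y, hy1, hy2, hyA⟩ := (h1.and_eventually (h2.and hA)).exists
    refine ⟨y, hyA, hBB' (hηB ?_)⟩
    rw [Metric.mem_ball, Real.dist_eq, abs_lt]
    constructor <;> linarith
  obtain ⟨y, hy⟩ := exists_seq_tendsto (𝓝[S] x ⊓ comap u (𝓝 L))
  have h1 : Tendsto y atTop (𝓝[S] x) := hy.mono_right inf_le_left
  have h2 : Tendsto (fun k => u (y k)) atTop (𝓝 L) := tendsto_comap_iff.1 (hy.mono_right inf_le_right)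
  obtain ⟨N, hN⟩ := eventually_atTop.1 (h1.eventually self_mem_nhdsWithin)
  refine ⟨fun k => y (k + N), fun k => hN _ (Nat.le_add_left _ _), ?_, ?_⟩
  · exact (h1.mono_right nhdsWithin_le_nhds).comp (tendsto_add_atTop_nat N)
  · exact h2.comp (tendsto_add_atTop_nat N)

end D1

/-! ### D2 -/
section D2

variable {E : Type} [NormedAddCommGroup E] [NormedSpace ℂ E] {U : Set E} {vs : ℕ → E → ℝ} {a b : ℝ} {z w : E}

/-- reverse Fatou lemma for uniformly bounded sequences on a finite measure space. -/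
theorem b5_limsup_le_integral {α : Type} [MeasurableSpace α] {μ : Measure α} [IsFiniteMeasure μ]
    {G : ℕ → α → ℝ} {a b m : ℝ} {c : ℕ → ℝ} (hm0 : 0 ≤ m)
    (hm : ∀ᶠ j in atTop, Measurable (G j))
    (hb : ∀ᶠ j in atTop, ∀ x, a ≤ G j x ∧ G j x ≤ b)
    (hc : ∀ᶠ j in atTop, c j ≤ m * ∫ x, G j x ∂μ) (hca : ∃ a', ∀ᶠ j in atTop, a' ≤ c j) :
    Integrable (fun x => limsup (fun j => G j x) atTop) μ ∧
      limsup c atTop ≤ m * ∫ x, limsup (fun j => G j x) atTop ∂μ := by
  obtain ⟨N, hN⟩ := eventually_atTop.1 (hm.and (hb.and hc))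
  set M : ℝ := max |a| |b| with hM
  have hGb : ∀ j, N ≤ j → ∀ x, ‖G j x‖ ≤ M := fun j hj x => by
    rw [Real.norm_eq_abs]
    exact abs_le_max_abs_abs ((hN j hj).2.1 x).1 ((hN j hj).2.1 x).2
  have hGi : ∀ j, N ≤ j → Integrable (G j) μ := fun j hj =>
    Integrable.of_bound (hN j hj).1.aestronglyMeasurable M (Eventually.of_forall (hGb j hj))
  set s : ℕ → α → ℝ := fun k x => ⨆ j, G (j + (N + k)) x with hs
  have hidx : ∀ j k : ℕ, N ≤ j + (N + k) := fun j k => by omega
  have hbdd : ∀ k x, BddAbove (Set.range fun j => G (j + (N + k)) x) := by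
    intro k x
    refine ⟨b, ?_⟩
    rintro _ ⟨j, rfl⟩
    exact ((hN _ (hidx j k)).2.1 x).2
  have hsle : ∀ k x, s k x ≤ b := fun k x => ciSup_le fun j => ((hN _ (hidx j k)).2.1 x).2
  have hsge : ∀ k x, a ≤ s k x := fun k x =>
    ((hN _ (hidx 0 k)).2.1 x).1.trans (le_ciSup (hbdd k x) 0)
  have hGs : ∀ k j, N + k ≤ j → ∀ x, G j x ≤ s k x := by
    intro k j hj x
    have := le_ciSup (hbdd k x) (j - (N + k))
    simpa [Nat.sub_add_cancel hj] using this
  have hsm : ∀ k, Measurable (s k) := fun k => Measurable.iSup fun j => (hN _ (hidx j k)).1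
  have hsb : ∀ k x, ‖s k x‖ ≤ M := fun k x => by
    rw [Real.norm_eq_abs]
    exact abs_le_max_abs_abs (hsge k x) (hsle k x)
  have hsi : ∀ k, Integrable (s k) μ := fun k =>
    Integrable.of_bound (hsm k).aestronglyMeasurable M (Eventually.of_forall (hsb k))
  have hbd : ∀ x, IsBoundedUnder (· ≤ ·) atTop fun j => G j x := fun x =>
    isBoundedUnder_of_eventually_le (a := b) (hb.mono fun j hj => (hj x).2)
  have hcobd : ∀ x, IsCoboundedUnder (· ≤ ·) atTop fun j => G j x := fun x =>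
    (isBoundedUnder_of_eventually_ge (a := a) (hb.mono fun j hj => (hj x).1)).isCoboundedUnder_le
  have hlim : ∀ x, Tendsto (fun k => s k x) atTop (𝓝 (limsup (fun j => G j x) atTop)) := by
    intro x
    refine tendsto_order.2 ⟨fun c hc => Eventually.of_forall fun k => ?_, fun c hc => ?_⟩
    · obtain ⟨j, hj, hcj⟩ := (frequently_lt_of_lt_limsup (hcobd x) hc).forall_exists_of_atTop (N + k)
      exact lt_of_lt_of_le hcj (hGs k j hj x)
    · obtain ⟨c', h1, h2⟩ := exists_between hc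
      obtain ⟨N', hN'⟩ := eventually_atTop.1 (eventually_lt_of_limsup_lt h1 (hbd x))
      filter_upwards [eventually_ge_atTop N'] with k hk
      exact lt_of_le_of_lt (ciSup_le fun j => (hN' _ (by omega)).le) h2
  have hLm : Measurable fun x => limsup (fun j => G j x) atTop :=
    measurable_of_tendsto_metrizable hsm (tendsto_pi_nhds.2 hlim)
  have hLb : ∀ x, ‖limsup (fun j => G j x) atTop‖ ≤ M := fun x =>
    le_of_tendsto' (hlim x).norm fun k => hsb k x
  refine ⟨Integrable.of_bound hLm.aestronglyMeasurable M (Eventually.of_forall hLb), ?_⟩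
  have hT : Tendsto (fun k => ∫ x, s k x ∂μ) atTop (𝓝 (∫ x, limsup (fun j => G j x) atTop ∂μ)) :=
    tendsto_integral_of_dominated_convergence (fun _ => M) (fun k => (hsm k).aestronglyMeasurable)
      (integrable_const M) (fun k => Eventually.of_forall (hsb k)) (Eventually.of_forall hlim)
  refine ge_of_tendsto' (hT.const_mul m) fun k => ?_
  obtain ⟨a', ha'⟩ := hca
  refine limsup_le_of_le (isBoundedUnder_of_eventually_ge ha').isCoboundedUnder_le ?_
  filter_upwards [eventually_ge_atTop (N + k)] with j hj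
  refine (hN j (by omega)).2.2.trans (mul_le_mul_of_nonneg_left ?_ hm0)
  exact integral_mono (hGi j (by omega)) (hsi k) (hGs k j hj)

variable {E : Type} [NormedAddCommGroup E] [NormedSpace ℂ E] {U : Set E} {vs : ℕ → E → ℝ} {a b : ℝ} {z w : E}

/-- the pointwise `limsup` satisfies the sub-mean value inequality (it need not be usc). -/
theorem b5_limsup_le_cav (h : ∀ᶠ j in atTop, PshOnE U (vs j))
    (hb : ∀ᶠ j in atTop, ∀ y ∈ U, a ≤ vs j y ∧ vs j y ≤ b) (hd : b5Disc U z w) :
    IntervalIntegrable (fun θ : ℝ => limsup (fun j => vs j (z + lsE θ • w)) atTop) volume 0 (2 * Real.pi) ∧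
    limsup (fun j => vs j z) atTop ≤ b5Cav (fun y => limsup (fun j => vs j y) atTop) z w := by
  have hpi : (0 : ℝ) < 2 * Real.pi := by positivity
  have key := b5_limsup_le_integral (μ := volume.restrict (Set.Ioc 0 (2 * Real.pi)))
    (G := fun j θ => vs j (z + lsE θ • w)) (a := a) (b := b) (m := (2 * Real.pi)⁻¹)
    (c := fun j => vs j z) (by positivity)
    (h.mono fun j hj => (b5_usc_circle hj.1 hd).measurable)
    (hb.mono fun j hj θ => hj _ (hd.circle_mem θ))
    (h.mono fun j hj => by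
      have := hj.le_cav hd
      rwa [b5Cav, intervalIntegral.integral_of_le hpi.le] at this)
    ⟨a, hb.mono fun j hj => (hj z hd.center_mem).1⟩
  refine ⟨(intervalIntegrable_iff_integrableOn_Ioc_of_le hpi.le).2 key.1, ?_⟩
  rw [b5Cav, intervalIntegral.integral_of_le hpi.le]
  exact key.2

/-- **`(limsup v_j)^*` is plurisubharmonic.** -/
theorem pshOnE_b5Reg_limsup (hU : IsOpen U) (h : ∀ᶠ j in atTop, PshOnE U (vs j))
    (hb : ∀ᶠ j in atTop, ∀ y ∈ U, a ≤ vs j y ∧ vs j y ≤ b) :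
    PshOnE U (b5Reg U fun y => limsup (fun j => vs j y) atTop) := by
  have hpi : (0 : ℝ) < 2 * Real.pi := by positivity
  set u : E → ℝ := fun y => limsup (fun j => vs j y) atTop with hu
  have hua : ∀ y ∈ U, a ≤ u y := fun y hy =>
    le_limsup_of_frequently_le (hb.mono fun j hj => (hj y hy).1).frequently
      (isBoundedUnder_of_eventually_le (hb.mono fun j hj => (hj y hy).2))
  have hub : ∀ y ∈ U, u y ≤ b := fun y hy =>
    limsup_le_of_le (isBoundedUnder_of_eventually_ge
      (hb.mono fun j hj => (hj y hy).1)).isCoboundedUnder_le (hb.mono fun j hj => (hj y hy).2)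
  have husc := upperSemicontinuousOn_b5Reg hua hub
  have hbd : ∀ z' w' : E, b5Disc U z' w' → ∀ θ : ℝ, a ≤ b5Reg U u (z' + lsE θ • w') ∧
      b5Reg U u (z' + lsE θ • w') ≤ b := fun z' w' hd θ =>
    ⟨le_b5Reg_of_le hua hub (hd.circle_mem θ), b5Reg_le hua hub (hd.circle_mem θ)⟩
  have hint : ∀ z' w' : E, b5Disc U z' w' →
      IntegrableOn (fun θ : ℝ => b5Reg U u (z' + lsE θ • w')) (Set.Ioc 0 (2 * Real.pi)) :=
    fun z' w' hd => Integrable.of_bound (b5_usc_circle husc hd).measurable.aestronglyMeasurable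
      (max |a| |b|) (Eventually.of_forall fun θ => by
        rw [Real.norm_eq_abs]
        exact abs_le_max_abs_abs (hbd z' w' hd θ).1 (hbd z' w' hd θ).2)
  refine pshOnE_of_le_cav husc fun z w hd => ?_
  refine ⟨(intervalIntegrable_iff_integrableOn_Ioc_of_le hpi.le).2 (hint z w hd), ?_⟩
  obtain ⟨y, hyU, hyz, hyu⟩ := exists_seq_tendsto_b5Reg hua hub hd.center_mem
  have hdk : ∀ᶠ k in atTop, b5Disc U (y k) w := by
    have hsub : (fun ζ : ℂ => z + ζ • w) '' Metric.closedBall 0 1 ⊆ U := by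
      rintro _ ⟨ζ, hζ, rfl⟩
      exact hd ζ (by simpa using hζ)
    obtain ⟨δ, hδ, hδU⟩ := (b5_isCompact_disc z w).exists_thickening_subset_open hU hsub
    filter_upwards [hyz.eventually (Metric.ball_mem_nhds z hδ)] with k hk ζ hζ
    refine hδU (Metric.mem_thickening_iff.2 ⟨z + ζ • w, ⟨ζ, by simpa using hζ, rfl⟩, ?_⟩)
    simpa [dist_add_right] using hk
  have key := b5_limsup_le_integral (μ := volume.restrict (Set.Ioc 0 (2 * Real.pi)))
    (G := fun k θ => b5Reg U u (y k + lsE θ • w)) (a := a) (b := b) (m := (2 * Real.pi)⁻¹)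
    (c := fun k => u (y k)) (by positivity)
    (hdk.mono fun k hk => (b5_usc_circle husc hk).measurable)
    (hdk.mono fun k hk θ => hbd _ _ hk θ)
    (hdk.mono fun k hk => by
      obtain ⟨i1, h1⟩ := b5_limsup_le_cav h hb hk
      refine h1.trans ?_
      rw [b5Cav, intervalIntegral.integral_of_le hpi.le]
      refine mul_le_mul_of_nonneg_left ?_ (by positivity)
      exact integral_mono ((intervalIntegrable_iff_integrableOn_Ioc_of_le hpi.le).1 i1)
        (hint _ _ hk) fun θ => le_b5Reg hub (hk.circle_mem θ))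
    ⟨a, Eventually.of_forall fun k => hua _ (hyU k)⟩
  rw [hyu.limsup_eq] at key
  refine key.2.trans ?_
  rw [b5Cav, intervalIntegral.integral_of_le hpi.le]
  refine mul_le_mul_of_nonneg_left (integral_mono key.1 (hint z w hd) fun θ => ?_) (by positivity)
  refine le_of_forall_gt_imp_ge_of_dense fun c hc => ?_
  refine limsup_le_of_le (isBoundedUnder_of_eventually_ge (a := a)
    (hdk.mono fun k hk => (hbd _ _ hk θ).1)).isCoboundedUnder_le ?_
  have ht : Tendsto (fun k => y k + lsE θ • w) atTop (𝓝[U] (z + lsE θ • w)) :=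
    tendsto_nhdsWithin_iff.2 ⟨hyz.add_const _, hdk.mono fun k hk => hk.circle_mem θ⟩
  exact (ht.eventually (husc _ (hd.circle_mem θ) c hc)).mono fun k hk => hk.le

end D2

/-! ### D3 -/
section D3

variable {ι : Type} [Fintype ι] {U : Set (CE ι)} {vs : ℕ → CE ι → ℝ} {a b c : ℝ}

theorem b5_eventually_setIntegral_lt {α : Type} [MeasurableSpace α] {μ : Measure α} {S : Set α}
    (hS : MeasurableSet S) (hμS : μ S ≠ ⊤) {G : ℕ → α → ℝ} {a b c η : ℝ}
    (hm : ∀ᶠ j in atTop, Measurable (G j))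
    (hb : ∀ᶠ j in atTop, ∀ x, a ≤ G j x ∧ G j x ≤ b)
    (hc : ∀ x ∈ S, limsup (fun j => G j x) atTop ≤ c) (hη : 0 < η) :
    ∀ᶠ j in atTop, ∫ x in S, G j x ∂μ < c * μ.real S + η := by
  have hfin : IsFiniteMeasure (μ.restrict S) := ⟨by simpa using hμS.lt_top⟩
  have hbound : ∀ᶠ j in atTop, |∫ x in S, G j x ∂μ| ≤ max |a| |b| * (μ.restrict S).real Set.univ := by
    filter_upwards [hb] with j hj
    rw [← Real.norm_eq_abs]
    refine norm_integral_le_of_norm_le_const (Eventually.of_forall fun x => ?_)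
    rw [Real.norm_eq_abs]
    exact abs_le_max_abs_abs (hj x).1 (hj x).2
  have key := b5_limsup_le_integral (μ := μ.restrict S) (G := G) (a := a) (b := b) (m := 1)
    (c := fun j => ∫ x in S, G j x ∂μ) zero_le_one hm hb
    (Eventually.of_forall fun j => by rw [one_mul])
    ⟨-(max |a| |b| * (μ.restrict S).real Set.univ), hbound.mono fun j hj => (abs_le.1 hj).1⟩
  have h1 : ∫ x in S, limsup (fun j => G j x) atTop ∂μ ≤ c * μ.real S := by
    calc ∫ x in S, limsup (fun j => G j x) atTop ∂μ ≤ ∫ _x in S, c ∂μ :=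
          setIntegral_mono_on key.1 (integrableOn_const hμS) hS hc
      _ = c * μ.real S := by rw [setIntegral_const, smul_eq_mul, mul_comm]
  refine eventually_lt_of_limsup_lt (lt_of_le_of_lt key.2 (by linarith))
    (isBoundedUnder_of_eventually_le (hbound.mono fun j hj => (abs_le.1 hj).2))

variable {ι : Type} [Fintype ι] {U : Set (CE ι)} {vs : ℕ → CE ι → ℝ} {a b c : ℝ}

theorem b5_hartogs_local (hU : IsOpen U) (h : ∀ᶠ j in atTop, PshOn U (vs j))
    (hb : ∀ᶠ j in atTop, ∀ y ∈ U, a ≤ vs j y ∧ vs j y ≤ b)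
    (hc : ∀ y ∈ U, limsup (fun j => vs j y) atTop ≤ c) {y₀ : CE ι} (hy₀ : y₀ ∈ U)
    {η : ℝ} (hη : 0 < η) :
    ∃ δ : ℝ, 0 < δ ∧ ∀ᶠ j in atTop, ∀ y ∈ Metric.ball y₀ δ, vs j y ≤ c + η := by
  obtain ⟨R, hR, hRU⟩ := Metric.nhds_basis_closedBall.mem_iff.1 (hU.mem_nhds hy₀)
  obtain ⟨r, hrR⟩ : ∃ r : ℝ, r = R / 3 := ⟨_, rfl⟩
  have hr : 0 < r := by rw [hrR]; positivity
  set n := Module.finrank ℝ (CE ι) with hn
  set om := (volume : Measure (CE ι)).real (Metric.closedBall 0 1) with hom'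
  have hom : 0 < om :=
    ENNReal.toReal_pos (Metric.measure_closedBall_pos _ _ one_pos).ne'
      (isCompact_closedBall _ _).measure_lt_top.ne
  have hvol : ∀ (x : CE ι) (s : ℝ), 0 ≤ s →
      (volume : Measure (CE ι)).real (Metric.closedBall x s) = s ^ n * om :=
    fun x s hs => Measure.addHaar_real_closedBall' volume x hs
  have hcont : ContinuousAt (fun δ : ℝ => b + (r / (r + δ)) ^ n * (c + η / 2 - b)) 0 := by
    have h0 : r + (0 : ℝ) ≠ 0 := by simpa using hr.ne'
    have h1 : ContinuousAt (fun δ : ℝ => r / (r + δ)) 0 :=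
      continuousAt_const.div (continuousAt_const.add continuousAt_id) h0
    exact continuousAt_const.add ((h1.pow n).mul continuousAt_const)
  have hev : ∀ᶠ δ in 𝓝 (0 : ℝ), b + (r / (r + δ)) ^ n * (c + η / 2 - b) < c + η := by
    refine hcont.eventually (gt_mem_nhds ?_)
    simp only [add_zero, div_self hr.ne', one_pow, one_mul]
    linarith
  obtain ⟨δ, hδ1, hδ0, hδr⟩ : ∃ δ : ℝ, b + (r / (r + δ)) ^ n * (c + η / 2 - b) < c + η ∧
      0 < δ ∧ δ ≤ r := by
    have h2 : ∀ᶠ δ in 𝓝[>] (0 : ℝ), δ ≤ r := by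
      filter_upwards [Ioc_mem_nhdsGT hr] with δ hδ using hδ.2
    obtain ⟨δ, h1, h2, h3⟩ :=
      ((hev.filter_mono nhdsWithin_le_nhds).and (h2.and self_mem_nhdsWithin)).exists
    exact ⟨δ, h1, h3, h2⟩
  refine ⟨δ, hδ0, ?_⟩
  have hB₀U : Metric.closedBall y₀ r ⊆ U :=
    (Metric.closedBall_subset_closedBall (by rw [hrR]; linarith)).trans hRU
  have hP : 0 < r ^ n * om := by positivity
  have hi : ∀ᶠ j in atTop, ∫ x in Metric.closedBall y₀ r, U.indicator (vs j) x <
      c * (volume : Measure (CE ι)).real (Metric.closedBall y₀ r) + η / 2 * (r ^ n * om) := by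
    refine b5_eventually_setIntegral_lt (a := min a 0) (b := max b 0) measurableSet_closedBall
      (isCompact_closedBall _ _).measure_lt_top.ne
      (h.mono fun j hj => b5_measurable_indicator hU hj.1) (hb.mono fun j hj x => ?_)
      (fun x hx => ?_) (by positivity)
    · by_cases hx : x ∈ U
      · rw [Set.indicator_of_mem hx]
        exact ⟨(min_le_left _ _).trans (hj x hx).1, (hj x hx).2.trans (le_max_left _ _)⟩
      · rw [Set.indicator_of_notMem hx]
        exact ⟨min_le_right _ _, le_max_right _ _⟩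
    · simp only [Set.indicator_of_mem (hB₀U hx)]
      exact hc x (hB₀U hx)
  filter_upwards [h, hb, hi] with j hj hbj hij y hy
  have hyd : dist y y₀ < δ := hy
  have hByU : Metric.closedBall y (r + δ) ⊆ U := fun x hx => hRU (by
    have h1 : dist x y ≤ r + δ := hx
    have h2 := dist_triangle x y y₀
    rw [Metric.mem_closedBall]
    have : R = 3 * r := by rw [hrR]; ring
    linarith)
  have hB₀By : Metric.closedBall y₀ r ⊆ Metric.closedBall y (r + δ) := fun x hx => by
    have h1 : dist x y₀ ≤ r := hx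
    have h2 := dist_triangle x y₀ y
    rw [dist_comm y₀ y] at h2
    rw [Metric.mem_closedBall]
    linarith
  have hQ : 0 < (r + δ) ^ n * om := by positivity
  have h1 := hj.le_average_closedBall hU (by positivity : 0 < r + δ) hByU
  rw [setAverage_eq, hvol y (r + δ) (by positivity), smul_eq_mul, inv_mul_eq_div, le_div_iff₀ hQ] at h1
  have i1 : IntegrableOn (vs j) (Metric.closedBall y (r + δ)) := hj.integrableOn_closedBall hU hByU
  have i0 : IntegrableOn (vs j) (Metric.closedBall y₀ r) := i1.mono_set hB₀By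
  have c1 : IntegrableOn (fun _ : CE ι => b) (Metric.closedBall y (r + δ)) :=
    integrableOn_const (isCompact_closedBall _ _).measure_lt_top.ne
  have c0 : IntegrableOn (fun _ : CE ι => b) (Metric.closedBall y₀ r) :=
    integrableOn_const (isCompact_closedBall _ _).measure_lt_top.ne
  have h2 : ∫ x in Metric.closedBall y₀ r, (b - vs j x) ≤
      ∫ x in Metric.closedBall y (r + δ), (b - vs j x) := by
    refine setIntegral_mono_set (c1.sub i1) ?_ hB₀By.eventuallyLE
    filter_upwards [ae_restrict_mem measurableSet_closedBall] with x hx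
    have := (hbj x (hByU hx)).2
    simp only [Pi.zero_apply]
    linarith
  rw [integral_sub c0 i0, integral_sub c1 i1, setIntegral_const, setIntegral_const, hvol _ _ hr.le,
    hvol _ _ (by positivity), smul_eq_mul, smul_eq_mul] at h2
  have h3 : ∫ x in Metric.closedBall y₀ r, vs j x =
      ∫ x in Metric.closedBall y₀ r, U.indicator (vs j) x :=
    setIntegral_congr_fun measurableSet_closedBall
      fun x hx => (Set.indicator_of_mem (hB₀U hx) _).symm
  rw [← h3, hvol _ _ hr.le] at hij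
  have h4 : vs j y * ((r + δ) ^ n * om) ≤
      (b + (r / (r + δ)) ^ n * (c + η / 2 - b)) * ((r + δ) ^ n * om) := by
    have e : (r / (r + δ)) ^ n * ((r + δ) ^ n * om) = r ^ n * om := by
      rw [div_pow]
      field_simp
    have : (b + (r / (r + δ)) ^ n * (c + η / 2 - b)) * ((r + δ) ^ n * om) =
        b * ((r + δ) ^ n * om) + (c + η / 2 - b) * (r ^ n * om) := by
      rw [← e]; ring
    rw [this]
    nlinarith
  exact (le_of_mul_le_mul_right h4 hQ).trans hδ1.le

/-- **Hartogs' lemma.** -/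
theorem b5_hartogs (hU : IsOpen U) (h : ∀ᶠ j in atTop, PshOn U (vs j))
    (hb : ∀ᶠ j in atTop, ∀ y ∈ U, a ≤ vs j y ∧ vs j y ≤ b)
    (hc : ∀ y ∈ U, limsup (fun j => vs j y) atTop ≤ c) {K : Set (CE ι)} (hK : IsCompact K) (hKU : K ⊆ U)
    {η : ℝ} (hη : 0 < η) : ∀ᶠ j in atTop, ∀ y ∈ K, vs j y ≤ c + η := by
  refine hK.induction_on (p := fun A => ∀ᶠ j in atTop, ∀ y ∈ A, vs j y ≤ c + η)
    (Eventually.of_forall fun j y hy => absurd hy (Set.notMem_empty y))
    (fun A B hAB hB => hB.mono fun j hj y hy => hj y (hAB hy))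
    (fun A B hA hB => by
      filter_upwards [hA, hB] with j h1 h2 y hy
      exact hy.elim (h1 y) (h2 y)) fun x hx => ?_
  obtain ⟨δ, hδ, hev⟩ := b5_hartogs_local hU h hb hc (hKU hx) hη
  exact ⟨Metric.ball x δ, mem_nhdsWithin_of_mem_nhds (Metric.ball_mem_nhds x hδ), hev⟩

end D3

end Claimed.Agent.R316
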