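import Claimed.Agent.R316.B5.Comp
import Claimed.Agent.R316.Pack014_2
import Claimed.Agent.R316.Pack016_2
import Claimed.Agent.R269.Lib.SCV0
import Claimed.Agent.R316.Pack028

/-!
# Row 316, package B5, file 6: three circles, bounded subharmonic functions on a strip, Taylor polynomial maps with Cauchy bounds

Owner / sub-captain: helper4.  PAPER FREE.  These are the "pure `ℂⁿ`" tools of Prop. 7.7 ((7.18) `F_jets`, (7.19) `F_small`) and of the rate order (8.3).

## Leaves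

### B5-E1 (section `E1`, ~300 lines) Hadamard three circles on balls
`θ = log (R/r) / log (R/r₀) ∈ (0, 1]`.  If `B ≤ m`: `‖f z‖ ≤ B ≤ m^θ B^{1-θ}`.  Let `m ≤ B`; then `ρ ↦ m^{θ(ρ)} B^{1-θ(ρ)} = B (m/B)^{θ(ρ)}` is nondecreasing in `ρ`, and equals `m` at `ρ = r₀`; so it suffices to prove the bound at the radius `ρ = ‖z‖ ∈ [r₀, R)` (for `‖z‖ < r₀` use `hfm`).
Write `z = ρ • e`... more precisely put `g w = f (Complex.exp w • e)` with `e = (ρ⁻¹ : ℂ) • z`, `‖e‖ = 1`, on the vertical strip `log r₀ ≤ Re w ≤ log R'` (`ρ < R' < R`): `DiffContOnCl`, bounded by `B`, `≤ m` on `Re w = log r₀`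
(`‖f‖ ≤ m` on `closedBall 0 r₀` by continuity: `closure_ball`), `≤ B` on `Re w = log R'`.  Mathlib: `Complex.HadamardThreeLines.norm_le_interp_of_mem_verticalClosedStrip'` at `w = log ρ`.  Let `R' → R` (continuity of `rpow` in the exponent), or avoid the limit:
the bound with `R'` reads `‖f z‖ ≤ B (m/B)^{θ'}` with `θ' = log(R'/ρ)/log(R'/r₀) → θ(ρ)`; use `le_of_tendsto`.   (`F` need not be complete: compose with a norming functional `ℓ` of `f z` if Mathlib's statement wants it.)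

### B5-E2 (section `E2`, ~350 lines) Phragmén-Lindelöf on a strip for BOUNDED subharmonic functions
Barrier `β z = Re (Complex.cos (α (z - T/2)))`, `α = π / (2T)`: `β (x + i y) = cos (α (x - T/2)) cosh (α y) ≥ (√2/2) cosh (α y) > 0` on the closed strip.  `-ε β` is `PshOnE` on `ℂ` (`pshOnE_re_of_differentiableOn` for `-ε cos(…)`).
For `ε > 0` choose `Y` with `C - ε (√2/2) cosh (α Y) ≤ M`; on the compact rectangle `K = [0,T] × [-Y', Y']`, `Y' ≥ Y`, apply `b5_le_of_frontier` (`E = ℂ`) to `u - ε β`: `interior K ⊆` open strip (local psh by `PshOnE.add`, `PshOnE.mono` to small balls), `frontier K ⊆ {Re = 0} ∪ {Re = T} ∪ {|Im| = Y'}`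
(`K = Complex.reProdIm`‑rectangle: `frontier ⊆ K \ interior`, `interior (Icc ×ℂ Icc) = Ioo ×ℂ Ioo`: `Complex.interior_reProdIm`).  So `u z ≤ M + ε β z`; let `ε → 0`.

### B5-E3 (section `E3`, ~700 lines) Taylor polynomial maps
* `b5_norm_iteratedFDeriv_le`: induction on `k`, generalising the target space.  `g = fderiv ℂ f` is holomorphic on `ball c ρ` (`hol_differentiableOn_fderiv`, CW/HolSmooth), and `‖g y‖ ≤ (k+1) m / ρ` for `y ∈ ball c (ρ k/(k+1))` (`scv_norm_fderiv_le` on `ball y (ρ/(k+1)) ⊆ ball c ρ`);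
  induction hypothesis for `g` on `ball c (ρ k/(k+1))`: `‖D^k g c‖ ≤ k^k ((k+1) m/ρ) / (ρ k/(k+1))^k = (k+1)^{k+1} m / ρ^{k+1}` (`k = 0` separately); `norm_iteratedFDeriv_fderiv`.
* `b5_exists_taylor_pmap`.  `F` is analytic at `0`: `Claimed.Agent.R269.SCV.analyticAt_of_differentiableOn` (sorry free).  Let `p` be a power series of `F` at `0`: `HasFPowerSeriesAt.isBigO_sub_partialSum_pow` gives `F z - p.partialSum (d+1) z = O(‖z‖^{d+1})`,
  and `k! • p k (fun _ => z) = iteratedFDeriv ℂ k F 0 (fun _ => z)` (`HasFPowerSeriesOnBall.factorial_smul`).  With `M_k = iteratedFDeriv ℂ k F 0` expand `z = Σ_j z_j e_j` (`ContinuousMultilinearMap.map_sum`):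
  `M_k (z,…,z) = Σ_{j : Fin k → Fin n} (Π_l z_{j l}) • M_k (e_{j ·})`.  Define `J i = Σ_{k ≤ d} Σ_j C ((k!)⁻¹ * (M_k (e_j)) i) * Π_l X (j l)`.  `deg ≤ d`.  `ev J z = Σ_{k ≤ d} (k!)⁻¹ M_k (z,…,z)`.
  `cnorm J ≤ Σ_i Σ_k Σ_j |(M_k e_j)_i| ≤ Σ_{k ≤ d} n · n^k ‖M_k‖ ≤ Σ_{k≤d} n^{k+1} k^k m / ρ^k ≤ C m / ρ^d` for `ρ ≤ 1` (ℓ¹ norm API: `S9/Norm.lean`: `n1_add_le`, `n1_sum_le`, `n1_C_mul`, `n1_prod_le`, `n1_monomial`; `PMap.cnorm P = Σ_i n1 (P i)` by definition unfolding; you may import it).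
-/

set_option autoImplicit false
open scoped ContDiff ComplexOrder Topology
open MeasureTheory Filter

namespace Claimed.Agent.R316

/-! ### E1 -/
section E1

variable {E F : Type} [NormedAddCommGroup E] [NormedSpace ℂ E] [NormedAddCommGroup F] [NormedSpace ℂ F]

/-- three lines for `w ↦ f (exp w • e)` on `log r₀ ≤ Re w ≤ log R'`, `R' < R` -/
theorem b5_tc_core {f : E → F} {r₀ R' R m B : ℝ} (hr₀ : 0 < r₀) (hR'R : R' < R)
    (hf : DifferentiableOn ℂ f (Metric.ball 0 R))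
    (hfm : ∀ z ∈ Metric.ball (0 : E) r₀, ‖f z‖ ≤ m) (hfB : ∀ z ∈ Metric.ball (0 : E) R, ‖f z‖ ≤ B)
    {z : E} (hz₀ : r₀ ≤ ‖z‖) (hz : ‖z‖ < R') :
    ‖f z‖ ≤ m ^ (1 - (Real.log ‖z‖ - Real.log r₀) / (Real.log R' - Real.log r₀)) *
      B ^ ((Real.log ‖z‖ - Real.log r₀) / (Real.log R' - Real.log r₀)) := by
  have hρ0 : 0 < ‖z‖ := lt_of_lt_of_le hr₀ hz₀
  have hR'0 : 0 < R' := hρ0.trans hz
  set e : E := ((‖z‖ : ℂ)⁻¹) • z with he
  have hen : ‖e‖ = 1 := by
    rw [he, norm_smul, norm_inv, Complex.norm_real, norm_norm, inv_mul_cancel₀ hρ0.ne']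
  set g : ℂ → F := fun w => f (Complex.exp w • e) with hg
  have hnorm : ∀ w : ℂ, ‖Complex.exp w • e‖ = Real.exp w.re := by
    intro w
    rw [norm_smul, hen, mul_one, Complex.norm_exp]
  have hul : Real.log r₀ < Real.log R' := Real.log_lt_log hr₀ (lt_of_le_of_lt hz₀ hz)
  have hmem : ∀ w ∈ Complex.HadamardThreeLines.verticalClosedStrip (Real.log r₀) (Real.log R'),
      Complex.exp w • e ∈ Metric.ball (0 : E) R := by
    intro w hw
    rw [mem_ball_zero_iff, hnorm]
    have h1 : w.re ≤ Real.log R' := hw.2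
    calc Real.exp w.re ≤ Real.exp (Real.log R') := Real.exp_le_exp.2 h1
      _ = R' := Real.exp_log hR'0
      _ < R := hR'R
  have hgd : DifferentiableOn ℂ g
      (Complex.HadamardThreeLines.verticalClosedStrip (Real.log r₀) (Real.log R')) := by
    intro w hw
    have h1 : DifferentiableAt ℂ f (Complex.exp w • e) :=
      hf.differentiableAt (Metric.isOpen_ball.mem_nhds (hmem w hw))
    have h2 : DifferentiableAt ℂ (fun w : ℂ => Complex.exp w • e) w :=
      (Complex.differentiable_exp w).smul_const e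
    exact (h1.comp w h2).differentiableWithinAt
  have hcl : closure (Complex.HadamardThreeLines.verticalStrip (Real.log r₀) (Real.log R'))
      ⊆ Complex.HadamardThreeLines.verticalClosedStrip (Real.log r₀) (Real.log R') := by
    refine closure_minimal ?_ ?_
    · intro w hw
      exact ⟨hw.1.le, hw.2.le⟩
    · exact isClosed_Icc.preimage Complex.continuous_re
  have hd : DiffContOnCl ℂ g
      (Complex.HadamardThreeLines.verticalStrip (Real.log r₀) (Real.log R')) :=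
    (hgd.mono hcl).diffContOnCl
  have hBd : BddAbove ((norm ∘ g) ''
      Complex.HadamardThreeLines.verticalClosedStrip (Real.log r₀) (Real.log R')) := by
    refine ⟨B, ?_⟩
    rintro _ ⟨w, hw, rfl⟩
    exact hfB _ (hmem w hw)
  have ha : ∀ w ∈ Complex.re ⁻¹' {Real.log r₀}, ‖g w‖ ≤ m := by
    intro w hw
    have hw' : w.re = Real.log r₀ := hw
    have h1 : ‖Complex.exp w • e‖ = r₀ := by rw [hnorm, hw', Real.exp_log hr₀]
    have h2 : Complex.exp w • e ∈ closure (Metric.ball (0 : E) r₀) := by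
      rw [closure_ball _ hr₀.ne', mem_closedBall_zero_iff, h1]
    have hsub : closure (Metric.ball (0 : E) r₀) ⊆ Metric.ball 0 R := by
      rw [closure_ball _ hr₀.ne']
      intro x hx
      rw [mem_closedBall_zero_iff] at hx
      rw [mem_ball_zero_iff]
      linarith
    exact le_on_closure hfm ((hf.continuousOn.mono hsub).norm) continuousOn_const h2
  have hb : ∀ w ∈ Complex.re ⁻¹' {Real.log R'}, ‖g w‖ ≤ B := by
    intro w hw
    have hw' : w.re = Real.log R' := hw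
    refine hfB _ (hmem w ⟨?_, ?_⟩)
    · rw [hw']
      exact hul.le
    · rw [hw']
  have hw0 : ((Real.log ‖z‖ : ℝ) : ℂ)
      ∈ Complex.HadamardThreeLines.verticalClosedStrip (Real.log r₀) (Real.log R') := by
    refine ⟨?_, ?_⟩
    · rw [Complex.ofReal_re]
      exact Real.log_le_log hr₀ hz₀
    · rw [Complex.ofReal_re]
      exact (Real.log_lt_log hρ0 hz).le
  have key := Complex.HadamardThreeLines.norm_le_interp_of_mem_verticalClosedStrip' hul hw0 hd hBd
    ha hb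
  have hgz : g ((Real.log ‖z‖ : ℝ) : ℂ) = f z := by
    simp only [hg]
    rw [← Complex.ofReal_exp, Real.exp_log hρ0, he, smul_smul,
      mul_inv_cancel₀ (by exact_mod_cast hρ0.ne'), one_smul]
  rw [hgz, Complex.ofReal_re] at key
  exact key

/-- the limit `R' → R` -/
theorem b5_tc_limit {f : E → F} {r₀ R m B : ℝ} (hr₀ : 0 < r₀) (hm : 0 < m) (hB : 0 < B)
    (hf : DifferentiableOn ℂ f (Metric.ball 0 R))
    (hfm : ∀ z ∈ Metric.ball (0 : E) r₀, ‖f z‖ ≤ m) (hfB : ∀ z ∈ Metric.ball (0 : E) R, ‖f z‖ ≤ B)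
    {z : E} (hz₀ : r₀ ≤ ‖z‖) (hz : ‖z‖ < R) :
    ‖f z‖ ≤ m ^ (1 - (Real.log ‖z‖ - Real.log r₀) / (Real.log R - Real.log r₀)) *
      B ^ ((Real.log ‖z‖ - Real.log r₀) / (Real.log R - Real.log r₀)) := by
  have hR0 : 0 < R := lt_of_lt_of_le hr₀ (hz₀.trans hz.le)
  have hne : Real.log R - Real.log r₀ ≠ 0 :=
    (sub_pos.2 (Real.log_lt_log hr₀ (lt_of_le_of_lt hz₀ hz))).ne'
  have h1 : ContinuousAt
      (fun R' : ℝ => (Real.log ‖z‖ - Real.log r₀) / (Real.log R' - Real.log r₀)) R :=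
    continuousAt_const.div ((Real.continuousAt_log hR0.ne').sub continuousAt_const) hne
  have hcont : ContinuousAt (fun R' : ℝ =>
      m ^ (1 - (Real.log ‖z‖ - Real.log r₀) / (Real.log R' - Real.log r₀)) *
        B ^ ((Real.log ‖z‖ - Real.log r₀) / (Real.log R' - Real.log r₀))) R :=
    (continuousAt_const.rpow (continuousAt_const.sub h1) (Or.inl hm.ne')).mul
      (continuousAt_const.rpow h1 (Or.inl hB.ne'))
  have ht := hcont.tendsto.mono_left (nhdsWithin_le_nhds (s := Set.Iio R))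
  refine ge_of_tendsto ht ?_
  filter_upwards [Ioo_mem_nhdsLT hz] with R' hR'
  exact b5_tc_core hr₀ hR'.2 hf hfm hfB hz₀ hR'.1

/-- monotonicity of the interpolation in the exponent -/
theorem b5_tc_mono {m B θ₁ θ₂ : ℝ} (hm : 0 < m) (hB : 0 < B) (hmB : m ≤ B) (h : θ₂ ≤ θ₁) :
    m ^ θ₁ * B ^ (1 - θ₁) ≤ m ^ θ₂ * B ^ (1 - θ₂) := by
  have e1 : m ^ θ₁ = m ^ θ₂ * m ^ (θ₁ - θ₂) := by
    rw [← Real.rpow_add hm]
    congr 1
    ring
  have e2 : B ^ (1 - θ₂) = B ^ (θ₁ - θ₂) * B ^ (1 - θ₁) := by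
    rw [← Real.rpow_add hB]
    congr 1
    ring
  have h3 : m ^ (θ₁ - θ₂) ≤ B ^ (θ₁ - θ₂) := Real.rpow_le_rpow hm.le hmB (sub_nonneg.2 h)
  rw [e1, e2, mul_assoc]
  have h4 : 0 ≤ m ^ θ₂ := (Real.rpow_pos_of_pos hm _).le
  have h5 : 0 ≤ B ^ (1 - θ₁) := (Real.rpow_pos_of_pos hB _).le
  gcongr

/-- **Hadamard's three circles theorem on balls.** -/
theorem b5_three_circles {f : E → F} {r₀ r R m B : ℝ} (hr₀ : 0 < r₀) (hr : r₀ ≤ r) (hR : r < R)
    (hm : 0 < m) (hB : 0 < B) (hf : DifferentiableOn ℂ f (Metric.ball 0 R))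
    (hfm : ∀ z ∈ Metric.ball (0 : E) r₀, ‖f z‖ ≤ m) (hfB : ∀ z ∈ Metric.ball (0 : E) R, ‖f z‖ ≤ B) :
    ∀ z : E, ‖z‖ ≤ r → ‖f z‖ ≤ m ^ (Real.log (R / r) / Real.log (R / r₀)) *
      B ^ (1 - Real.log (R / r) / Real.log (R / r₀)) := by
  intro z hz
  have hr0 : 0 < r := lt_of_lt_of_le hr₀ hr
  have hR0 : 0 < R := hr0.trans hR
  have hzR : z ∈ Metric.ball (0 : E) R := by
    rw [mem_ball_zero_iff]
    exact lt_of_le_of_lt hz hR
  have hL0 : 0 < Real.log (R / r₀) :=
    Real.log_pos ((one_lt_div hr₀).2 (lt_of_le_of_lt hr hR))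
  have hLr : 0 ≤ Real.log (R / r) := (Real.log_pos ((one_lt_div hr0).2 hR)).le
  set θ := Real.log (R / r) / Real.log (R / r₀) with hθ
  have hθ0 : 0 ≤ θ := div_nonneg hLr hL0.le
  have hθ1 : θ ≤ 1 := by
    rw [hθ, div_le_one hL0]
    refine Real.log_le_log (by positivity) ?_
    gcongr
  rcases le_total B m with hBm | hmB
  · calc ‖f z‖ ≤ B := hfB z hzR
      _ = B ^ θ * B ^ (1 - θ) := by
          rw [← Real.rpow_add hB, add_sub_cancel, Real.rpow_one]
      _ ≤ m ^ θ * B ^ (1 - θ) := by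
          have h1 : B ^ θ ≤ m ^ θ := Real.rpow_le_rpow hB.le hBm hθ0
          have h2 : 0 ≤ B ^ (1 - θ) := (Real.rpow_pos_of_pos hB _).le
          gcongr
  · rcases lt_or_ge ‖z‖ r₀ with hlt | hge
    · calc ‖f z‖ ≤ m := hfm z (by rwa [mem_ball_zero_iff])
        _ = m ^ (1 : ℝ) * B ^ (1 - (1 : ℝ)) := by
            rw [Real.rpow_one, sub_self, Real.rpow_zero, mul_one]
        _ ≤ m ^ θ * B ^ (1 - θ) := b5_tc_mono hm hB hmB hθ1
    · have hρ0 : 0 < ‖z‖ := lt_of_lt_of_le hr₀ hge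
      have key := b5_tc_limit hr₀ hm hB hf hfm hfB hge (lt_of_le_of_lt hz hR)
      set θ' := Real.log (R / ‖z‖) / Real.log (R / r₀) with hθ'
      have e1 : (Real.log ‖z‖ - Real.log r₀) / (Real.log R - Real.log r₀) = 1 - θ' := by
        rw [hθ', Real.log_div hR0.ne' hρ0.ne', Real.log_div hR0.ne' hr₀.ne']
        have hne : Real.log R - Real.log r₀ ≠ 0 := by
          rw [← Real.log_div hR0.ne' hr₀.ne']
          exact hL0.ne'
        field_simp
        ring
      rw [e1, sub_sub_cancel] at key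
      refine key.trans (b5_tc_mono hm hB hmB ?_)
      rw [hθ, hθ']
      refine div_le_div_of_nonneg_right ?_ hL0.le
      refine Real.log_le_log (by positivity) ?_
      gcongr

end E1

/-! ### E2 -/
section E2

theorem b5_sm_re_cos (z : ℂ) : (Complex.cos z).re = Real.cos z.re * Real.cosh z.im := by
  conv_lhs => rw [Complex.cos_eq z]
  simp [← Complex.ofReal_cos, ← Complex.ofReal_cosh, ← Complex.ofReal_sin, ← Complex.ofReal_sinh]

theorem b5_sm_bar_re (a b : ℝ) (z : ℂ) :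
    (Complex.cos ((a : ℂ) * (z - (b : ℂ)))).re = Real.cos (a * (z.re - b)) * Real.cosh (a * z.im) := by
  rw [b5_sm_re_cos]
  simp

theorem b5_sm_cos_lower {T x : ℝ} (hT : 0 < T) (h0 : 0 ≤ x) (h1 : x ≤ T) :
    Real.cos (Real.pi / 4) ≤ Real.cos (Real.pi / (2 * T) * (x - T / 2)) := by
  rw [← Real.cos_abs (Real.pi / (2 * T) * (x - T / 2))]
  refine Real.cos_le_cos_of_nonneg_of_le_pi (abs_nonneg _) (by linarith [Real.pi_pos]) ?_
  rw [abs_mul, abs_of_pos (by positivity : 0 < Real.pi / (2 * T))]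
  have h2 : |x - T / 2| ≤ T / 2 := by
    rw [abs_le]
    constructor <;> linarith
  calc Real.pi / (2 * T) * |x - T / 2| ≤ Real.pi / (2 * T) * (T / 2) := by gcongr
    _ = Real.pi / 4 := by
        field_simp
        ring

theorem b5_sm_cosh_lower (t : ℝ) : t / 2 ≤ Real.cosh t := by
  rw [Real.cosh_eq]
  have h1 := Real.add_one_le_exp t
  have h2 := Real.exp_pos (-t)
  linarith

/-- **a subharmonic function which is bounded above on a closed strip is bounded by its boundary values.** -/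
theorem b5_strip_max {u : ℂ → ℝ} {T M C : ℝ} (hT : 0 < T)
    (husc : UpperSemicontinuousOn u {z : ℂ | 0 ≤ z.re ∧ z.re ≤ T})
    (hsub : PshOnE {z : ℂ | 0 < z.re ∧ z.re < T} u)
    (hC : ∀ z : ℂ, 0 ≤ z.re → z.re ≤ T → u z ≤ C)
    (h0 : ∀ z : ℂ, z.re = 0 → u z ≤ M) (h1 : ∀ z : ℂ, z.re = T → u z ≤ M) :
    ∀ z : ℂ, 0 ≤ z.re → z.re ≤ T → u z ≤ M := by
  intro z₀ hz0 hz1
  set α : ℝ := Real.pi / (2 * T) with hα
  have hα0 : 0 < α := by positivity
  set c₀ : ℝ := Real.cos (Real.pi / 4) with hc₀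
  have hc₀0 : 0 < c₀ :=
    Real.cos_pos_of_mem_Ioo ⟨by linarith [Real.pi_pos], by linarith [Real.pi_pos]⟩
  set β : ℂ → ℝ := fun z => (Complex.cos ((α : ℂ) * (z - ((T / 2 : ℝ) : ℂ)))).re with hβ
  have hβe : ∀ z, β z = Real.cos (α * (z.re - T / 2)) * Real.cosh (α * z.im) := fun z =>
    b5_sm_bar_re α (T / 2) z
  have hβlow : ∀ z : ℂ, 0 ≤ z.re → z.re ≤ T → c₀ * Real.cosh (α * z.im) ≤ β z := by
    intro z h h'
    rw [hβe]
    have := b5_sm_cos_lower hT h h'
    have h2 := Real.cosh_pos (α * z.im)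
    gcongr
  have hβpos : ∀ z : ℂ, 0 ≤ z.re → z.re ≤ T → 0 < β z := by
    intro z h h'
    exact lt_of_lt_of_le (mul_pos hc₀0 (Real.cosh_pos _)) (hβlow z h h')
  -- the main estimate
  have main : ∀ ε : ℝ, 0 < ε → u z₀ ≤ M + ε * β z₀ := by
    intro ε hε
    set Y : ℝ := max |z₀.im| (2 * (C - M) / (ε * c₀ * α)) with hY
    have hY0 : 0 ≤ Y := le_max_of_le_left (abs_nonneg _)
    have hYC : C - M ≤ ε * (c₀ * Real.cosh (α * Y)) := by
      have h2 : 2 * (C - M) / (ε * c₀ * α) ≤ Y := le_max_right _ _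
      have h3 : α * Y / 2 ≤ Real.cosh (α * Y) := b5_sm_cosh_lower _
      have h4 : C - M ≤ ε * c₀ * α * Y / 2 := by
        rw [div_le_iff₀ (by positivity)] at h2
        linarith
      calc C - M ≤ ε * c₀ * α * Y / 2 := h4
        _ = ε * (c₀ * (α * Y / 2)) := by ring
        _ ≤ ε * (c₀ * Real.cosh (α * Y)) := by gcongr
    set K : Set ℂ := Set.Icc 0 T ×ℂ Set.Icc (-Y) Y with hK
    have hKc : IsCompact K := isCompact_Icc.reProdIm isCompact_Icc
    set g : ℂ → ℂ := fun z => -(ε : ℂ) * Complex.cos ((α : ℂ) * (z - ((T / 2 : ℝ) : ℂ))) with hg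
    have hgd : Differentiable ℂ g := by
      intro z
      simp only [hg]
      fun_prop
    have hgre : ∀ z, (g z).re = -ε * β z := by
      intro z
      simp only [hg, hβ]
      rw [← Complex.ofReal_neg, Complex.re_ofReal_mul]
    set v : ℂ → ℝ := fun z => u z + (g z).re with hv
    have hKstrip : K ⊆ {z : ℂ | 0 ≤ z.re ∧ z.re ≤ T} := fun z hz => hz.1
    have hvusc : UpperSemicontinuousOn v K :=
      (husc.mono hKstrip).add
        ((Complex.continuous_re.comp hgd.continuous).upperSemicontinuous.upperSemicontinuousOn K)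
    have hint : interior K = Set.Ioo 0 T ×ℂ Set.Ioo (-Y) Y := by
      rw [hK, Complex.interior_reProdIm, interior_Icc, interior_Icc]
    have hSopen : IsOpen {z : ℂ | 0 < z.re ∧ z.re < T} :=
      (isOpen_lt continuous_const Complex.continuous_re).inter
        (isOpen_lt Complex.continuous_re continuous_const)
    have hloc : ∀ y ∈ interior K, ∃ r : ℝ, 0 < r ∧ PshOnE (Metric.ball y r) v := by
      intro y hy
      rw [hint] at hy
      have hyS : y ∈ {z : ℂ | 0 < z.re ∧ z.re < T} := hy.1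
      obtain ⟨r, hr, hball⟩ := Metric.isOpen_iff.1 hSopen y hyS
      exact ⟨r, hr, (hsub.mono hball).add
        ((pshOnE_re_of_differentiableOn isOpen_univ hgd.differentiableOn).mono (Set.subset_univ _))⟩
    have hfr : ∀ y ∈ frontier K, v y ≤ M := by
      intro y hy
      have hyK : y ∈ K := hKc.isClosed.frontier_subset hy
      have hyi : y ∉ interior K := by
        rw [frontier, hKc.isClosed.closure_eq] at hy
        exact hy.2
      rw [hint] at hyi
      have hre : 0 ≤ y.re ∧ y.re ≤ T := hyK.1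
      have him : -Y ≤ y.im ∧ y.im ≤ Y := hyK.2
      have hβy := hβpos y hre.1 hre.2
      simp only [hv]
      rw [hgre]
      by_cases hA : y.re = 0
      · have := h0 y hA
        nlinarith
      by_cases hB : y.re = T
      · have := h1 y hB
        nlinarith
      have hre' : y.re ∈ Set.Ioo 0 T :=
        ⟨lt_of_le_of_ne hre.1 (Ne.symm hA), lt_of_le_of_ne hre.2 hB⟩
      have him' : ¬ (y.im ∈ Set.Ioo (-Y) Y) := fun h => hyi ⟨hre', h⟩
      have habs : |y.im| = Y := by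
        by_cases hD : y.im = Y
        · rw [hD, abs_of_nonneg hY0]
        · have hE : y.im = -Y := by
            by_contra hE
            exact him' ⟨lt_of_le_of_ne him.1 (Ne.symm hE), lt_of_le_of_ne him.2 hD⟩
          rw [hE, abs_neg, abs_of_nonneg hY0]
      have hcosh : Real.cosh (α * y.im) = Real.cosh (α * Y) := by
        rw [← Real.cosh_abs, abs_mul, abs_of_pos hα0, habs]
      have h5 := hβlow y hre.1 hre.2
      rw [hcosh] at h5
      have h6 := hC y hre.1 hre.2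
      have h7 : ε * (c₀ * Real.cosh (α * Y)) ≤ ε * β y := by gcongr
      linarith
    have hz₀K : z₀ ∈ K := by
      refine ⟨⟨hz0, hz1⟩, ?_⟩
      have h2 : |z₀.im| ≤ Y := le_max_left _ _
      exact abs_le.1 h2
    have hfin := b5_le_of_frontier ⟨(1 : ℂ), one_ne_zero⟩ hKc hvusc hloc hfr z₀ hz₀K
    simp only [hv] at hfin
    rw [hgre] at hfin
    linarith
  refine le_of_forall_pos_le_add fun δ hδ => ?_
  have hβ0 := hβpos z₀ hz0 hz1
  have h2 := main (δ / β z₀) (by positivity)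
  rwa [div_mul_cancel₀ _ hβ0.ne'] at h2

end E2

/-! ### E3 -/
section E3

theorem b5_ce_aux {E : Type} [NormedAddCommGroup E] [NormedSpace ℂ E] [FiniteDimensional ℂ E] (c : E) (k : ℕ) :
    ∀ {F : Type} [NormedAddCommGroup F] [NormedSpace ℂ F] [FiniteDimensional ℂ F] {f : E → F} {ρ m : ℝ},
      0 < ρ → DifferentiableOn ℂ f (Metric.ball c ρ) → (∀ z ∈ Metric.ball c ρ, ‖f z‖ ≤ m) →
      ‖iteratedFDeriv ℂ k f c‖ ≤ (k : ℝ) ^ k * m / ρ ^ k := by
  induction k with
  | zero =>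
    intro F _ _ _ f ρ m hρ _ hm
    rw [norm_iteratedFDeriv_zero]
    simpa using hm c (Metric.mem_ball_self hρ)
  | succ k ih =>
    intro F _ _ _ f ρ m hρ hf hm
    rw [← norm_iteratedFDeriv_fderiv]
    have hg : DifferentiableOn ℂ (fderiv ℂ f) (Metric.ball c ρ) :=
      hol_differentiableOn_fderiv Metric.isOpen_ball hf
    rcases Nat.eq_zero_or_pos k with rfl | hk
    · rw [norm_iteratedFDeriv_zero]
      have := scv_norm_fderiv_le hρ hf hm
      simpa using this
    · have hk' : (0 : ℝ) < k := by exact_mod_cast hk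
      have hρ' : 0 < ρ * k / (k + 1) := by positivity
      have hsub : Metric.ball c (ρ * k / (k + 1)) ⊆ Metric.ball c ρ := by
        refine Metric.ball_subset_ball ?_
        rw [div_le_iff₀ (by positivity)]
        nlinarith
      have hbd : ∀ y ∈ Metric.ball c (ρ * k / (k + 1)), ‖fderiv ℂ f y‖ ≤ (k + 1) * m / ρ := by
        intro y hy
        have hsub2 : Metric.ball y (ρ / (k + 1)) ⊆ Metric.ball c ρ := by
          intro x hx
          rw [Metric.mem_ball] at hx hy ⊢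
          have h1 : dist x c ≤ dist x y + dist y c := dist_triangle _ _ _
          have h2 : ρ / (k + 1) + ρ * k / (k + 1) = ρ := by
            field_simp
            ring
          linarith
        have h3 := scv_norm_fderiv_le (c := y) (r := ρ / (k + 1)) (by positivity) (hf.mono hsub2)
          (fun z hz => hm z (hsub2 hz))
        refine h3.trans (le_of_eq ?_)
        field_simp
      have h4 := ih hρ' (hg.mono hsub) hbd
      refine h4.trans (le_of_eq ?_)
      push_cast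
      rw [div_pow, mul_pow]
      field_simp
      ring

/-- Cauchy estimates of all orders. -/
theorem b5_norm_iteratedFDeriv_le {E F : Type} [NormedAddCommGroup E] [NormedSpace ℂ E] [FiniteDimensional ℂ E]
    [NormedAddCommGroup F] [NormedSpace ℂ F] [FiniteDimensional ℂ F] {f : E → F} {c : E} {ρ m : ℝ} (hρ : 0 < ρ)
    (hf : DifferentiableOn ℂ f (Metric.ball c ρ)) (hm : ∀ z ∈ Metric.ball c ρ, ‖f z‖ ≤ m) (k : ℕ) :
    ‖iteratedFDeriv ℂ k f c‖ ≤ (k : ℝ) ^ k * m / ρ ^ k := by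
  exact b5_ce_aux c k hρ hf hm

/-- the `i`-th component of the homogeneous polynomial map `z ↦ M (z,…,z)`. -/
noncomputable def b5Diag {n k : ℕ}
    (M : ContinuousMultilinearMap ℂ (fun _ : Fin k => CE (Fin n)) (CE (Fin n))) (i : Fin n) :
    MvPolynomial (Fin n) ℂ :=
  ∑ j : Fin k → Fin n, MvPolynomial.C ((M fun l => EuclideanSpace.single (j l) (1 : ℂ)) i) *
    ∏ l, MvPolynomial.X (j l)

theorem b5_eval_diag {n k : ℕ}
    (M : ContinuousMultilinearMap ℂ (fun _ : Fin k => CE (Fin n)) (CE (Fin n))) (i : Fin n)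
    (z : CE (Fin n)) : MvPolynomial.eval (fun j => z j) (b5Diag M i) = (M fun _ => z) i := by
  classical
  have hz : z = ∑ j, z j • (EuclideanSpace.single j (1 : ℂ) : CE (Fin n)) := by
    ext a
    simp [Finset.sum_apply, Pi.single_apply]
  have h1 : (M fun _ : Fin k => z)
      = M fun _ : Fin k => ∑ j, z j • (EuclideanSpace.single j (1 : ℂ) : CE (Fin n)) := by
    rw [← hz]
  rw [h1, ContinuousMultilinearMap.map_sum]
  simp only [b5Diag, map_sum, map_mul, MvPolynomial.eval_C, map_prod, MvPolynomial.eval_X]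
  rw [show (∑ r : Fin k → Fin n, M fun l => z (r l) • (EuclideanSpace.single (r l) (1 : ℂ) : CE (Fin n))) i
    = ∑ r : Fin k → Fin n, (M fun l => z (r l) • (EuclideanSpace.single (r l) (1 : ℂ) : CE (Fin n))) i by
      simp]
  refine Finset.sum_congr rfl fun j _ => ?_
  rw [ContinuousMultilinearMap.map_smul_univ]
  simp [mul_comm]

theorem b5_totalDegree_diag {n k : ℕ}
    (M : ContinuousMultilinearMap ℂ (fun _ : Fin k => CE (Fin n)) (CE (Fin n))) (i : Fin n) :
    (b5Diag M i).totalDegree ≤ k := by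
  refine MvPolynomial.totalDegree_finsetSum_le fun j _ => ?_
  refine (MvPolynomial.totalDegree_mul _ _).trans ?_
  rw [MvPolynomial.totalDegree_C, zero_add]
  refine (MvPolynomial.totalDegree_finsetProd _ _).trans ?_
  refine (Finset.sum_le_card_nsmul _ _ 1 fun l _ => ?_).trans ?_
  · exact (MvPolynomial.totalDegree_X (R := ℂ) (j l)).le
  · simp

theorem b5_n1_diag {n k : ℕ}
    (M : ContinuousMultilinearMap ℂ (fun _ : Fin k => CE (Fin n)) (CE (Fin n))) (i : Fin n) :
    S9.n1 (b5Diag M i) ≤ (n : ℝ) ^ k * ‖M‖ := by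
  refine (S9.n1_sum_le _ _).trans ?_
  have h1 : ∀ j ∈ (Finset.univ : Finset (Fin k → Fin n)),
      S9.n1 (MvPolynomial.C ((M fun l => EuclideanSpace.single (j l) (1 : ℂ)) i) *
        ∏ l, (MvPolynomial.X (j l) : MvPolynomial (Fin n) ℂ)) ≤ ‖M‖ := by
    intro j _
    rw [S9.n1_C_mul]
    have h2 : S9.n1 (∏ l, (MvPolynomial.X (j l) : MvPolynomial (Fin n) ℂ)) ≤ 1 := by
      refine (S9.n1_prod_le _ _).trans ?_
      simp
    have h3 : ‖(M fun l => EuclideanSpace.single (j l) (1 : ℂ)) i‖ ≤ ‖M‖ := by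
      refine (PiLp.norm_apply_le _ i).trans ?_
      refine (M.le_opNorm _).trans ?_
      simp
    calc _ ≤ ‖M‖ * 1 := mul_le_mul h3 h2 (S9.n1_nonneg _) (norm_nonneg _)
      _ = ‖M‖ := mul_one _
  refine (Finset.sum_le_card_nsmul _ _ _ h1).trans (le_of_eq ?_)
  simp

/-- **Taylor polynomial maps with Cauchy bounds**: ONE polynomial map `J` (the Taylor polynomial of degree `≤ d`), bounded in terms of every ball on which `F` is bounded. -/
theorem b5_exists_taylor_pmap (n d : ℕ) : ∃ C : ℝ, 0 ≤ C ∧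
    ∀ (F : CE (Fin n) → CE (Fin n)) (R : ℝ), 0 < R → DifferentiableOn ℂ F (Metric.ball 0 R) →
      ∃ J : PMap n, J.deg ≤ d ∧ ((fun z => F z - J.ev z) =O[𝓝 0] fun z => ‖z‖ ^ (d + 1)) ∧
        ∀ ρ m : ℝ, 0 < ρ → ρ ≤ R → ρ ≤ 1 → (∀ z ∈ Metric.ball (0 : CE (Fin n)) ρ, ‖F z‖ ≤ m) →
          J.cnorm ≤ C * m / ρ ^ d := by
  refine ⟨∑ k ∈ Finset.range (d + 1), (n : ℝ) * ((n : ℝ) ^ k * (k : ℝ) ^ k), by positivity, ?_⟩
  intro F R hR hF
  set J : PMap n := fun i => ∑ k ∈ Finset.range (d + 1),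
    MvPolynomial.C ((k.factorial : ℂ)⁻¹) * b5Diag (iteratedFDeriv ℂ k F 0) i with hJ
  have hev : ∀ z, J.ev z = ∑ k ∈ Finset.range (d + 1),
      ((k.factorial : ℂ)⁻¹) • iteratedFDeriv ℂ k F 0 (fun _ => z) := by
    intro z
    ext i
    simp only [PMap.ev, hJ, map_sum, map_mul, MvPolynomial.eval_C, b5_eval_diag]
    simp
  refine ⟨J, ?_, ?_, ?_⟩
  · refine Finset.sup_le fun i _ => ?_
    refine MvPolynomial.totalDegree_finsetSum_le fun k hk => ?_
    refine (MvPolynomial.totalDegree_mul _ _).trans ?_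
    rw [MvPolynomial.totalDegree_C, zero_add]
    refine (b5_totalDegree_diag _ i).trans ?_
    have := Finset.mem_range.1 hk
    omega
  · have hA : AnalyticAt ℂ F 0 :=
      Claimed.Agent.R269.SCV.analyticAt_of_differentiableOn hF (Metric.ball_mem_nhds 0 hR)
    obtain ⟨p, r, hp⟩ := hA
    have h1 := HasFPowerSeriesAt.isBigO_sub_partialSum_pow (⟨r, hp⟩ : HasFPowerSeriesAt F p 0) (d + 1)
    refine h1.congr_left fun z => ?_
    rw [zero_add, hev, FormalMultilinearSeries.partialSum]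
    congr 1
    refine Finset.sum_congr rfl fun k _ => ?_
    rw [← hp.factorial_smul z k, ← Nat.cast_smul_eq_nsmul ℂ, smul_smul,
      inv_mul_cancel₀ (Nat.cast_ne_zero.2 (Nat.factorial_ne_zero k)), one_smul]
  · intro ρ m hρ hρR hρ1 hm
    have hm0 : 0 ≤ m := (norm_nonneg _).trans (hm 0 (Metric.mem_ball_self hρ))
    have hi : ∀ i, S9.n1 (J i)
        ≤ ∑ k ∈ Finset.range (d + 1), (n : ℝ) ^ k * ((k : ℝ) ^ k * (m / ρ ^ d)) := by
      intro i
      refine (S9.n1_sum_le _ _).trans (Finset.sum_le_sum fun k hk => ?_)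
      rw [S9.n1_C_mul]
      have hkd : k ≤ d := by
        have := Finset.mem_range.1 hk
        omega
      have h1 : ‖((k.factorial : ℂ)⁻¹)‖ ≤ 1 := by
        rw [norm_inv, Complex.norm_natCast]
        exact inv_le_one_of_one_le₀ (by exact_mod_cast Nat.one_le_iff_ne_zero.2 (Nat.factorial_ne_zero k))
      have h2 := b5_n1_diag (iteratedFDeriv ℂ k F 0) i
      have h3 : ‖iteratedFDeriv ℂ k F 0‖ ≤ (k : ℝ) ^ k * (m / ρ ^ d) := by
        refine (b5_norm_iteratedFDeriv_le hρ (hF.mono (Metric.ball_subset_ball hρR)) hm k).trans ?_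
        rw [mul_div_assoc]
        have h4 : m / ρ ^ k ≤ m / ρ ^ d :=
          div_le_div_of_nonneg_left hm0 (pow_pos hρ d) (pow_le_pow_of_le_one hρ.le hρ1 hkd)
        gcongr
      calc ‖((k.factorial : ℂ)⁻¹)‖ * S9.n1 (b5Diag (iteratedFDeriv ℂ k F 0) i)
          ≤ 1 * ((n : ℝ) ^ k * ‖iteratedFDeriv ℂ k F 0‖) :=
            mul_le_mul h1 h2 (S9.n1_nonneg _) zero_le_one
        _ = (n : ℝ) ^ k * ‖iteratedFDeriv ℂ k F 0‖ := one_mul _
        _ ≤ (n : ℝ) ^ k * ((k : ℝ) ^ k * (m / ρ ^ d)) := by gcongr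
    show ∑ i, S9.n1 (J i) ≤ _
    calc ∑ i, S9.n1 (J i)
        ≤ ∑ _i : Fin n, ∑ k ∈ Finset.range (d + 1), (n : ℝ) ^ k * ((k : ℝ) ^ k * (m / ρ ^ d)) :=
          Finset.sum_le_sum fun i _ => hi i
      _ = (∑ k ∈ Finset.range (d + 1), (n : ℝ) * ((n : ℝ) ^ k * (k : ℝ) ^ k)) * m / ρ ^ d := by
          rw [Finset.sum_const, Finset.card_univ, Fintype.card_fin, nsmul_eq_mul, Finset.mul_sum,
            mul_div_assoc, Finset.sum_mul]
          refine Finset.sum_congr rfl fun k _ => ?_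
          ring

end E3

end Claimed.Agent.R316
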