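import Claimed.Agent.R316.B5.Comp
import Claimed.Agent.R316.B5.Env
import Claimed.Agent.R316.Pack003

/-!
# Row 316, package B5 (plurisubharmonic functions), file 5: psh functions on a complex manifold `𝓜 : CMfd V ι`

Owner / sub-captain: helper4.  PAPER FREE (uses the statements of `B5/Basic, Moll, Comp, Env` and of `CM/Param, Trans, Top` as black boxes).
`𝓜.IsPshOn Ω v` (`Core/Psh.lean`): `PshOn (U ∩ Φ ⁻¹' Ω) (v ∘ Φ)` for EVERY holomorphic parametrisation `(Φ, U)`.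

Main exports:
* `CMfd.isPshOn_of_forall_exists`   : it suffices to check near every point in ONE parametrisation.
* `CMfd.IsPshOn.eq_of_forall_le`    : strong maximum principle on a connected carrier (used in Lemma 7.6, psh Liouville).
* `CMfd.HolTo.isPshOn_log_max_norm` : `log max(‖f‖, δ)` for holomorphic `f : M ⊇ Ω → ℂ^κ`.
* `CMfd.isPshOn_b5Reg_limsup`, `CMfd.hartogs`: `(limsup v_j)^*` and Hartogs' lemma for bounded psh functions on exhausting domains.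
* `CMfd.eventually_le_of_liouville` : THE tool for the common contraction exponent (7.17) of Prop. 7.7 (replaces `lem:psh-compactness-bridge`).

## Leaves

### B5-F1 (section `F1`, ~450 lines)
* `CMfd.IsPshOn.usc`: for `x = Φ z` use `IsParam.map_nhds_eq` (`map Φ (𝓝 z) = 𝓝[carrier] x`) to transport `∀ᶠ y in 𝓝 z, v (Φ y) < c`  (`Ω` open: `𝓝[carrier ∩ Ω] x = 𝓝[carrier] x`).
* `CMfd.isPshOn_of_forall_exists`: let `(Ψ, W)` be any parametrisation, `y ∈ W ∩ Ψ⁻¹ Ω`, `x = Ψ y`, `(Φ, U, z, N)` from the hypothesis, `N` open wlog (`interior`).  `τ = invFunOn Φ U ∘ Ψ` is holomorphic on the open overlap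
  `W ∩ Ψ⁻¹ (Φ '' U)` (`𝓜.compat`, `CMfd.isOpen_overlap`), `τ y = z`, continuous; `W' = overlap ∩ τ⁻¹ N` is open; `PshOn.comp_hol` gives `PshOn W' ((v ∘ Φ) ∘ τ)`, and `(v ∘ Φ) ∘ τ = v ∘ Ψ` on the overlap (`CMfd.trans_spec`).  Conclude by `pshOn_of_forall_nhds`.
* `CMfd.IsPshOn.eq_of_forall_le`: `S = {x ∈ carrier | v x = v x₀}`.  Relatively closed: `v` usc and `v ≤ v x₀`.  Relatively open: `CMfd.exists_centred`, `PshOn.eqOn_of_isMaxOn` on the ball (convex ⟹ preconnected), image of the ball is a relative neighbourhood (`IsParam.map_nhds_eq`).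
  Then preconnectedness (`IsPreconnected.subset_of_closure_inter_subset`, or work in the subtype `𝓜.carrier` with `IsClopen`).
* algebra: chartwise from `B5/Basic.lean`.
* `CMfd.HolTo.isPshOn_log_max_norm`: chartwise `pshOnE_log_max_norm` on the open set `U ∩ Φ⁻¹ Ω` (`IsParam.isOpen_inter_preimage`).

### B5-F2 (section `F2`, ~500 lines)
Notation `u x = limsup_j vs j x`, `u* = b5Reg 𝓜.carrier u`.  For `x ∈ carrier`: `{x}` is compact so `x ∈ Dom j` eventually and `a ≤ u x ≤ b`.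
* `CMfd.isPshOn_b5Reg_limsup`: `(Φ, U)` a parametrisation, `z ∈ U`, `closedBall z r ⊆ U`.  `K = Φ '' closedBall z r` is compact in the carrier, so `K ⊆ Dom j` eventually, so eventually `PshOn (ball z r) (vs j ∘ Φ)` (`PshOn.mono`) with bounds.
  `pshOnE_b5Reg_limsup` on `ball z r`; for `y ∈ ball z r`: `u* (Φ y) = b5Reg (ball z r) (u ∘ Φ) y` by `b5Reg_comp` (`IsParam.map_nhds_eq`, `IsOpen.nhdsWithin_eq`).  `PshOnE.congr`, `pshOn_of_forall_nhds`.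
* `CMfd.hartogs`: `CMfd.exists_finite_cover` : `K ⊆ ⋃ Φ_i '' ball 0 r_i`, `Φ_i` defined on `ball 0 (2 r_i)`; apply `b5_hartogs` with `U = ball 0 (3/2 r_i)` (its closure has compact image, so eventually inside `Dom j`) and the compact `closedBall 0 r_i`.
* `CMfd.eventually_le_of_liouville`: `u*` is psh on `M`, `≤ b`, so `u* ≡ c'` by `hL`; `u* o ≤ c` by `b5Reg_le_of_eventually`; hence `u ≤ u* = c' ≤ c` on the carrier (`le_b5Reg`); `CMfd.hartogs`.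
-/

set_option autoImplicit false
open scoped ContDiff ComplexOrder Topology
open MeasureTheory Filter

namespace Claimed.Agent.R316

variable {V : Type} [NormedAddCommGroup V] [NormedSpace ℝ V]
variable {ι κ : Type} [Fintype ι] [Fintype κ]
variable {𝓜 : CMfd V ι} {Ω Ω' : Set V} {v v₁ v₂ : V → ℝ}

/-! ### F1 -/
section F1

theorem CMfd.IsPshOn.mono (h : 𝓜.IsPshOn Ω v) (hs : Ω' ⊆ Ω) : 𝓜.IsPshOn Ω' v :=
  fun Φ U hΦ => (h Φ U hΦ).mono fun _ hz => ⟨hz.1, hs hz.2⟩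


variable {V : Type} [NormedAddCommGroup V] [NormedSpace ℝ V]
variable {ι κ : Type} [Fintype ι] [Fintype κ]
variable {𝓜 : CMfd V ι} {Ω Ω' : Set V} {v v₁ v₂ : V → ℝ}

/-- a psh function is usc on the manifold. -/
theorem CMfd.IsPshOn.usc (hΩ : IsOpen Ω) (h : 𝓜.IsPshOn Ω v) :
    UpperSemicontinuousOn v (𝓜.carrier ∩ Ω) := by
  intro x hx c hc
  obtain ⟨Φ, U, hΦ, z, hz, rfl⟩ := 𝓜.cover x hx.1
  have hp := 𝓜.isParam hΦ
  have h1 : ∀ᶠ y in 𝓝[U ∩ Φ ⁻¹' Ω] z, v (Φ y) < c := (h Φ U hΦ).1 z ⟨hz, hx.2⟩ c hc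
  rw [(hp.isOpen_inter_preimage hΩ).nhdsWithin_eq ⟨hz, hx.2⟩] at h1
  have h2 : ∀ᶠ x' in Filter.map Φ (𝓝 z), v x' < c := h1
  rw [hp.map_nhds_eq hz] at h2
  exact h2.filter_mono (nhdsWithin_mono _ Set.inter_subset_left)

theorem CMfd.IsPshOn.congr (h : 𝓜.IsPshOn Ω v₁) (heq : ∀ x ∈ 𝓜.carrier ∩ Ω, v₁ x = v₂ x) :
    𝓜.IsPshOn Ω v₂ :=
  fun Φ U hΦ => (h Φ U hΦ).congr fun z hz => heq (Φ z) ⟨CMfd.mem_carrier hΦ hz.1, hz.2⟩

/-- **one parametrisation near every point suffices.** -/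
theorem CMfd.isPshOn_of_forall_exists
    (h : ∀ x ∈ 𝓜.carrier ∩ Ω, ∃ (Φ : CE ι → V) (U : Set (CE ι)), 𝓜.IsHol Φ U ∧
      ∃ z ∈ U, Φ z = x ∧ ∃ N ∈ 𝓝 z, PshOn N (v ∘ Φ)) : 𝓜.IsPshOn Ω v := by
  intro Ψ W hΨ
  refine pshOn_of_forall_nhds fun y hy => ?_
  obtain ⟨Φ, U, hΦ, z, hz, hzx, N, hN, hpsh⟩ := h (Ψ y) ⟨CMfd.mem_carrier hΨ hy.1, hy.2⟩
  have hD : IsOpen (W ∩ Ψ ⁻¹' (Φ '' U)) := CMfd.isOpen_overlap hΨ hΦ
  have hτ : DifferentiableOn ℂ (Function.invFunOn Φ U ∘ Ψ) (W ∩ Ψ ⁻¹' (Φ '' U)) := 𝓜.compat hΨ hΦ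
  have hyD : y ∈ W ∩ Ψ ⁻¹' (Φ '' U) := ⟨hy.1, ⟨z, hz, hzx⟩⟩
  have hτy : (Function.invFunOn Φ U ∘ Ψ) y = z := CMfd.trans_eq hΨ hΦ hz hzx.symm
  have hW' : IsOpen ((W ∩ Ψ ⁻¹' (Φ '' U)) ∩ (Function.invFunOn Φ U ∘ Ψ) ⁻¹' interior N) :=
    hτ.continuousOn.isOpen_inter_preimage hD isOpen_interior
  refine ⟨_, hW'.mem_nhds ⟨hyD, ?_⟩, ?_⟩
  · rw [Set.mem_preimage, hτy]
    exact mem_interior_iff_mem_nhds.2 hN
  · have h1 := PshOn.comp_hol isOpen_interior (hpsh.mono interior_subset) hW'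
      (hτ.mono Set.inter_subset_left) (fun y' hy' => hy'.2)
    refine h1.congr fun y' hy' => ?_
    simp only [Function.comp_apply]
    have := CMfd.trans_spec hΨ hΦ hy'.1
    simp only [Function.comp_apply] at this
    rw [this]

/-- locality on the manifold. -/
theorem CMfd.isPshOn_of_forall_nhds
    (h : ∀ x ∈ 𝓜.carrier ∩ Ω, ∃ O : Set V, IsOpen O ∧ x ∈ O ∧ 𝓜.IsPshOn O v) : 𝓜.IsPshOn Ω v := by
  intro Φ U hΦ
  refine pshOn_of_forall_nhds fun y hy => ?_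
  obtain ⟨O, hO, hyO, hpsh⟩ := h (Φ y) ⟨CMfd.mem_carrier hΦ hy.1, hy.2⟩
  exact ⟨U ∩ Φ ⁻¹' O, ((𝓜.isParam hΦ).isOpen_inter_preimage hO).mem_nhds ⟨hy.1, hyO⟩, hpsh Φ U hΦ⟩

theorem CMfd.isPshOn_const (𝓜 : CMfd V ι) (Ω : Set V) (c : ℝ) : 𝓜.IsPshOn Ω fun _ => c :=
  fun _ _ _ => pshOn_const _ c

theorem CMfd.IsPshOn.add (h₁ : 𝓜.IsPshOn Ω v₁) (h₂ : 𝓜.IsPshOn Ω v₂) :
    𝓜.IsPshOn Ω fun x => v₁ x + v₂ x :=
  fun Φ U hΦ => (h₁ Φ U hΦ).add (h₂ Φ U hΦ)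

theorem CMfd.IsPshOn.const_mul (h : 𝓜.IsPshOn Ω v) {c : ℝ} (hc : 0 ≤ c) :
    𝓜.IsPshOn Ω fun x => c * v x :=
  fun Φ U hΦ => (h Φ U hΦ).const_mul hc

theorem CMfd.IsPshOn.max (h₁ : 𝓜.IsPshOn Ω v₁) (h₂ : 𝓜.IsPshOn Ω v₂) :
    𝓜.IsPshOn Ω fun x => max (v₁ x) (v₂ x) :=
  fun Φ U hΦ => (h₁ Φ U hΦ).max (h₂ Φ U hΦ)

/-- a preconnected set covered by two disjoint relatively open sets lies in the first one if it meets it. -/
theorem b5_subset_of_isPreconnected {X : Type} [TopologicalSpace X] {s A B : Set X}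
    (hs : IsPreconnected s) (hA : ∀ x ∈ s ∩ A, A ∈ 𝓝[s] x) (hB : ∀ x ∈ s ∩ B, B ∈ 𝓝[s] x)
    (hcov : s ⊆ A ∪ B) (hdisj : ∀ x ∈ s, x ∈ A → x ∉ B) (hne : (s ∩ A).Nonempty) : s ⊆ A := by
  have key : ∀ C : Set X, (∀ x ∈ s ∩ C, C ∈ 𝓝[s] x) →
      ∃ u : Set X, IsOpen u ∧ s ∩ C ⊆ u ∧ u ∩ s ⊆ C := by
    intro C hC
    choose! O hO1 hO2 hO3 using fun x (hx : x ∈ s ∩ C) => mem_nhdsWithin.1 (hC x hx)
    refine ⟨⋃ x ∈ s ∩ C, O x, isOpen_biUnion hO1, fun x hx => Set.mem_biUnion hx (hO2 x hx), ?_⟩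
    rintro y ⟨hy, hys⟩
    obtain ⟨x, hx, hyx⟩ := Set.mem_iUnion₂.1 hy
    exact hO3 x hx ⟨hyx, hys⟩
  obtain ⟨u, hu, hAu, huA⟩ := key A hA
  obtain ⟨u', hu', hBu, huB⟩ := key B hB
  by_contra hcon
  obtain ⟨y, hys, hyA⟩ := Set.not_subset.1 hcon
  have hyB : y ∈ B := (hcov hys).resolve_left hyA
  obtain ⟨x, hxs, hxA⟩ := hne
  obtain ⟨p, hps, hpu, hpu'⟩ := hs u u' hu hu'
    (fun q hq => (hcov hq).elim (fun h => Or.inl (hAu ⟨hq, h⟩)) fun h => Or.inr (hBu ⟨hq, h⟩))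
    ⟨x, hxs, hAu ⟨hxs, hxA⟩⟩ ⟨y, hys, hBu ⟨hys, hyB⟩⟩
  exact hdisj p hps (huA ⟨hpu, hps⟩) (huB ⟨hpu', hps⟩)

/-- **strong maximum principle.** -/
theorem CMfd.IsPshOn.eq_of_forall_le (hconn : IsPreconnected 𝓜.carrier) (h : 𝓜.IsPshOn Set.univ v)
    {x₀ : V} (hx₀ : x₀ ∈ 𝓜.carrier) (hmax : ∀ x ∈ 𝓜.carrier, v x ≤ v x₀) :
    ∀ x ∈ 𝓜.carrier, v x = v x₀ := by
  have husc : UpperSemicontinuousOn v 𝓜.carrier := by
    simpa using CMfd.IsPshOn.usc isOpen_univ h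
  refine b5_subset_of_isPreconnected (A := {x | v x = v x₀}) (B := {x | v x < v x₀}) hconn ?_ ?_ ?_ ?_
    ⟨x₀, hx₀, rfl⟩
  · rintro x ⟨hx, hxA⟩
    obtain ⟨Φ, r, hr, hΦ, rfl⟩ := 𝓜.exists_centred hx
    have hp := 𝓜.isParam hΦ
    have h0 : (0 : CE ι) ∈ Metric.ball (0 : CE ι) r := Metric.mem_ball_self hr
    have h1 : PshOn (Metric.ball (0 : CE ι) r) (v ∘ Φ) := (h Φ _ hΦ).mono fun y hy => ⟨hy, trivial⟩
    have h2 := h1.eqOn_of_isMaxOn Metric.isOpen_ball (convex_ball _ _).isPreconnected h0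
      (fun y hy => by
        have : v (Φ y) ≤ v (Φ 0) := (hmax _ (CMfd.mem_carrier hΦ hy)).trans hxA.ge
        exact this)
    have h3 : Φ '' Metric.ball (0 : CE ι) r ∈ 𝓝[𝓜.carrier] (Φ 0) := by
      rw [← hp.map_nhds_eq h0]
      exact image_mem_map (Metric.ball_mem_nhds _ hr)
    refine mem_of_superset h3 ?_
    rintro _ ⟨y, hy, rfl⟩
    exact (h2 y hy).trans hxA
  · rintro x ⟨hx, hxB⟩
    exact husc x hx _ hxB
  · intro x hx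
    exact (hmax x hx).eq_or_lt
  · intro x _ hxA hxB
    exact (ne_of_lt hxB) hxA

/-- `log max(‖f‖, δ)`. -/
theorem CMfd.HolTo.isPshOn_log_max_norm (hΩ : IsOpen Ω) {f : V → CE κ} (hf : 𝓜.HolTo Ω f) {δ : ℝ}
    (hδ : 0 < δ) : 𝓜.IsPshOn Ω fun x => Real.log (max ‖f x‖ δ) :=
  fun Φ U hΦ => pshOnE_log_max_norm ((𝓜.isParam hΦ).isOpen_inter_preimage hΩ) (hf Φ U hΦ) hδ

end F1

/-! ### F2 -/
section F2

variable {Dom : ℕ → Set V} {vs : ℕ → V → ℝ} {a b c : ℝ}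


variable {V : Type} [NormedAddCommGroup V] [NormedSpace ℝ V]
variable {ι κ : Type} [Fintype ι] [Fintype κ]
variable {𝓜 : CMfd V ι} {Ω Ω' : Set V} {v v₁ v₂ : V → ℝ}
variable {Dom : ℕ → Set V} {vs : ℕ → V → ℝ} {a b c : ℝ}

/-- chart form of the hypotheses: on a ball whose closure lies in the domain of a parametrisation. -/
theorem b5_chart_eventually
    (hexh : ∀ K : Set V, IsCompact K → K ⊆ 𝓜.carrier → ∀ᶠ j in atTop, K ⊆ Dom j)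
    (hpsh : ∀ j, 𝓜.IsPshOn (Dom j) (vs j))
    (hb : ∀ j, ∀ x ∈ 𝓜.carrier ∩ Dom j, a ≤ vs j x ∧ vs j x ≤ b)
    {Φ : CE ι → V} {U : Set (CE ι)} (hΦ : 𝓜.IsHol Φ U) {z : CE ι} {r : ℝ}
    (hB : Metric.closedBall z r ⊆ U) :
    (∀ᶠ j in atTop, PshOn (Metric.ball z r) (vs j ∘ Φ)) ∧
      ∀ᶠ j in atTop, ∀ y ∈ Metric.ball z r, a ≤ (vs j ∘ Φ) y ∧ (vs j ∘ Φ) y ≤ b := by
  have hp := 𝓜.isParam hΦ
  have hK : IsCompact (Φ '' Metric.closedBall z r) :=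
    (isCompact_closedBall z r).image_of_continuousOn (hp.continuousOn.mono hB)
  have hKM : Φ '' Metric.closedBall z r ⊆ 𝓜.carrier := by
    rintro _ ⟨y, hy, rfl⟩
    exact CMfd.mem_carrier hΦ (hB hy)
  have hev := hexh _ hK hKM
  constructor
  · filter_upwards [hev] with j hj
    exact (hpsh j Φ U hΦ).mono fun y hy =>
      ⟨hB (Metric.ball_subset_closedBall hy), hj ⟨y, Metric.ball_subset_closedBall hy, rfl⟩⟩
  · filter_upwards [hev] with j hj y hy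
    exact hb j (Φ y) ⟨CMfd.mem_carrier hΦ (hB (Metric.ball_subset_closedBall hy)),
      hj ⟨y, Metric.ball_subset_closedBall hy, rfl⟩⟩

theorem b5_limsup_bounds
    (hexh : ∀ K : Set V, IsCompact K → K ⊆ 𝓜.carrier → ∀ᶠ j in atTop, K ⊆ Dom j)
    (hb : ∀ j, ∀ x ∈ 𝓜.carrier ∩ Dom j, a ≤ vs j x ∧ vs j x ≤ b) {x : V} (hx : x ∈ 𝓜.carrier) :
    a ≤ limsup (fun j => vs j x) atTop ∧ limsup (fun j => vs j x) atTop ≤ b := by
  have hev : ∀ᶠ j in atTop, a ≤ vs j x ∧ vs j x ≤ b := by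
    filter_upwards [hexh {x} isCompact_singleton (by simpa using hx)] with j hj
    exact hb j x ⟨hx, hj rfl⟩
  exact ⟨le_limsup_of_frequently_le (hev.mono fun j hj => hj.1).frequently
      (isBoundedUnder_of_eventually_le (hev.mono fun j hj => hj.2)),
    limsup_le_of_le (isBoundedUnder_of_eventually_ge
      (hev.mono fun j hj => hj.1)).isCoboundedUnder_le (hev.mono fun j hj => hj.2)⟩

/-- **`(limsup v_j)^*` on the manifold**, for bounded psh functions on exhausting domains. -/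
theorem CMfd.isPshOn_b5Reg_limsup
    (hexh : ∀ K : Set V, IsCompact K → K ⊆ 𝓜.carrier → ∀ᶠ j in atTop, K ⊆ Dom j)
    (hpsh : ∀ j, 𝓜.IsPshOn (Dom j) (vs j))
    (hb : ∀ j, ∀ x ∈ 𝓜.carrier ∩ Dom j, a ≤ vs j x ∧ vs j x ≤ b) :
    𝓜.IsPshOn Set.univ (b5Reg 𝓜.carrier fun x => limsup (fun j => vs j x) atTop) := by
  intro Φ U hΦ
  have hp := 𝓜.isParam hΦ
  refine pshOn_of_forall_nhds fun z hz => ?_
  obtain ⟨r, hr, hrU⟩ := Metric.nhds_basis_closedBall.mem_iff.1 (hp.isOpen.mem_nhds hz.1)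
  obtain ⟨h1, h2⟩ := b5_chart_eventually hexh hpsh hb hΦ hrU
  refine ⟨Metric.ball z r, Metric.ball_mem_nhds z hr, ?_⟩
  have h3 := pshOnE_b5Reg_limsup Metric.isOpen_ball h1 h2
  refine PshOnE.congr h3 fun y hy => ?_
  have hyU : y ∈ U := hrU (Metric.ball_subset_closedBall hy)
  have hmap : Filter.map Φ (𝓝[Metric.ball z r] y) = 𝓝[𝓜.carrier] (Φ y) := by
    rw [Metric.isOpen_ball.nhdsWithin_eq hy, hp.map_nhds_eq hyU]
  exact (b5Reg_comp (u := fun x => limsup (fun j => vs j x) atTop) hmap).symm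

/-- **Hartogs' lemma on the manifold.** -/
theorem CMfd.hartogs
    (hexh : ∀ K : Set V, IsCompact K → K ⊆ 𝓜.carrier → ∀ᶠ j in atTop, K ⊆ Dom j)
    (hpsh : ∀ j, 𝓜.IsPshOn (Dom j) (vs j))
    (hb : ∀ j, ∀ x ∈ 𝓜.carrier ∩ Dom j, a ≤ vs j x ∧ vs j x ≤ b)
    (hc : ∀ x ∈ 𝓜.carrier, limsup (fun j => vs j x) atTop ≤ c)
    {K : Set V} (hK : IsCompact K) (hKM : K ⊆ 𝓜.carrier) {η : ℝ} (hη : 0 < η) :
    ∀ᶠ j in atTop, ∀ x ∈ K, vs j x ≤ c + η := by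
  obtain ⟨m, Φ, r, hr, hΦ, hcov⟩ := 𝓜.exists_finite_cover hK hKM
  have hloc : ∀ i, ∀ᶠ j in atTop, ∀ y ∈ Metric.closedBall (0 : CE ι) (r i), vs j (Φ i y) ≤ c + η := by
    intro i
    have hB : Metric.closedBall (0 : CE ι) (3 / 2 * r i) ⊆ Metric.ball 0 (2 * r i) :=
      Metric.closedBall_subset_ball (by linarith [hr i])
    obtain ⟨h1, h2⟩ := b5_chart_eventually hexh hpsh hb (hΦ i) hB
    exact b5_hartogs Metric.isOpen_ball h1 h2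
      (fun y hy => hc _ (CMfd.mem_carrier (hΦ i) (hB (Metric.ball_subset_closedBall hy))))
      (isCompact_closedBall _ _) (Metric.closedBall_subset_ball (by linarith [hr i])) hη
  filter_upwards [eventually_all.2 hloc] with j hj x hx
  obtain ⟨i, y, hy, rfl⟩ := Set.mem_iUnion.1 (hcov hx)
  exact hj i y (Metric.ball_subset_closedBall hy)

/-- **Liouville ⟹ a bound near one point propagates to all compact sets.**  `hL` is `PshLiouville 𝓜` (`Top/S7.lean`) unfolded. -/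
theorem CMfd.eventually_le_of_liouville
    (hL : ∀ v : V → ℝ, 𝓜.IsPshOn Set.univ v → (∃ C : ℝ, ∀ x ∈ 𝓜.carrier, v x ≤ C) →
      ∃ c : ℝ, ∀ x ∈ 𝓜.carrier, v x = c)
    (hexh : ∀ K : Set V, IsCompact K → K ⊆ 𝓜.carrier → ∀ᶠ j in atTop, K ⊆ Dom j)
    (hpsh : ∀ j, 𝓜.IsPshOn (Dom j) (vs j))
    (hb : ∀ j, ∀ x ∈ 𝓜.carrier ∩ Dom j, a ≤ vs j x ∧ vs j x ≤ b)
    {o : V} (ho : o ∈ 𝓜.carrier)
    (hc : ∀ᶠ x in 𝓝[𝓜.carrier] o, limsup (fun j => vs j x) atTop ≤ c)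
    {K : Set V} (hK : IsCompact K) (hKM : K ⊆ 𝓜.carrier) {η : ℝ} (hη : 0 < η) :
    ∀ᶠ j in atTop, ∀ x ∈ K, vs j x ≤ c + η := by
  have hua : ∀ x ∈ 𝓜.carrier, a ≤ limsup (fun j => vs j x) atTop :=
    fun x hx => (b5_limsup_bounds hexh hb hx).1
  have hub : ∀ x ∈ 𝓜.carrier, limsup (fun j => vs j x) atTop ≤ b :=
    fun x hx => (b5_limsup_bounds hexh hb hx).2
  obtain ⟨c', hc'⟩ := hL _ (CMfd.isPshOn_b5Reg_limsup hexh hpsh hb)
    ⟨b, fun x hx => b5Reg_le hua hub hx⟩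
  have h1 : c' ≤ c := by
    rw [← hc' o ho]
    exact b5Reg_le_of_eventually hua ho hc
  refine CMfd.hartogs hexh hpsh hb (fun x hx => ?_) hK hKM hη
  exact (le_b5Reg hub hx).trans ((hc' x hx).le.trans h1)

end F2

end Claimed.Agent.R316
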