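import Claimed.Agent.R316.B5.Basic

/-!
# Row 316, package B5 (plurisubharmonic functions), file 2: integrability, ball averages, smoothing by convolution

Owner / sub-captain: helper4.  PAPER FREE.  Here `E = CE ι` with Lebesgue measure `volume`.

* `b5K w = Real.smoothTransition (1 - ‖w‖²)`: a smooth RADIAL kernel supported in the closed unit ball (Mathlib's `ContDiffBump` is not provably radial).
* `b5Moll ε v z = (∫ b5K)⁻¹ ∫ b5K w · v (z + ε w) dw`.
* `b5Shrink U ε = {z | closedBall z ε ⊆ U}`.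
NO monotonicity in `ε` is claimed or needed: the substitute is `b5Moll_lt_of_usc` (only upper semicontinuity) + `pshOnE_of_upper_approx`.

## Leaves

### B5-B1 (section `B1`, ~450 lines) measurability, integrability, weighted sub-mean value inequality
* `b5_measurable_indicator`: `{x | U.indicator v x < c} = (U ∩ {v < c}) ∪ (Uᶜ if 0 < c)`; `U ∩ {v < c}` is open (usc on an open set); `measurable_of_Iio`.
* `b5_measurePreserving_rot`: `w ↦ e^{iθ} w` is a linear isometry equivalence of `CE ι` (`LinearIsometryEquiv.measurePreserving`; build it from `smul` by a unit complex number, inverse `e^{-iθ}`).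
* `PshOn.mul_integral_le` and `PshOn.integrable_weighted`.  Let `C` be an upper bound of `v` on the compact `closedBall z r` (usc).  Work with `lintegral` of
  `F θ w = ENNReal.ofReal (ρ w * (C - U.indicator v (z + e^{iθ} w)))` (jointly measurable: measurable ∘ continuous).
  `I := ∫⁻ w, F 0 w = ∫⁻ w, F θ w` for every `θ` (rotation invariance of `volume` and of `ρ`).  Tonelli: `2π I = ∫⁻ w ∫⁻ θ∈[0,2π] F θ w`, and for `‖w‖ ≤ r`
  the inner integral is `ρ w (2π C - ∫ v (z + e^{iθ} w) dθ) ≤ 2π ρ w (C - v z)` by `PshOn.le_cav`, `PshOn.circle_integrable` (`b5Disc U z w` because `‖ζ w‖ ≤ r`).  So `I ≤ (C - v z) ∫ ρ < ∞`.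
  First do it for `ρ = indicator of closedBall 0 r` (gives `integrableOn_closedBall`), then the general integrability is "bounded measurable × integrable".
* compact sets: finite cover by closed balls inside `U`.

### B5-B2 (section `B2`, ~400 lines) the kernel; smoothness and elementary properties of `b5Moll`
* kernel facts: `Real.smoothTransition` API (`Real.smoothTransition.contDiff`, `.zero_of_nonpos`, `.pos_of_pos`, `.nonneg`, `.le_one`), `contDiff_norm_sq`.
* `isOpen_b5Shrink`: `ε < 0` trivial; else for `z₀` in it the compact `closedBall z₀ ε` has a `δ`-thickening inside `U` (`IsCompact.exists_cthickening_subset_open`), and `closedBall z ε ⊆ cthickening δ (closedBall z₀ ε)` for `dist z z₀ ≤ δ`.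
* `contDiffOn_b5Moll`: near `z₀ ∈ b5Shrink U ε` choose `δ` with `closedBall z₀ (ε + δ) ⊆ U`, `f := (closedBall z₀ (ε+δ)).indicator v` is integrable, and for `z ∈ ball z₀ δ`
  `∫ b5K w * v (z + ε w) dw = ε^{-2n} ∫ b5K ((y - z)/ε) f y dy` (`integral_comp_smul`/`Measure.integral_comp_smul`, translation) `= ε^{-2n} (f ⋆ (b5K (·/ε))) z` (kernel even); `HasCompactSupport.contDiff_convolution_right`.
* the rest: linearity and monotonicity of the integral; the integrand vanishes unless `‖w‖ < 1`, where `z + ε w ∈ closedBall z ε`.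
* `b5Moll_qf`: expand `qf A (x + ε w) = qf A x + ε (ℝ-linear in w) + ε² qf A w`; the linear term integrates to `0` against the even kernel (`integral_comp_neg` ⟹ `I = -I`).

### B5-B3 (section `B3`, ~450 lines) mollification of psh functions
* `PshOn.le_b5Moll`: `PshOn.mul_integral_le` with `ρ w = b5K (w/ε)` after the substitution, or directly the argument of B1 for the discs `(z, ε w)`.
* `PshOn.b5Moll_pshOn`: `b5Moll ε v` is continuous on `b5Shrink U ε` (B2); use `pshOnE_of_continuousOn_of_le_cav`.  For a disc `(z, w')` in `b5Shrink U ε` and `‖w‖ ≤ 1` the disc `(z + ε w, w')` lies in `U`.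
  Fubini (Tonelli for `b5K w * (C - v …) ≥ 0`, `C` an upper bound of `v` on the compact set `{z + ζ w' + ε w}`; finiteness because `θ ↦ b5Moll ε v (z + e^{iθ} w')` is continuous).
* `PshOn.levi_b5Moll`: `levi_posSemidef_of_pshOn` (CW/LeviSub).
* `b5Moll_lt_of_usc`: for `t₀ ∈ S` pick `η` with `v (γ t₀) + 2η < φ t₀`, then `δ` with `v < v (γ t₀) + η` on `ball (γ t₀) (2δ) ⊆ U` and a neighbourhood `N` of `t₀` in `S` with `γ t ∈ ball (γ t₀) δ`, `φ t > φ t₀ - η` on `N`; for `ε < δ`, `t ∈ N`:
  `b5Moll ε v (γ t) ≤ v (γ t₀) + η < φ t`.  Finite subcover.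
-/

set_option autoImplicit false
open scoped ContDiff ComplexOrder Topology ENNReal
open MeasureTheory Filter

namespace Claimed.Agent.R316

variable {ι : Type} [Fintype ι] {U : Set (CE ι)} {v v₁ v₂ : CE ι → ℝ} {z : CE ι} {r ε : ℝ}

/-! ### B1 -/
section B1


variable {ι : Type} [Fintype ι] {U : Set (CE ι)} {v v₁ v₂ : CE ι → ℝ} {z : CE ι} {r ε : ℝ}

theorem b5_measurable_indicator (hU : IsOpen U) (hv : UpperSemicontinuousOn v U) :
    Measurable (U.indicator v) := by
  refine measurable_of_Iio fun c => ?_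
  obtain ⟨O, hO, hOe⟩ := upperSemicontinuousOn_iff_preimage_Iio.1 hv c
  have e : U.indicator v ⁻¹' Set.Iio c = (U ∩ O) ∪ (Uᶜ ∩ {_x | (0 : ℝ) < c}) := by
    rw [← hOe]
    ext x
    by_cases hx : x ∈ U <;> simp [hx]
  rw [e]
  exact (hU.inter hO).measurableSet.union (hU.measurableSet.compl.inter (MeasurableSet.const _))

theorem b5_aestronglyMeasurable (hU : IsOpen U) (hv : UpperSemicontinuousOn v U) :
    AEStronglyMeasurable v (volume.restrict U) :=
  (aestronglyMeasurable_indicator_iff hU.measurableSet).1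
    (b5_measurable_indicator hU hv).aestronglyMeasurable

/-- rotation invariance of Lebesgue measure. -/
theorem b5_measurePreserving_rot (θ : ℝ) :
    MeasurePreserving (fun w : CE ι => lsE θ • w) volume volume := by
  have h1 : lsE (-θ) * lsE θ = 1 := by
    simp only [lsE]
    rw [← Complex.exp_add]
    simp
  have h2 : lsE θ * lsE (-θ) = 1 := by rw [mul_comm]; exact h1
  let f : CE ι ≃ₗᵢ[ℝ] CE ι :=
    { toFun := fun w => lsE θ • w
      invFun := fun w => lsE (-θ) • w
      map_add' := fun a b => smul_add _ a b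
      map_smul' := fun c w => smul_comm _ _ _
      left_inv := fun w => by simp only [smul_smul, h1, one_smul]
      right_inv := fun w => by simp only [smul_smul, h2, one_smul]
      norm_map' := fun w => by
        change ‖lsE θ • w‖ = ‖w‖
        rw [norm_smul, lsE_norm, one_mul] }
  exact f.measurePreserving

theorem b5_integrable_of_bdd_support {ρ : CE ι → ℝ} (hρm : Measurable ρ) (hρb : ∃ C : ℝ, ∀ w, |ρ w| ≤ C)
    (hρs : ∀ w, r < ‖w‖ → ρ w = 0) : Integrable ρ := by
  obtain ⟨C, hC⟩ := hρb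
  have hg : Integrable ((Metric.closedBall (0 : CE ι) r).indicator fun _ => C) :=
    (integrable_indicator_iff measurableSet_closedBall).2
      (integrableOn_const (isCompact_closedBall _ _).measure_lt_top.ne)
  refine hg.mono' hρm.aestronglyMeasurable (Eventually.of_forall fun w => ?_)
  by_cases hw : ‖w‖ ≤ r
  · rw [Set.indicator_of_mem (by simpa using hw)]
    exact hC w
  · rw [Set.indicator_of_notMem (by simpa using hw), hρs w (not_le.1 hw)]
    simp

theorem b5_weighted_core (hU : IsOpen U) (h : PshOn U v) (hB : Metric.closedBall z r ⊆ U)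
    {ρ : CE ι → ℝ} (hρm : Measurable ρ) (hρ0 : ∀ w, 0 ≤ ρ w) (hρb : ∃ C : ℝ, ∀ w, ρ w ≤ C)
    (hρs : ∀ w, r < ‖w‖ → ρ w = 0) (hρc : ∀ (θ : ℝ) (w : CE ι), ρ (lsE θ • w) = ρ w) :
    Integrable (fun w => ρ w * v (z + w)) ∧ v z * ∫ w, ρ w ≤ ∫ w, ρ w * v (z + w) := by
  have hpi : (0 : ℝ) < 2 * Real.pi := by positivity
  set V := U.indicator v with hV
  have hVm : Measurable V := b5_measurable_indicator hU h.1
  obtain ⟨C, hC⟩ : ∃ C, ∀ y ∈ Metric.closedBall z r, v y ≤ C := by
    obtain ⟨C, hC⟩ := (h.1.mono hB).bddAbove_of_isCompact (isCompact_closedBall z r)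
    exact ⟨C, fun y hy => hC ⟨y, hy, rfl⟩⟩
  have hmem : ∀ (ζ : ℂ) (w : CE ι), ‖ζ‖ ≤ 1 → ‖w‖ ≤ r → z + ζ • w ∈ Metric.closedBall z r := by
    intro ζ w hζ hw
    rw [mem_closedBall_iff_norm, add_sub_cancel_left, norm_smul]
    calc ‖ζ‖ * ‖w‖ ≤ 1 * ‖w‖ := mul_le_mul_of_nonneg_right hζ (norm_nonneg _)
      _ ≤ r := by rw [one_mul]; exact hw
  have hVv : ∀ (θ : ℝ) (w : CE ι), ‖w‖ ≤ r → V (z + lsE θ • w) = v (z + lsE θ • w) :=
    fun θ w hw => Set.indicator_of_mem (hB (hmem _ w (lsE_norm θ).le hw)) v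
  have hρi : Integrable ρ := by
    obtain ⟨Cρ, hCρ⟩ := hρb
    exact b5_integrable_of_bdd_support hρm ⟨Cρ, fun w => by rw [abs_of_nonneg (hρ0 w)]; exact hCρ w⟩ hρs
  let f : ℝ → CE ι → ℝ := fun θ w => ρ w * (C - V (z + lsE θ • w))
  have hf0 : ∀ θ w, 0 ≤ f θ w := by
    intro θ w
    by_cases hw : ‖w‖ ≤ r
    · refine mul_nonneg (hρ0 w) ?_
      rw [hVv θ w hw]
      linarith [hC _ (hmem _ w (lsE_norm θ).le hw)]
    · simp [f, hρs w (not_le.1 hw)]
  have hfm : Measurable (fun p : ℝ × CE ι => f p.1 p.2) := by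
    have hc : Continuous fun p : ℝ × CE ι => z + lsE p.1 • p.2 := by
      have := lsE_continuous
      fun_prop
    exact (hρm.comp measurable_snd).mul (measurable_const.sub (hVm.comp hc.measurable))
  have hfm0 : Measurable (f 0) := hfm.comp (measurable_const.prodMk measurable_id)
  set I : ℝ≥0∞ := ∫⁻ w, ENNReal.ofReal (f 0 w) with hI
  have hrot : ∀ θ, ∫⁻ w, ENNReal.ofReal (f θ w) = I := by
    intro θ
    have := (b5_measurePreserving_rot (ι := ι) θ).lintegral_comp
      (f := fun w => ENNReal.ofReal (f 0 w)) hfm0.ennreal_ofReal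
    rw [hI, ← this]
    refine lintegral_congr fun w => ?_
    simp only [f, hρc, lsE_zero, one_smul]
  have hCz : ∀ w : CE ι, 0 ≤ ρ w * (C - v z) := by
    intro w
    by_cases hw : ‖w‖ ≤ r
    · refine mul_nonneg (hρ0 w) ?_
      have := hC _ (hmem 0 w (by simp) hw)
      simp only [zero_smul, add_zero] at this
      linarith
    · simp [hρs w (not_le.1 hw)]
  have hinner : ∀ w, ∫⁻ θ in Set.Ioc 0 (2 * Real.pi), ENNReal.ofReal (f θ w) ≤
      ENNReal.ofReal (2 * Real.pi * (ρ w * (C - v z))) := by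
    intro w
    by_cases hw : ‖w‖ ≤ r
    · have hd : b5Disc U z w := fun ζ hζ => hB (hmem ζ w hζ hw)
      have i1 := h.circle_integrable hd
      have e1 : ∀ θ, f θ w = ρ w * (C - v (z + lsE θ • w)) := fun θ => by
        simp only [f, hVv θ w hw]
      have i2 : IntervalIntegrable (fun θ => f θ w) volume 0 (2 * Real.pi) := by
        simp only [e1]
        exact (((intervalIntegrable_const).sub i1).const_mul _)
      rw [← ofReal_integral_eq_lintegral_ofReal i2.1 (Eventually.of_forall fun θ => hf0 θ w)]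
      refine ENNReal.ofReal_le_ofReal ?_
      rw [← intervalIntegral.integral_of_le hpi.le]
      simp only [e1]
      rw [intervalIntegral.integral_const_mul, intervalIntegral.integral_sub intervalIntegrable_const i1,
        intervalIntegral.integral_const, sub_zero, smul_eq_mul]
      have h3 := h.le_cav hd
      rw [b5Cav, inv_mul_eq_div, le_div_iff₀ hpi] at h3
      have h4 : ρ w * (2 * Real.pi * C - ∫ θ in (0 : ℝ)..(2 * Real.pi), v (z + lsE θ • w)) ≤
          ρ w * (2 * Real.pi * C - v z * (2 * Real.pi)) :=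
        mul_le_mul_of_nonneg_left (by linarith) (hρ0 w)
      linarith
    · simp [f, hρs w (not_le.1 hw)]
  have hI2 : ENNReal.ofReal (2 * Real.pi) * I ≤
      ENNReal.ofReal (2 * Real.pi) * ENNReal.ofReal ((C - v z) * ∫ w, ρ w) := by
    calc ENNReal.ofReal (2 * Real.pi) * I
        = ∫⁻ _θ in Set.Ioc 0 (2 * Real.pi), I := by
          rw [lintegral_const, Measure.restrict_apply MeasurableSet.univ, Set.univ_inter,
            Real.volume_Ioc, sub_zero, mul_comm]
      _ = ∫⁻ θ in Set.Ioc 0 (2 * Real.pi), ∫⁻ w, ENNReal.ofReal (f θ w) := by simp only [hrot]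
      _ = ∫⁻ w, ∫⁻ θ in Set.Ioc 0 (2 * Real.pi), ENNReal.ofReal (f θ w) :=
          lintegral_lintegral_swap hfm.ennreal_ofReal.aemeasurable
      _ ≤ ∫⁻ w, ENNReal.ofReal (2 * Real.pi * (ρ w * (C - v z))) := lintegral_mono hinner
      _ = ENNReal.ofReal (∫ w, 2 * Real.pi * (ρ w * (C - v z))) :=
          (ofReal_integral_eq_lintegral_ofReal ((hρi.mul_const _).const_mul _)
            (Eventually.of_forall fun w => mul_nonneg hpi.le (hCz w))).symm
      _ = ENNReal.ofReal (2 * Real.pi) * ENNReal.ofReal ((C - v z) * ∫ w, ρ w) := by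
          rw [integral_const_mul, integral_mul_const, ENNReal.ofReal_mul hpi.le, mul_comm (C - v z)]
  have hI3 : I ≤ ENNReal.ofReal ((C - v z) * ∫ w, ρ w) :=
    (ENNReal.mul_le_mul_iff_right (by simpa using hpi) ENNReal.ofReal_ne_top).1 hI2
  have hfi : Integrable (f 0) :=
    ⟨hfm0.aestronglyMeasurable, (hasFiniteIntegral_iff_ofReal (Eventually.of_forall (hf0 0))).2
      (lt_of_le_of_lt hI3 ENNReal.ofReal_lt_top)⟩
  have hfint : ∫ w, f 0 w ≤ (C - v z) * ∫ w, ρ w := by
    rw [integral_eq_lintegral_of_nonneg_ae (Eventually.of_forall (hf0 0)) hfm0.aestronglyMeasurable]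
    refine ENNReal.toReal_le_of_le_ofReal ?_ hI3
    have : 0 ≤ ∫ w, ρ w * (C - v z) := integral_nonneg hCz
    rw [integral_mul_const] at this
    linarith
  have e2 : (fun w => ρ w * v (z + w)) = fun w => C * ρ w - f 0 w := by
    funext w
    by_cases hw : ‖w‖ ≤ r
    · have := hVv 0 w hw
      simp only [lsE_zero, one_smul] at this
      simp only [f, lsE_zero, one_smul, this]
      ring
    · simp [f, hρs w (not_le.1 hw)]
  rw [e2]
  refine ⟨(hρi.const_mul C).sub hfi, ?_⟩
  rw [integral_sub (hρi.const_mul C) hfi, integral_const_mul]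
  linarith

/-- the indicator weight of a ball. -/
theorem b5_ballWeight_mul (v : CE ι → ℝ) (z : CE ι) (r : ℝ) (w : CE ι) :
    (Metric.closedBall (0 : CE ι) r).indicator (fun _ => (1 : ℝ)) w * v (z + w) =
      (Metric.closedBall z r).indicator v (z + w) := by
  by_cases hw : ‖w‖ ≤ r
  · rw [Set.indicator_of_mem (by simpa using hw), Set.indicator_of_mem (by simpa using hw), one_mul]
  · rw [Set.indicator_of_notMem (by simpa using hw), Set.indicator_of_notMem (by simpa using hw),
      zero_mul]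

theorem b5_ballWeight_core (hU : IsOpen U) (h : PshOn U v) (hB : Metric.closedBall z r ⊆ U) :
    Integrable (fun w => (Metric.closedBall z r).indicator v (z + w)) ∧
      v z * ∫ w, (Metric.closedBall (0 : CE ι) r).indicator (fun _ => (1 : ℝ)) w ≤
        ∫ w, (Metric.closedBall z r).indicator v (z + w) := by
  have := b5_weighted_core hU h hB
    (ρ := (Metric.closedBall (0 : CE ι) r).indicator (fun _ => (1 : ℝ)))
    (measurable_const.indicator measurableSet_closedBall)
    (fun w => Set.indicator_nonneg (fun _ _ => zero_le_one) w)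
    ⟨1, fun w => Set.indicator_le' (fun _ _ => le_rfl) (fun _ _ => zero_le_one) w⟩
    (fun w hw => Set.indicator_of_notMem (by simpa using hw) _)
    (fun θ w => by
      have hn : ‖lsE θ • w‖ = ‖w‖ := by rw [norm_smul, lsE_norm, one_mul]
      by_cases hw : ‖w‖ ≤ r
      · rw [Set.indicator_of_mem (mem_closedBall_zero_iff.2 (hn.le.trans hw)),
          Set.indicator_of_mem (mem_closedBall_zero_iff.2 hw)]
      · rw [Set.indicator_of_notMem (fun hh => hw (hn.ge.trans (mem_closedBall_zero_iff.1 hh))),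
          Set.indicator_of_notMem (fun hh => hw (mem_closedBall_zero_iff.1 hh))])
  simpa only [b5_ballWeight_mul] using this

theorem PshOn.integrableOn_closedBall (hU : IsOpen U) (h : PshOn U v)
    (hB : Metric.closedBall z r ⊆ U) : IntegrableOn v (Metric.closedBall z r) := by
  rw [← integrable_indicator_iff measurableSet_closedBall]
  have := (b5_ballWeight_core hU h hB).1.comp_add_left (-z)
  simpa using this

theorem PshOn.integrableOn_of_isCompact (hU : IsOpen U) (h : PshOn U v) {K : Set (CE ι)}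
    (hK : IsCompact K) (hKU : K ⊆ U) : IntegrableOn v K := by
  refine hK.induction_on (p := fun A => IntegrableOn v A volume) integrableOn_empty
    (fun A B hAB hB => hB.mono_set hAB) (fun A B hA hB => hA.union hB) fun x hx => ?_
  obtain ⟨r, hr, hrU⟩ := Metric.nhds_basis_closedBall.mem_iff.1 (hU.mem_nhds (hKU hx))
  exact ⟨Metric.closedBall x r, mem_nhdsWithin_of_mem_nhds (Metric.closedBall_mem_nhds x hr),
    h.integrableOn_closedBall hU hrU⟩

theorem PshOn.locallyIntegrableOn (hU : IsOpen U) (h : PshOn U v) : LocallyIntegrableOn v U :=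
  (locallyIntegrableOn_iff hU.isLocallyClosed).2 fun _ hKU hK => h.integrableOn_of_isCompact hU hK hKU

theorem PshOn.integrable_weighted (hU : IsOpen U) (h : PshOn U v) (hB : Metric.closedBall z r ⊆ U)
    {ρ : CE ι → ℝ} (hρm : Measurable ρ) (hρb : ∃ C : ℝ, ∀ w, |ρ w| ≤ C) (hρs : ∀ w, r < ‖w‖ → ρ w = 0) :
    Integrable fun w => ρ w * v (z + w) := by
  obtain ⟨C, hC⟩ := hρb
  have h1 := (b5_ballWeight_core hU h hB).1.bdd_mul (c := C) hρm.aestronglyMeasurable
    (Eventually.of_forall fun w => by rw [Real.norm_eq_abs]; exact hC w)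
  refine h1.congr (Eventually.of_forall fun w => ?_)
  by_cases hw : ‖w‖ ≤ r
  · simp only
    rw [Set.indicator_of_mem (by simpa using hw)]
  · simp [hρs w (not_le.1 hw)]

/-- **weighted sub-mean value inequality** for circle invariant weights. -/
theorem PshOn.mul_integral_le (hU : IsOpen U) (h : PshOn U v) (hB : Metric.closedBall z r ⊆ U)
    {ρ : CE ι → ℝ} (hρm : Measurable ρ) (hρ0 : ∀ w, 0 ≤ ρ w) (hρb : ∃ C : ℝ, ∀ w, ρ w ≤ C)
    (hρs : ∀ w, r < ‖w‖ → ρ w = 0) (hρc : ∀ (θ : ℝ) (w : CE ι), ρ (lsE θ • w) = ρ w) :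
    v z * ∫ w, ρ w ≤ ∫ w, ρ w * v (z + w) :=
  (b5_weighted_core hU h hB hρm hρ0 hρb hρs hρc).2

/-- sub-mean value inequality on balls. -/
theorem PshOn.le_average_closedBall (hU : IsOpen U) (h : PshOn U v) (hr : 0 < r)
    (hB : Metric.closedBall z r ⊆ U) : v z ≤ ⨍ y in Metric.closedBall z r, v y := by
  have h1 := (b5_ballWeight_core hU h hB).2
  rw [integral_add_left_eq_self (fun y => (Metric.closedBall z r).indicator v y) z,
    integral_indicator measurableSet_closedBall, integral_indicator measurableSet_closedBall,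
    setIntegral_const, smul_eq_mul, mul_one] at h1
  have h2 : (volume : Measure (CE ι)).real (Metric.closedBall z r) =
      (volume : Measure (CE ι)).real (Metric.closedBall 0 r) := by
    simp only [Measure.real, Measure.addHaar_closedBall_center]
  have h3 : 0 < (volume : Measure (CE ι)).real (Metric.closedBall 0 r) :=
    ENNReal.toReal_pos (Metric.measure_closedBall_pos _ _ hr).ne'
      (isCompact_closedBall _ _).measure_lt_top.ne
  rw [setAverage_eq, h2, smul_eq_mul, inv_mul_eq_div, le_div_iff₀ h3]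
  exact h1

end B1

/-! ### B2 -/

/-- the radial kernel. -/
noncomputable def b5K (w : CE ι) : ℝ := Real.smoothTransition (1 - ‖w‖ ^ 2)

/-- mollification. -/
noncomputable def b5Moll (ε : ℝ) (v : CE ι → ℝ) (z : CE ι) : ℝ :=
  (∫ w : CE ι, b5K w)⁻¹ * ∫ w : CE ι, b5K w * v (z + ε • w)

/-- the points whose closed `ε`-ball lies in `U`. -/
def b5Shrink (U : Set (CE ι)) (ε : ℝ) : Set (CE ι) := {z | Metric.closedBall z ε ⊆ U}

section B2

theorem b5K_contDiff : ContDiff ℝ ∞ (b5K : CE ι → ℝ) := by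
  exact Real.smoothTransition.contDiff.comp (contDiff_const.sub (contDiff_norm_sq ℂ))

theorem b5K_nonneg (w : CE ι) : 0 ≤ b5K w := by
  exact Real.smoothTransition.nonneg _

theorem b5K_le_one (w : CE ι) : b5K w ≤ 1 := by
  exact Real.smoothTransition.le_one _

theorem b5K_eq_zero {w : CE ι} (h : 1 ≤ ‖w‖) : b5K w = 0 := by
  exact Real.smoothTransition.zero_of_nonpos (by nlinarith)

theorem b5K_pos {w : CE ι} (h : ‖w‖ < 1) : 0 < b5K w := by
  exact Real.smoothTransition.pos_of_pos (by nlinarith [norm_nonneg w])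

theorem b5K_eq_of_norm_eq {w w' : CE ι} (h : ‖w‖ = ‖w'‖) : b5K w = b5K w' := by
  unfold b5K
  rw [h]

theorem b5K_rot (θ : ℝ) (w : CE ι) : b5K (lsE θ • w) = b5K w := by
  exact b5K_eq_of_norm_eq (by rw [norm_smul, lsE_norm, one_mul])

theorem b5K_neg (w : CE ι) : b5K (-w) = b5K w := by
  exact b5K_eq_of_norm_eq (norm_neg w)

theorem b5K_hasCompactSupport : HasCompactSupport (b5K : CE ι → ℝ) := by
  refine HasCompactSupport.intro (isCompact_closedBall (0 : CE ι) 1) fun w hw => ?_
  rw [Metric.mem_closedBall, dist_zero_right, not_le] at hw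
  exact b5K_eq_zero hw.le

theorem b5K_integrable : Integrable (b5K : CE ι → ℝ) := by
  exact b5K_contDiff.continuous.integrable_of_hasCompactSupport b5K_hasCompactSupport

theorem b5K_integral_pos : 0 < ∫ w : CE ι, b5K w := by
  refine b5K_contDiff.continuous.integral_pos_of_hasCompactSupport_nonneg_nonzero (x := 0)
    b5K_hasCompactSupport b5K_nonneg ?_
  exact (b5K_pos (by simp)).ne'

theorem isOpen_b5Shrink (hU : IsOpen U) (ε : ℝ) : IsOpen (b5Shrink U ε) := by
  rw [Metric.isOpen_iff]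
  intro z₀ hz₀
  obtain ⟨δ, hδ, hsub⟩ := (isCompact_closedBall z₀ ε).exists_cthickening_subset_open hU hz₀
  refine ⟨δ, hδ, fun z hz y hy => hsub ?_⟩
  refine Metric.mem_cthickening_of_dist_le y (y - z + z₀) δ _ ?_ ?_
  · rw [mem_closedBall_iff_norm, add_sub_cancel_right, ← mem_closedBall_iff_norm]
    exact hy
  · rw [dist_eq_norm]
    have : y - (y - z + z₀) = z - z₀ := by abel
    rw [this, ← dist_eq_norm]
    exact (Metric.mem_ball.1 hz).le

theorem b5Shrink_subset (hε : 0 ≤ ε) : b5Shrink U ε ⊆ U := by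
  exact fun z hz => hz (Metric.mem_closedBall_self hε)

theorem b5Shrink_anti {ε' : ℝ} (h : ε ≤ ε') : b5Shrink U ε' ⊆ b5Shrink U ε := by
  exact fun z hz => (Metric.closedBall_subset_closedBall h).trans hz

theorem b5_exists_subset_shrink (hU : IsOpen U) {K : Set (CE ι)} (hK : IsCompact K) (hKU : K ⊆ U) :
    ∃ ε₀ : ℝ, 0 < ε₀ ∧ ∀ ε : ℝ, ε < ε₀ → K ⊆ b5Shrink U ε := by
  obtain ⟨δ, hδ, hsub⟩ := hK.exists_cthickening_subset_open hU hKU
  refine ⟨δ, hδ, fun ε hε z hz y hy => hsub ?_⟩
  exact Metric.mem_cthickening_of_dist_le y z δ _ hz ((Metric.mem_closedBall.1 hy).trans hε.le)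

theorem b5_mem_closedBall (hε : 0 ≤ ε) (z : CE ι) {w : CE ι} (hw : ‖w‖ ≤ 1) :
    z + ε • w ∈ Metric.closedBall z ε := by
  rw [mem_closedBall_iff_norm, add_sub_cancel_left, norm_smul, Real.norm_of_nonneg hε]
  calc ε * ‖w‖ ≤ ε * 1 := by gcongr
    _ = ε := mul_one _

/-- the integrand only sees the values of `v` on the closed ball. -/
theorem b5K_mul_congr (hε : 0 ≤ ε) (h : Set.EqOn v₁ v₂ (Metric.closedBall z ε)) (w : CE ι) :
    b5K w * v₁ (z + ε • w) = b5K w * v₂ (z + ε • w) := by
  by_cases hw : ‖w‖ ≤ 1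
  · rw [h (b5_mem_closedBall hε z hw)]
  · rw [b5K_eq_zero (not_le.1 hw).le, zero_mul, zero_mul]

theorem b5_integrable_of_integrableOn (hε : 0 < ε) (hv : IntegrableOn v (Metric.closedBall z ε)) :
    Integrable fun w : CE ι => b5K w * v (z + ε • w) := by
  have h1 : Integrable ((Metric.closedBall z ε).indicator v) :=
    (integrable_indicator_iff measurableSet_closedBall).2 hv
  have h2 : Integrable fun w : CE ι => (Metric.closedBall z ε).indicator v (z + ε • w) :=
    (h1.comp_add_left z).comp_smul hε.ne'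
  have h3 := h2.bdd_mul (c := 1) b5K_contDiff.continuous.aestronglyMeasurable
    (Eventually.of_forall fun w => by rw [Real.norm_of_nonneg (b5K_nonneg w)]; exact b5K_le_one w)
  refine h3.congr (Eventually.of_forall fun w => ?_)
  exact b5K_mul_congr hε.le (fun y hy => Set.indicator_of_mem hy v) w

/-- integrability of the integrand. -/
theorem b5Moll_integrable (hU : IsOpen U) (hv : LocallyIntegrableOn v U) (hε : 0 < ε)
    (hz : z ∈ b5Shrink U ε) : Integrable fun w : CE ι => b5K w * v (z + ε • w) := by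
  exact b5_integrable_of_integrableOn hε (hv.integrableOn_compact_subset hz (isCompact_closedBall z ε))

/-- change of variables `y = z + ε w`. -/
theorem b5_integral_subst (hε : 0 < ε) (f : CE ι → ℝ) (z : CE ι) :
    ∫ w : CE ι, b5K w * f (z + ε • w)
      = |(ε ^ Module.finrank ℝ (CE ι))⁻¹| * ∫ y : CE ι, f y * b5K (ε⁻¹ • (z - y)) := by
  set F : CE ι → ℝ := fun y => f y * b5K (ε⁻¹ • (z - y)) with hF
  have e1 : ∀ w : CE ι, b5K w * f (z + ε • w) = F (z + ε • w) := by
    intro w
    simp only [hF]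
    have : ε⁻¹ • (z - (z + ε • w)) = -w := by
      rw [sub_add_cancel_left, smul_neg, smul_smul, inv_mul_cancel₀ hε.ne', one_smul]
    rw [this, b5K_neg, mul_comm]
  simp_rw [e1]
  have h1 := Measure.integral_comp_smul (volume : Measure (CE ι)) (fun x => F (z + x)) ε
  rw [h1, integral_add_left_eq_self F z, smul_eq_mul]

/-- **smoothness.** -/
theorem contDiffOn_b5Moll (hU : IsOpen U) (hv : LocallyIntegrableOn v U) (hε : 0 < ε) :
    ContDiffOn ℝ ∞ (b5Moll ε v) (b5Shrink U ε) := by
  intro z₀ hz₀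
  refine ContDiffAt.contDiffWithinAt ?_
  obtain ⟨δ, hδ, hsub⟩ := (isCompact_closedBall z₀ ε).exists_cthickening_subset_open hU hz₀
  set K : Set (CE ι) := Metric.cthickening δ (Metric.closedBall z₀ ε) with hK
  have hKc : IsCompact K := (isCompact_closedBall z₀ ε).cthickening
  set f : CE ι → ℝ := K.indicator v with hf
  have hfi : Integrable f :=
    (integrable_indicator_iff hKc.measurableSet).2 (hv.integrableOn_compact_subset hsub hKc)
  set g : CE ι → ℝ := fun x => b5K (ε⁻¹ • x) with hg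
  have hgs : ContDiff ℝ ∞ g := b5K_contDiff.comp (contDiff_id.const_smul ε⁻¹)
  have hgc : HasCompactSupport g := by
    refine HasCompactSupport.intro (isCompact_closedBall (0 : CE ι) ε) fun x hx => ?_
    rw [Metric.mem_closedBall, dist_zero_right, not_le] at hx
    refine b5K_eq_zero ?_
    rw [norm_smul, Real.norm_of_nonneg (inv_nonneg.2 hε.le), ← div_eq_inv_mul, one_le_div hε]
    exact hx.le
  have hconv : ContDiff ℝ ∞ (convolution f g (ContinuousLinearMap.mul ℝ ℝ) volume) :=
    hgc.contDiff_convolution_right _ hfi.locallyIntegrable hgs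
  have heq : b5Moll ε v =ᶠ[𝓝 z₀] fun z => (∫ w : CE ι, b5K w)⁻¹ *
      (|(ε ^ Module.finrank ℝ (CE ι))⁻¹| * convolution f g (ContinuousLinearMap.mul ℝ ℝ) volume z) := by
    filter_upwards [Metric.ball_mem_nhds z₀ hδ] with z hz
    have hzK : Metric.closedBall z ε ⊆ K := by
      intro y hy
      refine Metric.mem_cthickening_of_dist_le y (y - z + z₀) δ _ ?_ ?_
      · rw [mem_closedBall_iff_norm, add_sub_cancel_right, ← mem_closedBall_iff_norm]
        exact hy
      · rw [dist_eq_norm]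
        have : y - (y - z + z₀) = z - z₀ := by abel
        rw [this, ← dist_eq_norm]
        exact (Metric.mem_ball.1 hz).le
    have e1 : b5Moll ε v z = b5Moll ε f z := by
      unfold b5Moll
      congr 1
      exact integral_congr_ae (Eventually.of_forall fun w =>
        b5K_mul_congr hε.le (fun y hy => (Set.indicator_of_mem (hzK hy) v).symm) w)
    rw [e1]
    unfold b5Moll
    rw [b5_integral_subst hε f z]
    rfl
  exact (contDiffAt_const.mul (contDiffAt_const.mul hconv.contDiffAt)).congr_of_eventuallyEq heq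

theorem b5Moll_congr (hε : 0 ≤ ε) (h : Set.EqOn v₁ v₂ (Metric.closedBall z ε)) :
    b5Moll ε v₁ z = b5Moll ε v₂ z := by
  unfold b5Moll
  congr 1
  exact integral_congr_ae (Eventually.of_forall fun w => b5K_mul_congr hε h w)

theorem b5Moll_const (ε c : ℝ) (z : CE ι) : b5Moll ε (fun _ => c) z = c := by
  unfold b5Moll
  rw [integral_mul_const, ← mul_assoc, inv_mul_cancel₀ b5K_integral_pos.ne', one_mul]

theorem b5Moll_const_mul (ε c : ℝ) (v : CE ι → ℝ) (z : CE ι) :
    b5Moll ε (fun y => c * v y) z = c * b5Moll ε v z := by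
  unfold b5Moll
  have : ∀ w : CE ι, b5K w * (c * v (z + ε • w)) = c * (b5K w * v (z + ε • w)) := fun w => by ring
  simp_rw [this]
  rw [integral_const_mul]
  ring

theorem b5Moll_add (hU : IsOpen U) (h₁ : LocallyIntegrableOn v₁ U) (h₂ : LocallyIntegrableOn v₂ U)
    (hε : 0 < ε) (hz : z ∈ b5Shrink U ε) :
    b5Moll ε (fun y => v₁ y + v₂ y) z = b5Moll ε v₁ z + b5Moll ε v₂ z := by
  unfold b5Moll
  simp_rw [mul_add]
  rw [integral_add (b5Moll_integrable hU h₁ hε hz) (b5Moll_integrable hU h₂ hε hz), mul_add]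

theorem b5Moll_sub (hU : IsOpen U) (h₁ : LocallyIntegrableOn v₁ U) (h₂ : LocallyIntegrableOn v₂ U)
    (hε : 0 < ε) (hz : z ∈ b5Shrink U ε) :
    b5Moll ε (fun y => v₁ y - v₂ y) z = b5Moll ε v₁ z - b5Moll ε v₂ z := by
  unfold b5Moll
  simp_rw [mul_sub]
  rw [integral_sub (b5Moll_integrable hU h₁ hε hz) (b5Moll_integrable hU h₂ hε hz), mul_sub]

theorem b5Moll_mono (hU : IsOpen U) (h₁ : LocallyIntegrableOn v₁ U) (h₂ : LocallyIntegrableOn v₂ U)
    (hε : 0 < ε) (hz : z ∈ b5Shrink U ε) (hle : ∀ y ∈ Metric.closedBall z ε, v₁ y ≤ v₂ y) :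
    b5Moll ε v₁ z ≤ b5Moll ε v₂ z := by
  unfold b5Moll
  refine mul_le_mul_of_nonneg_left ?_ (inv_nonneg.2 b5K_integral_pos.le)
  refine integral_mono (b5Moll_integrable hU h₁ hε hz) (b5Moll_integrable hU h₂ hε hz) fun w => ?_
  by_cases hw : ‖w‖ ≤ 1
  · exact mul_le_mul_of_nonneg_left (hle _ (b5_mem_closedBall hε.le z hw)) (b5K_nonneg w)
  · simp only [b5K_eq_zero (not_le.1 hw).le, zero_mul, le_refl]

theorem b5Moll_le_of_le (hU : IsOpen U) (hv : LocallyIntegrableOn v U) (hε : 0 < ε)
    (hz : z ∈ b5Shrink U ε) {C : ℝ} (hle : ∀ y ∈ Metric.closedBall z ε, v y ≤ C) : b5Moll ε v z ≤ C := by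
  have := b5Moll_mono hU hv (locallyIntegrableOn_const C) hε hz hle
  rwa [b5Moll_const] at this

theorem b5Moll_ge_of_ge (hU : IsOpen U) (hv : LocallyIntegrableOn v U) (hε : 0 < ε)
    (hz : z ∈ b5Shrink U ε) {C : ℝ} (hle : ∀ y ∈ Metric.closedBall z ε, C ≤ v y) : C ≤ b5Moll ε v z := by
  have := b5Moll_mono hU (locallyIntegrableOn_const C) hv hε hz hle
  rwa [b5Moll_const] at this

/-- Lipschitz bounds are preserved. -/
theorem b5Moll_lipschitz (hU : IsOpen U) (hv : ContinuousOn v U) (hε : 0 < ε) {L : ℝ} {z' : CE ι}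
    (hz : z ∈ b5Shrink U ε) (hz' : z' ∈ b5Shrink U ε)
    (hL : ∀ w : CE ι, ‖w‖ ≤ ε → |v (z + w) - v (z' + w)| ≤ L) : |b5Moll ε v z - b5Moll ε v z'| ≤ L := by
  have hvi : LocallyIntegrableOn v U := hv.locallyIntegrableOn hU.measurableSet
  have i1 := b5Moll_integrable hU hvi hε hz
  have i2 := b5Moll_integrable hU hvi hε hz'
  have hc := b5K_integral_pos (ι := ι)
  unfold b5Moll
  rw [← mul_sub, ← integral_sub i1 i2, abs_mul, abs_of_pos (inv_pos.2 hc), inv_mul_le_iff₀ hc,
    ← integral_mul_const, ← Real.norm_eq_abs]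
  refine norm_integral_le_of_norm_le (b5K_integrable.mul_const L) (Eventually.of_forall fun w => ?_)
  rw [← mul_sub, norm_mul, Real.norm_of_nonneg (b5K_nonneg w), Real.norm_eq_abs]
  by_cases hw : ‖w‖ ≤ 1
  · refine mul_le_mul_of_nonneg_left (hL _ ?_) (b5K_nonneg w)
    rw [norm_smul, Real.norm_of_nonneg hε.le]
    calc ε * ‖w‖ ≤ ε * 1 := by gcongr
      _ = ε := mul_one _
  · simp only [b5K_eq_zero (not_le.1 hw).le, zero_mul, le_refl]

/-- continuous functions: uniform convergence on compact sets. -/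
theorem b5Moll_sub_le_of_continuousOn (hU : IsOpen U) (hv : ContinuousOn v U) {K : Set (CE ι)}
    (hK : IsCompact K) (hKU : K ⊆ U) {η : ℝ} (hη : 0 < η) :
    ∃ ε₀ : ℝ, 0 < ε₀ ∧ ∀ ε : ℝ, 0 < ε → ε < ε₀ → ∀ y ∈ K, y ∈ b5Shrink U ε ∧ |b5Moll ε v y - v y| ≤ η := by
  have hvi : LocallyIntegrableOn v U := hv.locallyIntegrableOn hU.measurableSet
  obtain ⟨δ, hδ, hsub⟩ := hK.exists_cthickening_subset_open hU hKU
  have hKc : IsCompact (Metric.cthickening δ K) := hK.cthickening
  have huc := hKc.uniformContinuousOn_of_continuous (hv.mono hsub)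
  rw [Metric.uniformContinuousOn_iff] at huc
  obtain ⟨δ', hδ', H⟩ := huc η hη
  refine ⟨min δ δ', lt_min hδ hδ', fun ε hε hε' y hy => ?_⟩
  have hmem : ∀ y' ∈ Metric.closedBall y ε, y' ∈ Metric.cthickening δ K := fun y' hy' =>
    Metric.mem_cthickening_of_dist_le y' y δ _ hy
      ((Metric.mem_closedBall.1 hy').trans (hε'.le.trans (min_le_left _ _)))
  have hsh : y ∈ b5Shrink U ε := fun y' hy' => hsub (hmem y' hy')
  have hclose : ∀ y' ∈ Metric.closedBall y ε, |v y' - v y| < η := by
    intro y' hy'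
    have := H y' (hmem y' hy') y (hmem y (Metric.mem_closedBall_self hε.le))
      ((Metric.mem_closedBall.1 hy').trans_lt (hε'.trans_le (min_le_right _ _)))
    rwa [Real.dist_eq] at this
  refine ⟨hsh, abs_le.2 ⟨?_, ?_⟩⟩
  · have := b5Moll_ge_of_ge hU hvi hε hsh (C := v y - η)
      (fun y' hy' => by linarith [(abs_lt.1 (hclose y' hy')).1])
    linarith
  · have := b5Moll_le_of_le hU hvi hε hsh (C := v y + η)
      (fun y' hy' => by linarith [(abs_lt.1 (hclose y' hy')).2])
    linarith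

theorem b5_qf_expand (A : Matrix ι ι ℂ) (x w : ι → ℂ) (t : ℝ) :
    qf A (x + (t : ℂ) • w) = qf A x + t * ((star x ⬝ᵥ A.mulVec w).re + (star w ⬝ᵥ A.mulVec x).re)
      + t ^ 2 * qf A w := by
  unfold qf
  simp only [star_add, star_smul, Matrix.mulVec_add, Matrix.mulVec_smul, add_dotProduct, dotProduct_add,
    smul_dotProduct, dotProduct_smul, Complex.add_re, smul_eq_mul, Complex.star_def, Complex.conj_ofReal,
    Complex.re_ofReal_mul]
  ring

theorem b5_continuous_bil (A : Matrix ι ι ℂ) {f g : CE ι → ι → ℂ} (hf : Continuous f) (hg : Continuous g) :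
    Continuous fun w : CE ι => (star (f w) ⬝ᵥ A.mulVec (g w)).re := by
  refine Complex.continuous_re.comp ?_
  unfold dotProduct Matrix.mulVec dotProduct
  refine continuous_finsetSum _ fun i _ => ?_
  refine Continuous.mul ?_ ?_
  · have : Continuous fun w => f w i := (continuous_apply i).comp hf
    exact Complex.continuous_conj.comp this
  · refine continuous_finsetSum _ fun j _ => continuous_const.mul ((continuous_apply j).comp hg)

/-- mollification of a quadratic form: only a constant is added. -/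
theorem b5Moll_qf [DecidableEq ι] (A : Matrix ι ι ℂ) (a : CE ι) (ε : ℝ) (z : CE ι) :
    b5Moll ε (fun y : CE ι => qf A fun j => (y - a) j) z =
      qf A (fun j => (z - a) j) + ε ^ 2 * b5Moll 1 (fun y : CE ι => qf A fun j => y j) 0 := by
  set x : ι → ℂ := fun j => (z - a) j with hx
  have hid : Continuous fun w : CE ι => (fun j => w j : ι → ℂ) :=
    continuous_pi fun j => (PiLp.continuous_apply 2 _ j)
  set ℓ : CE ι → ℝ := fun w => (star x ⬝ᵥ A.mulVec (fun j => w j)).re + (star (fun j => w j) ⬝ᵥ A.mulVec x).re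
    with hℓ
  have hℓc : Continuous ℓ := (b5_continuous_bil A continuous_const hid).add (b5_continuous_bil A hid continuous_const)
  have hqc : Continuous fun w : CE ι => qf A fun j => w j := b5_continuous_bil A hid hid
  have e1 : ∀ w : CE ι, b5K w * qf A (fun j => (z + ε • w - a) j)
      = b5K w * qf A x + (ε * (b5K w * ℓ w) + ε ^ 2 * (b5K w * qf A fun j => w j)) := by
    intro w
    have : (fun j => (z + ε • w - a) j) = x + (ε : ℂ) • (fun j => w j) := by
      funext j
      simp only [hx, PiLp.sub_apply, PiLp.add_apply, PiLp.smul_apply, Pi.add_apply, Pi.smul_apply,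
        smul_eq_mul, Complex.real_smul]
      ring
    rw [this, b5_qf_expand]
    simp only [hℓ]
    ring
  have i1 : Integrable fun w : CE ι => b5K w * ℓ w :=
    (b5K_contDiff.continuous.mul hℓc).integrable_of_hasCompactSupport b5K_hasCompactSupport.mul_right
  have i2 : Integrable fun w : CE ι => b5K w * qf A fun j => w j :=
    (b5K_contDiff.continuous.mul hqc).integrable_of_hasCompactSupport b5K_hasCompactSupport.mul_right
  have hodd : ∫ w : CE ι, b5K w * ℓ w = 0 := by
    have h1 := integral_neg_eq_self (fun w : CE ι => b5K w * ℓ w) volume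
    have h2 : ∀ w : CE ι, b5K (-w) * ℓ (-w) = -(b5K w * ℓ w) := by
      intro w
      have e : (fun j => (-w) j : ι → ℂ) = -(fun j => w j) := by
        funext j
        simp
      simp only [hℓ, b5K_neg, e, Matrix.mulVec_neg, dotProduct_neg, star_neg, neg_dotProduct, Complex.neg_re]
      ring
    simp_rw [h2] at h1
    rw [integral_neg] at h1
    linarith
  unfold b5Moll
  simp_rw [e1]
  have j1 : Integrable fun w : CE ι => ε * (b5K w * ℓ w) := i1.const_mul _
  have j2 : Integrable fun w : CE ι => ε ^ 2 * (b5K w * qf A fun j => w j) := i2.const_mul _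
  have j3 : Integrable fun w : CE ι => ε * (b5K w * ℓ w) + ε ^ 2 * (b5K w * qf A fun j => w j) := j1.add j2
  rw [integral_add (b5K_integrable.mul_const _) j3,
    integral_add j1 j2, integral_mul_const, integral_const_mul, integral_const_mul,
    hodd]
  simp only [zero_add, one_smul, mul_zero]
  have hc := (b5K_integral_pos (ι := ι)).ne'
  field_simp

end B2

/-! ### B3 -/
section B3

theorem PshOn.le_b5Moll (hU : IsOpen U) (h : PshOn U v) (hε : 0 < ε) (hz : z ∈ b5Shrink U ε) :
    v z ≤ b5Moll ε v z := by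
  set L : CE ι →L[ℂ] CE ι := (ε : ℂ) • ContinuousLinearMap.id ℂ (CE ι) with hL'
  have hL : ∀ y, L y = ε • y := fun y => by
    simp only [hL', ContinuousLinearMap.smul_apply, ContinuousLinearMap.id_apply]
    exact Complex.coe_smul ε y
  have h1 : PshOn {y | z + L y ∈ U} (fun y => v (z + L y)) := PshOnE.comp_affine h L z
  have hO : IsOpen {y : CE ι | z + L y ∈ U} := hU.preimage (by fun_prop)
  have hB : Metric.closedBall (0 : CE ι) 1 ⊆ {y | z + L y ∈ U} := fun y hy =>
    hz (by rw [hL]; exact b5_mem_closedBall hε.le z (by simpa using hy))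
  have h2 := h1.mul_integral_le hO hB (ρ := b5K) b5K_contDiff.continuous.measurable b5K_nonneg
    ⟨1, b5K_le_one⟩ (fun w hw => b5K_eq_zero hw.le) b5K_rot
  simp only [zero_add, hL, smul_zero, add_zero] at h2
  unfold b5Moll
  rw [le_inv_mul_iff₀ b5K_integral_pos]
  linarith

theorem b5_moll_le_cav (hU : IsOpen U) (h : PshOn U v) (hε : 0 < ε) {w' : CE ι}
    (hd : b5Disc (b5Shrink U ε) z w') : b5Moll ε v z ≤ b5Cav (b5Moll ε v) z w' := by
  have hpi : (0 : ℝ) < 2 * Real.pi := by positivity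
  have hvi := h.locallyIntegrableOn hU
  have hcont : ContinuousOn (b5Moll ε v) (b5Shrink U ε) := (contDiffOn_b5Moll hU hvi hε).continuousOn
  set c : ℝ := ∫ w : CE ι, b5K w with hc
  have hc0 : 0 < c := b5K_integral_pos
  set V := U.indicator v with hV
  have hVm : Measurable V := b5_measurable_indicator hU h.1
  have hmem : ∀ (ζ : ℂ) (w : CE ι), ‖ζ‖ ≤ 1 → ‖w‖ ≤ 1 → z + ζ • w' + ε • w ∈ U :=
    fun ζ w hζ hw => hd ζ hζ (b5_mem_closedBall hε.le _ hw)
  obtain ⟨C, hC⟩ : ∃ C, ∀ (ζ : ℂ) (w : CE ι), ‖ζ‖ ≤ 1 → ‖w‖ ≤ 1 → v (z + ζ • w' + ε • w) ≤ C := by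
    have hK : IsCompact ((fun p : ℂ × CE ι => z + p.1 • w' + ε • p.2) ''
        (Metric.closedBall 0 1 ×ˢ Metric.closedBall 0 1)) :=
      ((isCompact_closedBall 0 1).prod (isCompact_closedBall 0 1)).image (by fun_prop)
    have hsub : ((fun p : ℂ × CE ι => z + p.1 • w' + ε • p.2) ''
        (Metric.closedBall 0 1 ×ˢ Metric.closedBall 0 1)) ⊆ U := by
      rintro _ ⟨p, ⟨h1, h2⟩, rfl⟩
      exact hmem _ _ (by simpa using h1) (by simpa using h2)
    obtain ⟨C, hC⟩ := (h.1.mono hsub).bddAbove_of_isCompact hK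
    exact ⟨C, fun ζ w hζ hw => hC ⟨_, ⟨(ζ, w), ⟨by simpa using hζ, by simpa using hw⟩, rfl⟩, rfl⟩⟩
  let f : ℝ → CE ι → ℝ := fun θ w => b5K w * (C - V (z + lsE θ • w' + ε • w))
  have hfe : ∀ θ w, f θ w = C * b5K w - b5K w * v (z + lsE θ • w' + ε • w) := by
    intro θ w
    by_cases hw : ‖w‖ ≤ 1
    · simp only [f, hV, Set.indicator_of_mem (hmem _ w (lsE_norm θ).le hw)]
      ring
    · simp [f, b5K_eq_zero (not_le.1 hw).le]
  have hf0 : ∀ θ w, 0 ≤ f θ w := by
    intro θ w
    by_cases hw : ‖w‖ ≤ 1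
    · rw [hfe, mul_comm C, ← mul_sub]
      exact mul_nonneg (b5K_nonneg w) (by linarith [hC _ w (lsE_norm θ).le hw])
    · simp [f, b5K_eq_zero (not_le.1 hw).le]
  have hfm : Measurable (fun p : ℝ × CE ι => f p.1 p.2) := by
    have hcc : Continuous fun p : ℝ × CE ι => z + lsE p.1 • w' + ε • p.2 := by
      have := lsE_continuous
      fun_prop
    exact (b5K_contDiff.continuous.measurable.comp measurable_snd).mul
      (measurable_const.sub (hVm.comp hcc.measurable))
  have hzθ : ∀ θ, z + lsE θ • w' ∈ b5Shrink U ε := fun θ => hd.circle_mem θ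
  have hI : ∀ y, y ∈ b5Shrink U ε → Integrable (fun w : CE ι => C * b5K w - b5K w * v (y + ε • w)) ∧
      ∫ w : CE ι, (C * b5K w - b5K w * v (y + ε • w)) = c * (C - b5Moll ε v y) := by
    intro y hy
    have i1 := b5Moll_integrable hU hvi hε hy
    refine ⟨(b5K_integrable.const_mul C).sub i1, ?_⟩
    rw [integral_sub (b5K_integrable.const_mul C) i1, integral_const_mul]
    unfold b5Moll
    rw [← hc, mul_sub, mul_inv_cancel_left₀ hc0.ne']
    ring
  have hfi : ∀ θ, Integrable (f θ) := fun θ => by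
    have := (hI _ (hzθ θ)).1
    exact this.congr (Eventually.of_forall fun w => (hfe θ w).symm)
  have hfint : ∀ θ, ∫ w, f θ w = c * (C - b5Moll ε v (z + lsE θ • w')) := fun θ => by
    rw [← (hI _ (hzθ θ)).2]
    exact integral_congr_ae (Eventually.of_forall fun w => hfe θ w)
  set g : CE ι → ℝ := fun w => C * b5K w - b5K w * v (z + ε • w) with hg
  have hg0 : ∀ w, 0 ≤ g w := by
    intro w
    by_cases hw : ‖w‖ ≤ 1
    · have := hC 0 w (by simp) hw
      simp only [zero_smul, add_zero] at this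
      simp only [hg]
      rw [mul_comm C, ← mul_sub]
      exact mul_nonneg (b5K_nonneg w) (by linarith)
    · simp [hg, b5K_eq_zero (not_le.1 hw).le]
  obtain ⟨hgi, hgint⟩ := hI z hd.center_mem
  have hinner : ∀ w, ∫⁻ θ in Set.Ioc 0 (2 * Real.pi), ENNReal.ofReal (f θ w) ≤
      ENNReal.ofReal (2 * Real.pi * g w) := by
    intro w
    by_cases hw : ‖w‖ ≤ 1
    · have hdw : b5Disc U (z + ε • w) w' := fun ζ hζ => by
        have := hmem ζ w hζ hw
        rwa [add_right_comm] at this
      have i1 := h.circle_integrable hdw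
      have e1 : ∀ θ, f θ w = b5K w * (C - v (z + ε • w + lsE θ • w')) := fun θ => by
        rw [hfe, add_right_comm]
        ring
      have i2 : IntervalIntegrable (fun θ => f θ w) volume 0 (2 * Real.pi) := by
        simp only [e1]
        exact (((intervalIntegrable_const).sub i1).const_mul _)
      rw [← ofReal_integral_eq_lintegral_ofReal i2.1 (Eventually.of_forall fun θ => hf0 θ w)]
      refine ENNReal.ofReal_le_ofReal ?_
      rw [← intervalIntegral.integral_of_le hpi.le]
      simp only [e1]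
      rw [intervalIntegral.integral_const_mul, intervalIntegral.integral_sub intervalIntegrable_const i1,
        intervalIntegral.integral_const, sub_zero, smul_eq_mul]
      have h3 := h.le_cav hdw
      rw [b5Cav, inv_mul_eq_div, le_div_iff₀ hpi] at h3
      have h4 : b5K w * (2 * Real.pi * C - ∫ θ in (0 : ℝ)..(2 * Real.pi), v (z + ε • w + lsE θ • w')) ≤
          b5K w * (2 * Real.pi * C - v (z + ε • w) * (2 * Real.pi)) :=
        mul_le_mul_of_nonneg_left (by linarith) (b5K_nonneg w)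
      simp only [hg]
      linarith
    · simp [f, hg, b5K_eq_zero (not_le.1 hw).le]
  have hucont : Continuous fun θ : ℝ => b5Moll ε v (z + lsE θ • w') := by
    have hcc : Continuous fun θ : ℝ => z + lsE θ • w' := by
      have := lsE_continuous
      fun_prop
    exact hcont.comp_continuous hcc hzθ
  have hθ0 : ∀ θ, 0 ≤ c * (C - b5Moll ε v (z + lsE θ • w')) := fun θ => by
    rw [← hfint θ]
    exact integral_nonneg (hf0 θ)
  have hii : IntervalIntegrable (fun θ => c * (C - b5Moll ε v (z + lsE θ • w'))) volume 0 (2 * Real.pi) :=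
    (continuous_const.mul (continuous_const.sub hucont)).intervalIntegrable _ _
  have key : ENNReal.ofReal (∫ θ in (0 : ℝ)..(2 * Real.pi), c * (C - b5Moll ε v (z + lsE θ • w')))
      ≤ ENNReal.ofReal (2 * Real.pi * (c * (C - b5Moll ε v z))) := by
    calc ENNReal.ofReal (∫ θ in (0 : ℝ)..(2 * Real.pi), c * (C - b5Moll ε v (z + lsE θ • w')))
        = ∫⁻ θ in Set.Ioc 0 (2 * Real.pi), ENNReal.ofReal (c * (C - b5Moll ε v (z + lsE θ • w'))) := by
          rw [intervalIntegral.integral_of_le hpi.le]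
          exact ofReal_integral_eq_lintegral_ofReal hii.1 (Eventually.of_forall hθ0)
      _ = ∫⁻ θ in Set.Ioc 0 (2 * Real.pi), ∫⁻ w, ENNReal.ofReal (f θ w) := by
          refine lintegral_congr fun θ => ?_
          rw [← hfint θ]
          exact ofReal_integral_eq_lintegral_ofReal (hfi θ) (Eventually.of_forall (hf0 θ))
      _ = ∫⁻ w, ∫⁻ θ in Set.Ioc 0 (2 * Real.pi), ENNReal.ofReal (f θ w) :=
          lintegral_lintegral_swap hfm.ennreal_ofReal.aemeasurable
      _ ≤ ∫⁻ w, ENNReal.ofReal (2 * Real.pi * g w) := lintegral_mono hinner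
      _ = ENNReal.ofReal (∫ w, 2 * Real.pi * g w) :=
          (ofReal_integral_eq_lintegral_ofReal (hgi.const_mul _)
            (Eventually.of_forall fun w => mul_nonneg hpi.le (hg0 w))).symm
      _ = ENNReal.ofReal (2 * Real.pi * (c * (C - b5Moll ε v z))) := by
          rw [integral_const_mul, hgint]
  have hr0 : 0 ≤ 2 * Real.pi * (c * (C - b5Moll ε v z)) := by
    rw [← hgint]
    exact mul_nonneg hpi.le (integral_nonneg hg0)
  rw [ENNReal.ofReal_le_ofReal_iff hr0, intervalIntegral.integral_const_mul,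
    intervalIntegral.integral_sub intervalIntegrable_const (hucont.intervalIntegrable _ _),
    intervalIntegral.integral_const, sub_zero, smul_eq_mul] at key
  rw [b5Cav, inv_mul_eq_div, le_div_iff₀ hpi]
  have : c * (2 * Real.pi * C - ∫ θ in (0 : ℝ)..(2 * Real.pi), b5Moll ε v (z + lsE θ • w'))
      ≤ c * (2 * Real.pi * (C - b5Moll ε v z)) := by linarith
  have := le_of_mul_le_mul_left this hc0
  linarith

/-- **the mollification of a psh function is psh.** -/
theorem PshOn.b5Moll_pshOn (hU : IsOpen U) (h : PshOn U v) (hε : 0 < ε) :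
    PshOn (b5Shrink U ε) (b5Moll ε v) := by
  have hvi := h.locallyIntegrableOn hU
  have hcont : ContinuousOn (b5Moll ε v) (b5Shrink U ε) := (contDiffOn_b5Moll hU hvi hε).continuousOn
  exact pshOnE_of_continuousOn_of_le_cav hcont fun z w' hd => b5_moll_le_cav hU h hε hd

theorem PshOn.levi_b5Moll [DecidableEq ι] (hU : IsOpen U) (h : PshOn U v) (hε : 0 < ε) :
    ∀ y ∈ b5Shrink U ε, (levi (b5Moll ε v) y).PosSemidef := by
  exact levi_posSemidef_of_pshOn (isOpen_b5Shrink hU ε)
    ((contDiffOn_b5Moll hU (h.locallyIntegrableOn hU) hε).of_le (by norm_cast))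
    (PshOn.b5Moll_pshOn hU h hε)

/-- **upper semicontinuity ⟹ the mollifications are eventually below any continuous strict majorant, uniformly on compact families.** -/
theorem b5Moll_lt_of_usc {T : Type} [TopologicalSpace T] {S : Set T} (hS : IsCompact S) (hU : IsOpen U)
    (hv : UpperSemicontinuousOn v U) (hvi : LocallyIntegrableOn v U) {γ : T → CE ι}
    (hγ : ContinuousOn γ S) (hγU : Set.MapsTo γ S U) {φ : T → ℝ} (hφ : ContinuousOn φ S)
    (hlt : ∀ t ∈ S, v (γ t) < φ t) :
    ∃ ε₀ : ℝ, 0 < ε₀ ∧ ∀ ε : ℝ, 0 < ε → ε < ε₀ → ∀ t ∈ S, γ t ∈ b5Shrink U ε ∧ b5Moll ε v (γ t) < φ t := by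
  have key : ∃ ε₀ : ℝ, 0 < ε₀ ∧ ∀ ε : ℝ, 0 < ε → ε < ε₀ → ∀ t ∈ S ∩ S,
      γ t ∈ b5Shrink U ε ∧ b5Moll ε v (γ t) < φ t := by
    refine hS.induction_on (p := fun A => ∃ ε₀ : ℝ, 0 < ε₀ ∧ ∀ ε : ℝ, 0 < ε → ε < ε₀ → ∀ t ∈ A ∩ S,
      γ t ∈ b5Shrink U ε ∧ b5Moll ε v (γ t) < φ t) ⟨1, one_pos, by simp⟩ ?_ ?_ ?_
    · rintro A B hAB ⟨ε₀, h0, H⟩
      exact ⟨ε₀, h0, fun ε h1 h2 t ht => H ε h1 h2 t ⟨hAB ht.1, ht.2⟩⟩
    · rintro A B ⟨ε₁, h1, H1⟩ ⟨ε₂, h2, H2⟩
      refine ⟨min ε₁ ε₂, lt_min h1 h2, fun ε h3 h4 t ht => ?_⟩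
      rcases ht with ⟨ht | ht, htS⟩
      · exact H1 ε h3 (h4.trans_le (min_le_left _ _)) t ⟨ht, htS⟩
      · exact H2 ε h3 (h4.trans_le (min_le_right _ _)) t ⟨ht, htS⟩
    · intro t₀ ht₀
      obtain ⟨b, hb1, hb2⟩ := exists_between (hlt t₀ ht₀)
      obtain ⟨b', hb3, hb4⟩ := exists_between hb2
      have h1 := hv (γ t₀) (hγU ht₀) b hb1
      rw [hU.nhdsWithin_eq (hγU ht₀)] at h1
      obtain ⟨ρ, hρ, Hρ⟩ := Metric.eventually_nhds_iff.1 (h1.and (hU.eventually_mem (hγU ht₀)))
      have hN1 : ∀ᶠ t in 𝓝[S] t₀, dist (γ t) (γ t₀) < ρ / 2 :=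
        (hγ t₀ ht₀).eventually (Metric.ball_mem_nhds _ (by positivity))
      have hN2 : ∀ᶠ t in 𝓝[S] t₀, b' < φ t := (hφ t₀ ht₀).eventually (lt_mem_nhds hb4)
      refine ⟨{t | dist (γ t) (γ t₀) < ρ / 2 ∧ b' < φ t}, hN1.and hN2, ρ / 2, by positivity, ?_⟩
      rintro ε hε hε' t ⟨⟨ht1, ht2⟩, -⟩
      have hball : ∀ y ∈ Metric.closedBall (γ t) ε, v y < b ∧ y ∈ U := by
        intro y hy
        refine Hρ ?_
        calc dist y (γ t₀) ≤ dist y (γ t) + dist (γ t) (γ t₀) := dist_triangle _ _ _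
          _ < ρ / 2 + ρ / 2 := add_lt_add_of_le_of_lt ((Metric.mem_closedBall.1 hy).trans hε'.le) ht1
          _ = ρ := by ring
      have hsh : γ t ∈ b5Shrink U ε := fun y hy => (hball y hy).2
      refine ⟨hsh, ?_⟩
      have := b5Moll_le_of_le hU hvi hε hsh (C := b) fun y hy => (hball y hy).1.le
      linarith
  simpa using key

/-- pointwise convergence. -/
theorem PshOn.tendsto_b5Moll (hU : IsOpen U) (h : PshOn U v) (hz : z ∈ U) :
    Tendsto (fun ε => b5Moll ε v z) (𝓝[>] 0) (𝓝 (v z)) := by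
  rw [tendsto_order]
  constructor
  · intro a ha
    obtain ⟨ε₀, hε₀, H⟩ := b5_exists_subset_shrink hU (isCompact_singleton (x := z)) (by simpa using hz)
    filter_upwards [Ioo_mem_nhdsGT hε₀] with ε hε
    exact ha.trans_le (PshOn.le_b5Moll hU h hε.1 (H ε hε.2 rfl))
  · intro a ha
    obtain ⟨ε₀, hε₀, H⟩ := b5Moll_lt_of_usc (T := Unit) (S := Set.univ) isCompact_univ hU h.1
      (h.locallyIntegrableOn hU) (γ := fun _ => z) continuousOn_const (fun _ _ => hz) (φ := fun _ => a)
      continuousOn_const (fun _ _ => ha)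
    filter_upwards [Ioo_mem_nhdsGT hε₀] with ε hε
    exact (H ε hε.1 hε.2 () trivial).2

end B3

end Claimed.Agent.R316
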