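import Claimed.Agent.R316.Base.Rich.Moll

/-!
# Row 316, B5: `levi_wsMol_ge` (moved here from `B5/Psh.lean` by helper4: it is a corollary of `levi_wsMol_ge_of_chVisc`, `Base/Rich/Moll.lean`, which imports `B5/Psh.lean`)
-/

set_option autoImplicit false
open scoped ContDiff ComplexOrder Topology
open MeasureTheory Filter

namespace Claimed.Agent.R316

variable {ι : Type} [Fintype ι] [DecidableEq ι]

/-- a function which is smooth on `O` is a viscosity sub-solution of `levi ≥ levi u`. -/
theorem b5_chVisc_levi {O : Set (CE ι)} (hO : IsOpen O) {u : CE ι → ℝ} (hs : ContDiffOn ℝ 2 u O) :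
    ChVisc O u (levi u) := by
  intro z hz q hq hle heq
  have h2 : ContDiffAt ℝ 2 u z := hs.contDiffAt (hO.mem_nhds hz)
  have hq2 : ContDiffAt ℝ 2 q z := (hq.of_le (by norm_cast)).contDiffAt
  have h1 := levi_posSemidef_of_pshOn_touching isOpen_univ (pshOn_const Set.univ 0) (Set.mem_univ z)
    (hq2.sub h2) (by
      filter_upwards [hle] with y hy
      linarith) (by simp [heq])
  rwa [levi_sub hq2 h2] at h1

/-- second derivatives of the mollifications of a function which is smooth on `O` converge uniformly on compact subsets of `O`. -/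
theorem levi_wsMol_ge {O K : Set (CE ι)} (hO : IsOpen O) {u : CE ι → ℝ} (hu : LocallyIntegrable u volume)
    (hs : ContDiffOn ℝ ∞ u O) (hK : IsCompact K) (hKO : K ⊆ O) {η : ℝ} (hη : 0 < η) :
    ∀ᶠ k : ℕ in atTop, ∀ z ∈ K, (levi (B6E.wsMol k u) z - levi u z + cI η).PosSemidef := by
  have hs2 : ContDiffOn ℝ 2 u O := hs.of_le (by norm_cast)
  have h2 : ∀ z ∈ O, ContDiffAt ℝ 2 u z := fun z hz => hs2.contDiffAt (hO.mem_nhds hz)
  refine levi_wsMol_ge_of_chVisc hO hK hKO hu hs.continuousOn (a := levi u) (fun j k z hz => ?_)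
    (fun z hz => levi_isHermitian (h2 z hz)) (b5_chVisc_levi hO hs2) hη
  exact (contDiffAt_levi (m := 0) (h2 z hz) (by norm_num)).continuousAt.continuousWithinAt

end Claimed.Agent.R316
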